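import Vale.Agent.P240.R2.H493.OutB

/-!
`²E₆(q)` satisfies `EuFree 3` if `3` divides `q + 1` and the order of `Aut(F)`.
-/

set_option autoImplicit false

namespace Vale.Agent.P240.R2.H493

open Subgroup Vale.Agent.P240.K Vale.Agent.P240.H195 CartanMatrix
open Vale.Agent.P240.R2.H945 Vale.Agent.P240.R2.H945.W
open Vale.Agent.P240.R2.H165.XC
open Vale.Agent.P240.R2.H986.X (RC nn nl wl SS)

universe u v

section
variable {n : ℕ} {A : Matrix (Fin n) (Fin n) ℤ} {m : ℕ} {F : Type} [Field F] {L : Type u} [Group L]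

/-- everything exposed, with coordinates of the roots -/
theorem data_coo (h : IsTw A m F L) (hA : Conn A)
    (hab : ∃ x y : L, x * y ≠ y * x) :
    ∃ (ι : Type) (_ : Finite ι) (C : RC ι) (e : Fin n → ι) (K₀ : Subfield F)
      (K : ι → Subfield F) (x : ι → F → L) (co : ι → Fin n → ℤ),
      TD A m C e K₀ K x ∧ Coo C e co := by
  classical
  obtain ⟨ι, hι, P, _, _, b, e, K₀, K, x, hb, he, hx, hcard, hK, hrel⟩ := h
  have h0 : ∀ i, e i ∈ b.support := fun i => by
    rw [hb, Finset.mem_map]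
    exact ⟨i, Finset.mem_univ i, rfl⟩
  let f : Fin n → b.support := fun i => ⟨e i, h0 i⟩
  have hf : Function.Bijective f := by
    constructor
    · intro i j hij
      exact e.injective (congrArg Subtype.val hij)
    · rintro ⟨k, hk⟩
      have hk' := hk
      rw [hb, Finset.mem_map] at hk'
      obtain ⟨i, -, hi⟩ := hk'
      exact ⟨i, Subtype.ext hi⟩
  let e' : b.support ≃ Fin n := (Equiv.ofBijective f hf).symm
  have he' : ∀ i j, b.cartanMatrix i j = A (e' i) (e' j) := by
    intro i j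
    obtain ⟨i, rfl⟩ := e'.symm.surjective i
    obtain ⟨j, rfl⟩ := e'.symm.surjective j
    rw [e'.apply_symm_apply, e'.apply_symm_apply, ← he]
    rfl
  have hB : Conn b.cartanMatrix := hA.transport e' he'
  have hne : b.support.Nonempty := by
    have : Nonempty ι := by
      by_contra hne
      rw [not_nonempty_iff] at hne
      have h1 : (⊤ : Subgroup L) ≤ ⊥ := by
        rw [← hx.gen, grK, closure_le]
        rintro _ ⟨i, -⟩
        exact (hne.false i).elim
      obtain ⟨a, c, hac⟩ := hab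
      have h2 := mem_bot.1 (h1 (mem_top a))
      exact hac (by rw [h2, one_mul, mul_one])
    exact b.support_nonempty
  obtain ⟨C, hht, hneg, hsr, hsimp, hpr, hc⟩ := H281X1.stmtX1 ι _ _ P b hne (by
      intro p ⟨i, hi, hpi⟩ hst j hj
      exact hB (fun k => p k.1) ⟨⟨i, hi⟩, hpi⟩
        (fun i j hi hij => hst i.1 j.1 i.2 j.2 hi hij) ⟨j, hj⟩)
  have hTS := ts_of_twChev hx hht hneg hsr hc
  have hneg' : C.neg = fun i => P.reflectionPerm i i := funext hneg
  obtain ⟨co, hco⟩ := exists_coo (e := e) hb hht hneg hsr (fun i j => hpr i j) hc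
  refine ⟨ι, hι, C, e, K₀, K, x, co, ⟨hTS, e.injective, ?_, ?_, hcard, fun i j hij => (hK i j hij).1,
    fun i j hij => (hK i j hij).2, ?_, ?_⟩, hco⟩
  · intro i
    rw [hsimp, hb, Finset.mem_map]
    constructor
    · rintro ⟨k, -, rfl⟩
      exact ⟨k, rfl⟩
    · rintro ⟨k, rfl⟩
      exact ⟨k, Finset.mem_univ k, rfl⟩
  · intro i j
    rw [hpr]
    exact he i j
  · intro i j hij hji
    have h1 : P.pairing (e i) (e j) = -1 := by
      rw [← P.algebraMap_pairingIn ℤ, he, hij]
      simp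
    have h2 : P.pairing (e j) (e i) = -1 := by
      rw [← P.algebraMap_pairingIn ℤ, he, hji]
      simp
    have h3 : P.reflectionPerm (e i) (P.reflectionPerm (e j) (e i)) = e j := by
      apply P.root.injective
      rw [RootPairing.root_reflectionPerm, RootPairing.root_reflectionPerm,
        RootPairing.reflection_apply_root, h1, map_sub, map_smul,
        RootPairing.reflection_apply_self, RootPairing.reflection_apply_root, h2]
      module
    rw [← h3, hx.field, hx.field]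
  · intro i j hij t u ht ht0 hu
    have h1 := hrel i j hij t u ht ht0 hu
    rw [hh, hneg']
    exact h1

end

/-- the order of `K₀` -/
lemma exists_z {F : Type} [Field F] [Finite F] {K₀ : Subfield F} {t : ℕ} (ht : 2 ≤ t)
    (hq : Nat.card K₀ = t ^ 3) : ∃ z ∈ K₀, orderOf z = t ^ 2 + t + 1 := by
  classical
  have := Fintype.ofFinite K₀
  obtain ⟨g, hg⟩ := IsCyclic.exists_generator (α := K₀ˣ)
  have h1 : orderOf g = t ^ 3 - 1 := by
    rw [orderOf_eq_card_of_forall_mem_zpowers hg, Nat.card_eq_fintype_card, Fintype.card_units,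
      ← Nat.card_eq_fintype_card, hq]
  have h2 : t ^ 3 - 1 = (t - 1) * (t ^ 2 + t + 1) := by
    obtain ⟨k, rfl⟩ : ∃ k, t = k + 1 := ⟨t - 1, by omega⟩
    have h3 : (k + 1) ^ 3 = (k + 1 - 1) * ((k + 1) ^ 2 + (k + 1) + 1) + 1 := by
      rw [Nat.add_sub_cancel]; ring
    omega
  refine ⟨((g ^ (t - 1) : K₀ˣ) : K₀), ((g ^ (t - 1) : K₀ˣ) : K₀).2, ?_⟩
  have h3 : orderOf (g ^ (t - 1)) = t ^ 2 + t + 1 := by
    rw [orderOf_pow' _ (by omega), h1, h2, Nat.gcd_mul_right_left,
      Nat.mul_div_cancel_left _ (by omega)]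
  rw [← h3, ← orderOf_units]
  have h4 := orderOf_injective (K₀.subtype : K₀ →* F) Subtype.val_injective
    ((g ^ (t - 1) : K₀ˣ) : K₀)
  exact h4

section
variable {F : Type} [Field F] [Finite F] {L : Type u} [Group L] [Finite L]

/-- **`²E₆(q)` satisfies `EuFree 3`**, if the characteristic is not `3` and `3` divides the order of
`Aut(F)` and `q + 1` -/
theorem _root_.Vale.Agent.P240.R2.H945.Is2E6.euFree3' (h : Is2E6 F L) (hs : IsSimpleGroup L)
    (hab : ∃ x y : L, x * y ≠ y * x) {r : ℕ} [Fact r.Prime] [CharP F r] (hr3 : r ≠ 3) {q : ℕ}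
    (hq : Nat.card F = q ^ 2) (h3 : 3 ∣ q + 1) (hA : 3 ∣ Nat.card (F ≃+* F)) :
    EuFree 3 L := by
  classical
  have hcen := centre_of_nonabelian hs hab
  obtain ⟨ι, _, C, e, K₀, K, x, co, hd, hco⟩ := data_coo h F4_conn hab
  have hD : Dt C e K₀ K x co := ⟨hd, hco, hcen⟩
  have hq' : Nat.card K₀ = q := by
    have h1 := hd.card
    rw [hq] at h1
    exact (Nat.pow_left_injective (by norm_num) h1).symm
  -- `q` is a cube
  have hfin : Finite (F ≃+* F) := Finite.of_injective (fun f : F ≃+* F => (f : F → F))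
    DFunLike.coe_injective
  have : Fact (Nat.Prime 3) := ⟨Nat.prime_three⟩
  obtain ⟨σ, hσ⟩ := exists_prime_orderOf_dvd_card' (G := F ≃+* F) 3 hA
  have hσ3 : σ ^ 3 = 1 := by rw [← hσ]; exact pow_orderOf_eq_one σ
  have hσ1 : σ ≠ 1 := by
    rintro rfl
    rw [orderOf_one] at hσ
    omega
  obtain ⟨a, ha, -⟩ := exists_fix_card (F := F) (σ := σ) hσ3 hσ1
  rw [hq] at ha
  obtain ⟨t, ht, rfl⟩ := cube_of ha
  have ht3 : 2 ≤ t := by
    by_contra hcon
    have : t = 0 ∨ t = 1 := by omega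
    rcases this with rfl | rfl
    · rw [ht] at h3; norm_num at h3
    · rw [ht] at h3; norm_num at h3
  have hqt : Nat.card K₀ = t ^ 3 := by rw [hq', ht]
  obtain ⟨z, hzK, hz⟩ := exists_z ht3 hqt
  have hz0 : z ≠ 0 := by
    rintro rfl
    rw [orderOf_eq_zero_iff'.2] at hz
    · omega
    · intro n hn
      rw [zero_pow hn.ne']
      exact zero_ne_one
  -- cube roots of unity
  have hc3 : ∀ c ∈ K₀, c ^ 3 = 1 → c = 1 := by
    intro c hc hc3
    have := Fintype.ofFinite K₀
    have hc0 : (⟨c, hc⟩ : K₀) ≠ 0 := by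
      intro h0
      have : c = 0 := congrArg Subtype.val h0
      rw [this] at hc3
      norm_num at hc3
    have h1 := FiniteField.pow_card_sub_one_eq_one (⟨c, hc⟩ : K₀) hc0
    rw [← Nat.card_eq_fintype_card, hq'] at h1
    have h2 : c ^ (q - 1) = 1 := congrArg Subtype.val h1
    have hq0 : 0 < q := by
      rcases Nat.eq_zero_or_pos q with rfl | h0
      · norm_num at h3
      · exact h0
    have h4 : Nat.gcd 3 (q - 1) = 1 := by
      rw [← Nat.Coprime, Nat.Prime.coprime_iff_not_dvd Nat.prime_three]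
      omega
    have h5 := Nat.dvd_gcd (orderOf_dvd_of_pow_eq_one hc3) (orderOf_dvd_of_pow_eq_one h2)
    rw [h4, Nat.dvd_one, orderOf_eq_one_iff] at h5
    exact h5
  have hrz : Nat.Coprime r (t ^ 2 + t + 1) := by
    rw [Nat.Prime.coprime_iff_not_dvd Fact.out]
    intro hdvd
    have h1 : r ∣ t := by
      have h2 : r ∣ Nat.card F := by
        have := Fintype.ofFinite F
        rw [← CharP.cast_eq_zero_iff F r, Nat.card_eq_fintype_card]
        exact FiniteField.cast_card_eq_zero F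
      rw [hq, ht] at h2
      exact (Fact.out : r.Prime).dvd_of_dvd_pow ((Fact.out : r.Prime).dvd_of_dvd_pow h2)
    have h2 : r ∣ 1 := by
      have h4 : t ^ 2 + t + 1 = t * (t + 1) + 1 := by ring
      rw [h4] at hdvd
      exact (Nat.dvd_add_right (h1.mul_right _)).1 hdvd
    exact (Fact.out : r.Prime).one_lt.ne' (Nat.dvd_one.1 h2)
  obtain ⟨s, hsc⟩ := hD.exists_hc hzK hz0 ![2, 3, 2, 1]
  refine ⟨s * Dt.uu e x, hD.eu_part r hr3 hc3 ht3 hqt hz hzK hrz hsc, fun f hf hfo hfs => hfo ?_⟩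
  exact hD.out_part r ht3 hqt hz hzK hrz hsc hf hfs

/-- the theorem `Is2E6.euFree3'` with the superfluous hypothesis `q ≠ 8` (kept for compatibility) -/
theorem _root_.Vale.Agent.P240.R2.H945.Is2E6.euFree3 (h : Is2E6 F L) (hs : IsSimpleGroup L)
    (hab : ∃ x y : L, x * y ≠ y * x) {r : ℕ} [Fact r.Prime] [CharP F r] (hr3 : r ≠ 3) {q : ℕ}
    (hq : Nat.card F = q ^ 2) (h3 : 3 ∣ q + 1) (hA : 3 ∣ Nat.card (F ≃+* F)) (_h8 : q ≠ 8) :
    EuFree 3 L :=
  h.euFree3' hs hab hr3 hq h3 hA

end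

end Vale.Agent.P240.R2.H493
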