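import Vale.Agent.P240.R2.H493.O5b
import Vale.Agent.P240.H138.T6

/-!
Block (O5+): the statement.
-/

set_option autoImplicit false
set_option linter.all false

namespace Vale.Agent.P240.R2.H493.O5

open Vale.Agent.P240.R2.H406 (StmtKer StmtAut)

universe v w

/-- **block (O5+)** from the property `AutTop` -/
theorem stmtO5p_of (hK : StmtKer) (hA : StmtAut.{w}) : H138.T6.StmtO5p.{v, w} :=
  fun 𝕜 _ hs h5 hn h8 _ _ e => o5p_of hK hA 𝕜 hs h5 hn h8 e

end Vale.Agent.P240.R2.H493.O5
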