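import Vale.Agent.P240.R2.H493.Iso6a
import Vale.Agent.P240.R2.H458.PD

/-!
The group `PSL_4(5)` is `PΩ_6^+(5)` (block (S7)).
-/

set_option autoImplicit false
set_option linter.all false

namespace Vale.Agent.P240.R2.H493.O5

universe u

/-- **(S7)** -/
theorem stmtIso6 : Vale.Agent.P240.R2.H458.StmtIso6.{u} :=
  fun L _ F _ _ ⟨e⟩ h5 => iso6 e h5

end Vale.Agent.P240.R2.H493.O5
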