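import Vale.Agent.P240.R2.H493.Eu

/-!
Bruhat decomposition: torus elements, descents, coordinates.
-/

set_option autoImplicit false

namespace Vale.Agent.P240.R2.H493

open Subgroup Vale.Agent.P240.K Vale.Agent.P240.H195 Vale.Agent.P240.R2.H945.W
open Vale.Agent.P240.R2.H986.X (RC nn nl wl nl_nil nl_cons nl_append wl_nil wl_cons wl_append SS
  wl_rev wl_rev' wl_neg)

universe u

section
variable {ι : Type*} {F : Type*} [Field F] {L : Type u} [Group L] {C : RC ι} {K : ι → Subfield F}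
  {x : ι → F → L}

section
variable (r : ℕ) [Fact r.Prime] [CharP F r] [Finite ι] [Finite F] [Finite L] (h : TS C K x)
  (hcen : ∀ g : L, (∀ y, g * y = y * g) → g = 1)
include r h hcen

/-- descents -/
theorem desc {l : List ι} (hls : ∀ j ∈ l, C.simp j) {t : L} (ht : t ∈ TT C K x) {i : ι}
    (hi : C.simp i) (hneg : C.ht (wl C l i) < 0) {y : L} (hy : y ∈ UU C K x)
    (hy' : t * nl C x l * y * (t * nl C x l)⁻¹ ∈ UU C K x) : y ∈ Ui C K x i := by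
  have hbn := bn0 r h hcen
  obtain ⟨v, hv, c, hc, rfl⟩ := U_dec h hi hy
  by_cases hc0 : c = 0
  · rw [hc0, h.x_zero, mul_one]
    exact hv
  exfalso
  set n := nn C.neg x i 1 with hn
  have hnN : n ∈ NN C K x := TS.SS_le _ (n_mem_SS hi)
  set m := t * nl C x l * n with hm
  have hmN : m ∈ NN C K x := mul_mem (mul_mem (TS.TT_le ht) (TS.nl_mem hls)) hnN
  -- `n⁻¹ y n ∈ B n B`
  have h1 : n⁻¹ * (v * x i c) * n ∉ BB C K x := by
    intro h1
    obtain ⟨φ, hφ, hφ0, h2⟩ := n_inv_act h i i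
    have h3 := TS.UU_le (Ui_le i (inv_conj_Ui h hi hv))
    have e1 : n⁻¹ * (v * x i c) * n = (n⁻¹ * v * n) * (n⁻¹ * x i c * n) := by group
    rw [e1] at h1
    have h4 := (mul_mem_cancel_left h3).1 h1
    rw [hn, h2 c hc, C.s_self] at h4
    have hk : φ c ∈ K (C.neg i) := by rw [h.K_neg]; exact hφ _ hc
    exact hφ0 c hc hc0 (h.x_not_mem (simp_neg_lt hi) hk (mem_U_of_pow h hcen r h4
      (x_pow_r r h hk)))
  have h2 : n⁻¹ * (v * x i c) * n ∈ Par (BB C K x) n :=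
    mul_mem (mul_mem (inv_mem self_mem_Par) (le_Par (TS.UU_le hy))) self_mem_Par
  obtain ⟨b₁, hb₁, b₂, hb₂, hb⟩ := ((hbn.par_mem_iff (n_mem_SS hi)).1 h2).resolve_left h1
  rw [← hn] at hb
  -- `m b₁ n ∈ B m B`
  have h3 : DC (BB C K x) m (m * b₁ * n) := by
    have e1 : t * nl C x l * (v * x i c) * (t * nl C x l)⁻¹ = m * (n⁻¹ * (v * x i c) * n) * m⁻¹ := by
      rw [hm]; group
    rw [e1, hb] at hy'
    refine ⟨_, TS.UU_le hy', b₂⁻¹, inv_mem hb₂, ?_⟩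
    group
  -- `m b₁ n ∈ B m n B`
  have h4 : DC (BB C K x) (m * n) (m * b₁ * n) := by
    obtain ⟨u₁, hu₁, t₁, ht₁, rfl⟩ := h.mem_BB hb₁
    obtain ⟨v₁, hv₁, c₁, hc₁, rfl⟩ := U_dec' h hi hu₁
    refine ⟨m * x i c₁ * m⁻¹, ?_, (n⁻¹ * v₁ * n) * (n⁻¹ * t₁ * n), mul_mem
      (TS.UU_le (Ui_le i (inv_conj_Ui h hi hv₁))) ?_, by group⟩
    · obtain ⟨φ, hφ, hφ0, h5, -⟩ := h.nl_act (l ++ [i]) i
      have h6 : nl C x (l ++ [i]) = nl C x l * n := by
        rw [nl_append, nl_cons, nl_nil, mul_one]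
      have h7 : 0 < C.ht (wl C (l ++ [i]) i) := by
        rw [wl_append, wl_cons, wl_nil, C.s_self, wl_neg, C.ht_neg]
        omega
      have e2 : m * x i c₁ * m⁻¹ =
          t * (nl C x (l ++ [i]) * x i c₁ * (nl C x (l ++ [i]))⁻¹) * t⁻¹ := by
        rw [h6, hm]; group
      rw [e2, h5 c₁ hc₁]
      exact TS.UU_le (h.T_conj_gr ht (TS.x_mem_UU h7 (by rw [h.K_wl]; exact hφ _ hc₁)))
    · have h1 := N_conj_T h (inv_mem hnN) ht₁
      rw [inv_inv] at h1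
      exact TS.TT_le_BB h1
  have h5 := hbn.inj hmN (mul_mem hmN hnN) (h3.trans h4.symm)
  rw [inv_mul_cancel_left] at h5
  exact n_not_mem r h hcen hi h5

/-- conjugate torus elements -/
theorem tor_conj {a a' b b' g n : L} (ha : a ∈ TT C K x) (ha' : a' ∈ TT C K x)
    (hb : b ∈ BB C K x) (hb' : b' ∈ BB C K x) (hn : n ∈ NN C K x) (hg : g = b * n * b')
    (haa : g * a * g⁻¹ = a') : n * a * n⁻¹ = a' := by
  have key : ∀ a ∈ TT C K x, ∀ b ∈ BB C K x, ∃ ρ ∈ UU C K x, b * a * b⁻¹ = a * ρ := by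
    intro a ha b hb
    obtain ⟨u, hu, t, ht, rfl⟩ := h.mem_BB hb
    have h1 : t * a = a * t := T_comm h hcen ht ha
    refine ⟨(a⁻¹ * u * a⁻¹⁻¹) * u⁻¹, mul_mem (h.T_conj_gr (inv_mem ha) hu) (inv_mem hu), ?_⟩
    calc u * t * a * (u * t)⁻¹ = u * (t * a) * t⁻¹ * u⁻¹ := by group
      _ = _ := by rw [h1]; group
  obtain ⟨ρ, hρ, h1⟩ := key a ha b' hb'
  obtain ⟨ρ', hρ', h2⟩ := key a' ha' b⁻¹ (inv_mem hb)
  have h3 : n * a * n⁻¹ ∈ TT C K x := N_conj_T h hn ha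
  have h4 : n * ρ * n⁻¹ = (n * a * n⁻¹)⁻¹ * a' * ρ' := by
    have h5 : n * (a * ρ) * n⁻¹ = a' * ρ' := by
      rw [← h1, ← h2, ← haa, hg]
      group
    calc n * ρ * n⁻¹ = (n * a * n⁻¹)⁻¹ * (n * (a * ρ) * n⁻¹) := by group
      _ = _ := by rw [h5]; exact (mul_assoc _ _ _).symm
  have h5 : n * ρ * n⁻¹ ∈ UU C K x := by
    obtain ⟨k, hk⟩ := UU_pgroup h r ⟨ρ, hρ⟩
    have hk' : ρ ^ r ^ k = 1 := by simpa using congrArg Subtype.val hk
    refine mem_U_of_pow h hcen r ?_ (k := k) ?_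
    · rw [h4]
      exact mul_mem (mul_mem (inv_mem (TS.TT_le_BB h3)) (TS.TT_le_BB ha')) (TS.UU_le hρ')
    · rw [conj_pow, hk']
      group
  have h6 : (n * a * n⁻¹)⁻¹ * a' ∈ UU C K x := by
    rw [h4] at h5
    exact (mul_mem_cancel_right hρ').1 h5
  have h7 := T_inf_U r h hcen (mul_mem (inv_mem h3) ha') h6
  rw [inv_mul_eq_one] at h7
  exact h7

end

/-- the coordinate of `y` at the simple root `i` is `c` -/
def Cd (C : RC ι) (K : ι → Subfield F) (x : ι → F → L) (i : ι) (y : L) (c : F) : Prop :=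
  c ∈ K i ∧ ∃ v ∈ Ui C K x i, y = v * x i c

lemma Cd.mul (h : TS C K x) {i : ι} (hi : C.simp i) {y y' : L} {c c' : F}
    (h1 : Cd C K x i y c) (h2 : Cd C K x i y' c') : Cd C K x i (y * y') (c + c') := by
  obtain ⟨hc, v, hv, rfl⟩ := h1
  obtain ⟨hc', v', hv', rfl⟩ := h2
  refine ⟨add_mem hc hc', v * (x i c * v' * (x i c)⁻¹), mul_mem hv (Ui_conj_x h hi hc hv'), ?_⟩
  rw [h.add i _ _ hc hc']
  group

lemma Cd.eq (h : TS C K x) {i : ι} (hi : C.simp i) {y : L} {c c' : F}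
    (h1 : Cd C K x i y c) (h2 : Cd C K x i y c') : c = c' := by
  obtain ⟨hc, v, hv, rfl⟩ := h1
  obtain ⟨hc', v', hv', h3⟩ := h2
  have h4 : x i (c + -c') ∈ Ui C K x i := by
    rw [h.add i _ _ hc (neg_mem hc'), h.x_neg i hc']
    have h5 : x i c * (x i c')⁻¹ = v⁻¹ * v' := by
      rw [mul_inv_eq_iff_eq_mul, mul_assoc, ← h3, inv_mul_cancel_left]
    rw [h5]
    exact mul_mem (inv_mem hv) hv'
  have h5 := x_mem_Ui h hi (add_mem hc (neg_mem hc')) h4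
  linear_combination h5

lemma Cd.of_U (h : TS C K x) {i : ι} (hi : C.simp i) {y : L} (hy : y ∈ UU C K x) :
    ∃ c, Cd C K x i y c := by
  obtain ⟨v, hv, c, hc, rfl⟩ := U_dec h hi hy
  exact ⟨c, hc, v, hv, rfl⟩

lemma Cd.zero (h : TS C K x) {i : ι} {y : L} (hy : y ∈ Ui C K x i) : Cd C K x i y 0 :=
  ⟨zero_mem _, y, hy, by rw [h.x_zero, mul_one]⟩

lemma Cd.self {i : ι} {c : F} (hc : c ∈ K i) : Cd C K x i (x i c) c :=
  ⟨hc, 1, one_mem _, by rw [one_mul]⟩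

lemma Cd.other (h : TS C K x) {i j : ι} (hj : 0 < C.ht j) (hij : j ≠ i) {c : F} (hc : c ∈ K j) :
    Cd C K x i (x j c) 0 := Cd.zero h (subset_closure ⟨j, c, ⟨hj, hij⟩, hc, rfl⟩)

lemma Cd.conj (h : TS C K x) {i : ι} (hi : C.simp i) {y v : L} {c : F} (hy : Cd C K x i y c)
    (hv : v ∈ UU C K x) : Cd C K x i (v * y * v⁻¹) c := by
  obtain ⟨d, hd⟩ := Cd.of_U h hi hv
  obtain ⟨d', hd'⟩ := Cd.of_U h hi (inv_mem hv)
  have h1 := (hd.mul h hi hd')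
  rw [mul_inv_cancel] at h1
  have h2 : d + d' = 0 := h1.eq h hi (Cd.zero h (one_mem _))
  have h3 := (hd.mul h hi hy).mul h hi hd'
  have e1 : d + c + d' = c := by linear_combination h2
  rwa [e1] at h3

lemma Cd.conjT (h : TS C K x) {i : ι} {y t : L} {c : F} (hy : Cd C K x i y c)
    (ht : t ∈ TT C K x) {a : F} (ha : Ac K x i t a) : Cd C K x i (t * y * t⁻¹) (a * c) := by
  obtain ⟨hc, v, hv, rfl⟩ := hy
  refine ⟨mul_mem ha.1 hc, t * v * t⁻¹, h.T_conj_gr ht hv, ?_⟩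
  rw [← ha.2 c hc]
  group

end

end Vale.Agent.P240.R2.H493
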