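import Vale.Agent.P240.R2.H493.F4

/-!
Leading coefficients and centralizers of root elements.
-/

set_option autoImplicit false

namespace Vale.Agent.P240.R2.H493

open Subgroup Vale.Agent.P240.K Vale.Agent.P240.H195 Vale.Agent.P240.R2.H945.W
open Vale.Agent.P240.R2.H986.X (RC nn nl wl nl_nil nl_cons nl_append wl_nil wl_cons wl_append SS
  wl_rev wl_rev' wl_neg)

universe u

section
variable {ι : Type*} {F : Type*} [Field F] {L : Type u} [Group L] {C : RC ι} {K : ι → Subfield F}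
  {x : ι → F → L}

/-- `Ψ` contains the roots above `θ` -/
structure Lead (C : RC ι) (Ψ : ι → Prop) (θ : ι) : Prop where
  ideal : Ideal' C Ψ
  pos : 0 < C.ht θ
  cone : ∀ j k, 0 < C.ht j → C.cone θ j k → Ψ k

lemma U_norm (h : TS C K x) {Ψ : ι → Prop} (hΨ : Ideal' C Ψ) {u g : L} (hu : u ∈ UU C K x)
    (hg : g ∈ gr K x Ψ) : u * g * u⁻¹ ∈ gr K x Ψ := by
  have h1 : UU C K x ≤ normalizer (gr K x Ψ : Set L) := by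
    rw [H945.W.UU, gr, closure_le]
    rintro _ ⟨j, t, hj, ht, rfl⟩
    exact mem_norm h hΨ hj ht
  exact (mem_normalizer_iff.1 (h1 hu) g).1 hg

lemma B_norm (h : TS C K x) {Ψ : ι → Prop} (hΨ : Ideal' C Ψ) {b g : L} (hb : b ∈ BB C K x)
    (hg : g ∈ gr K x Ψ) : b * g * b⁻¹ ∈ gr K x Ψ := by
  obtain ⟨u, hu, t, ht, rfl⟩ := h.mem_BB hb
  have e1 : u * t * g * (u * t)⁻¹ = u * (t * g * t⁻¹) * u⁻¹ := by group
  rw [e1]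
  exact U_norm h hΨ hu (h.T_conj_gr ht hg)

lemma Lead.U {Ψ : ι → Prop} {θ : ι} (hΨ : Lead C Ψ θ) (h : TS C K x) {u : L}
    (hu : u ∈ UU C K x) {c : F} (hc : c ∈ K θ) : u * x θ c * u⁻¹ * (x θ c)⁻¹ ∈ gr K x Ψ := by
  refine closure_induction (p := fun u _ => u * x θ c * u⁻¹ * (x θ c)⁻¹ ∈ gr K x Ψ)
    ?_ ?_ ?_ ?_ hu
  · rintro _ ⟨j, t, hj, ht, rfl⟩
    by_cases hjθ : j = θ
    · subst hjθ
      rw [x_comm h _ ht hc, mul_inv_cancel_right, mul_inv_cancel]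
      exact one_mem _
    · have h1 := h.comm j θ hjθ (ne_neg hj hΨ.pos) t c ht hc
      exact gr_mono (fun k hk => hΨ.cone j k hj (C.cone_symm _ _ _ hk)) h1
  · simp
  · intro a b ha _ h1 h2
    have e1 : a * b * x θ c * (a * b)⁻¹ * (x θ c)⁻¹ =
        (a * (b * x θ c * b⁻¹ * (x θ c)⁻¹) * a⁻¹) * (a * x θ c * a⁻¹ * (x θ c)⁻¹) := by group
    rw [e1]
    exact mul_mem (U_norm h hΨ.ideal ha h2) h1
  · intro a ha h1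
    have e1 : a⁻¹ * x θ c * a⁻¹⁻¹ * (x θ c)⁻¹ =
        a⁻¹ * (a * x θ c * a⁻¹ * (x θ c)⁻¹)⁻¹ * a⁻¹⁻¹ := by group
    rw [e1]
    exact U_norm h hΨ.ideal (inv_mem ha) (inv_mem h1)

lemma Lead.B {Ψ : ι → Prop} {θ : ι} (hΨ : Lead C Ψ θ) (h : TS C K x) {b : L}
    (hb : b ∈ BB C K x) {c : F} (hc : c ∈ K θ) : ∃ ρ ∈ gr K x Ψ, ∃ c' ∈ K θ, (c ≠ 0 → c' ≠ 0) ∧
      b * x θ c * b⁻¹ = ρ * x θ c' := by
  obtain ⟨u, hu, t, ht, rfl⟩ := h.mem_BB hb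
  obtain ⟨a, haK, ha0, h1⟩ := h.T_act ht θ
  refine ⟨_, hΨ.U h hu (mul_mem haK hc), a * c, mul_mem haK hc, mul_ne_zero ha0, ?_⟩
  rw [← h1 c hc]
  group

/-- **the cascade step** -/
theorem casc (h : TS C K x) {Ψ : ι → Prop} {θ : ι} (hΨ : Lead C Ψ θ) {l : List ι} {t b b' g : L}
    (hb : b ∈ BB C K x) (hb' : b' ∈ BB C K x) (ht : t ∈ TT C K x)
    (hg : g = b * (t * nl C x l) * b') (hgx : g * x θ 1 * g⁻¹ = x θ 1)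
    (hl : ∀ j, Ψ j → Ψ (wl C l j))
    (hsep : wl C l θ ≠ θ → ∃ l', C.ht (wl C l' (wl C l θ)) < 0 ∧ 0 < C.ht (wl C l' θ) ∧
      ∀ j, Ψ j → 0 < C.ht (wl C l' j)) : wl C l θ = θ := by
  by_contra hne
  obtain ⟨l', hl1, hl2, hl3⟩ := hsep hne
  obtain ⟨ρ₁, hρ₁, c₁, hc₁, hc₁0, h1⟩ := hΨ.B h hb' (c := 1) (one_mem (K θ))
  obtain ⟨ρ₂, hρ₂, c₂, hc₂, -, h2⟩ := hΨ.B h (inv_mem hb) (c := 1) (one_mem (K θ))
  have hc₁0 := hc₁0 one_ne_zero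
  obtain ⟨φ, hφ, hφ0, h3, -⟩ := h.nl_act l θ
  obtain ⟨d, hdK, hd0, h4⟩ := h.T_act ht (wl C l θ)
  rw [h.K_wl] at hdK h4
  have hφc := hφ c₁ hc₁
  -- `n ρ₁ n⁻¹`
  have h5 : t * (nl C x l * ρ₁ * (nl C x l)⁻¹) * t⁻¹ ∈ gr K x Ψ :=
    h.T_conj_gr ht (h.nl_conj_gr hl hρ₁)
  have h6 : t * (nl C x l * ρ₁ * (nl C x l)⁻¹) * t⁻¹ * x (wl C l θ) (d * φ c₁) = ρ₂ * x θ c₂ := by
    rw [← h2, ← h4 _ hφc, ← h3 _ hc₁]
    have h7 : x θ c₁ = ρ₁⁻¹ * (b' * x θ 1 * b'⁻¹) := by rw [h1]; group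
    have h8 : b⁻¹ * x θ 1 * b⁻¹⁻¹ = b⁻¹ * (g * x θ 1 * g⁻¹) * b⁻¹⁻¹ := by rw [hgx]
    rw [h7, h8, hg]
    group
  have h7 : x (wl C l θ) (d * φ c₁) = (t * (nl C x l * ρ₁ * (nl C x l)⁻¹) * t⁻¹)⁻¹ * ρ₂ * x θ c₂ := by
    rw [mul_assoc, ← h6]
    group
  obtain ⟨ψ, hψ, hψ0, h8, -⟩ := h.nl_act l' (wl C l θ)
  rw [h.K_wl] at hψ hψ0 h8
  have hdφ : d * φ c₁ ∈ K θ := mul_mem hdK hφc
  have h9 : x (wl C l' (wl C l θ)) (ψ (d * φ c₁)) ∈ UU C K x := by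
    rw [← h8 _ hdφ, h7]
    refine h.nl_conj_gr (p := fun j => Ψ j ∨ j = θ) (l := l') ?_ ?_
    · rintro j (hj | rfl)
      exacts [hl3 j hj, hl2]
    · have m1 : ∀ y ∈ gr K x Ψ, y ∈ gr K x (fun j => Ψ j ∨ j = θ) := fun y hy =>
        gr_mono (fun j hj => Or.inl hj) hy
      have m2 : x θ c₂ ∈ gr K x (fun j => Ψ j ∨ j = θ) :=
        subset_closure ⟨θ, c₂, Or.inr rfl, hc₂, rfl⟩
      exact mul_mem (mul_mem (m1 _ (inv_mem h5)) (m1 _ hρ₂)) m2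
  have h10 := h.x_not_mem hl1 (by rw [h.K_wl, h.K_wl]; exact hψ _ hdφ) h9
  exact hψ0 _ hdφ (mul_ne_zero hd0 (hφ0 _ hc₁ hc₁0)) h10

end

end Vale.Agent.P240.R2.H493
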