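import Vale.Agent.P240.R2.H945.W.TwP

/-!
Coordinates of the roots with respect to the simple roots.
-/

set_option autoImplicit false

namespace Vale.Agent.P240.R2.H493

open Vale.Agent.P240.R2.H986.X
open RootPairing RootPairing.Base

/-- coordinates with respect to the simple roots -/
structure Coo {n : ℕ} {ι : Type} (C : RC ι) (e : Fin n → ι) (co : ι → Fin n → ℤ) : Prop where
  inj : Function.Injective co
  co_e : ∀ k, co (e k) = Pi.single k 1
  co_s : ∀ i j, co (C.s i j) = co j - C.pr j i • co i
  ht : ∀ i, C.ht i = ∑ k, co i k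
  cone : ∀ i j k, C.cone i j k → ∃ m n : ℕ, 0 < m ∧ 0 < n ∧ co k = m • co i + n • co j
  pos : ∀ i, 0 < C.ht i → ∀ k, 0 ≤ co i k
  pr_lin : ∀ i j, C.pr j i = ∑ k, co j k * C.pr (e k) i
  pr_inv : ∀ i j k, C.pr (C.s i j) (C.s i k) = C.pr j k

section
variable {ι M N : Type} [AddCommGroup M] [Module ℚ M] [AddCommGroup N] [Module ℚ N] [Finite ι]
  {P : RootPairing ι ℚ M N} [P.IsCrystallographic] [P.IsReduced] {b : P.Base} {n : ℕ}
  {e : Fin n ↪ ι}

omit [Finite ι] [P.IsCrystallographic] [P.IsReduced] in
lemma sum_supp (hb : b.support = Finset.univ.map e) {A : Type*} [AddCommMonoid A] (f : ι → A) :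
    ∑ j ∈ b.support, f j = ∑ k, f (e k) := by
  rw [hb, Finset.sum_map]

omit [Finite ι] [P.IsCrystallographic] [P.IsReduced] in
lemma lin_indep (hb : b.support = Finset.univ.map e) {f g : Fin n → ℤ}
    (h : ∑ k, f k • P.root (e k) = ∑ k, g k • P.root (e k)) : f = g := by
  classical
  have h1 : LinearIndependent ℤ (fun i : b.support => P.root i) :=
    b.linearIndepOn_root.restrict_scalars' ℤ
  have he : ∀ k, e k ∈ b.support := fun k => by
    rw [hb, Finset.mem_map]
    exact ⟨k, Finset.mem_univ k, rfl⟩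
  have h2 : LinearIndependent ℤ (fun k : Fin n => P.root (e k)) := by
    have h3 := h1.comp (fun k : Fin n => (⟨e k, he k⟩ : b.support)) (by
      intro k l hkl
      exact e.injective (congrArg Subtype.val hkl))
    exact h3
  have h4 := Fintype.linearIndependent_iff.1 h2 (fun k => f k - g k) (by
    simp only [sub_smul, Finset.sum_sub_distrib, h, sub_self])
  funext k
  have := h4 k
  linarith

/-- existence of coordinates -/
theorem exists_coo (hb : b.support = Finset.univ.map e) {C : RC ι}
    (hht : C.ht = b.height) (hneg : ∀ i, C.neg i = P.reflectionPerm i i)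
    (hs : ∀ i j, C.s i j = P.reflectionPerm i j)
    (hpr : ∀ i j, C.pr j i = P.pairingIn ℤ j i)
    (hc : ∀ i j k, C.cone i j k ↔ ∃ m n : ℕ, 0 < m ∧ 0 < n ∧
      P.root k = m • P.root i + n • P.root j) : ∃ co : ι → Fin n → ℤ, Coo C e co := by
  classical
  have h0 : ∀ i, ∃ f : Fin n → ℤ, P.root i = ∑ k, f k • P.root (e k) ∧
      ((∀ k, 0 ≤ f k) ∨ ∀ k, f k ≤ 0) := by
    intro i
    obtain ⟨f, -, hf', hf⟩ := b.exists_root_eq_sum_int i
    refine ⟨fun k => f (e k), ?_, ?_⟩
    · rw [hf, sum_supp hb]
    · rcases hf' with h | h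
      · exact Or.inl fun k => h.le (e k)
      · exact Or.inr fun k => h.le (e k)
  choose co hco hco' using h0
  have uniq : ∀ i (f : Fin n → ℤ), P.root i = ∑ k, f k • P.root (e k) → co i = f := by
    intro i f hf
    exact lin_indep hb (by rw [← hco, hf])
  have hht' : ∀ i, C.ht i = ∑ k, co i k := by
    intro i
    let g : ι → ℤ := fun j => if h : ∃ k, e k = j then co i h.choose else 0
    have hg : ∀ k, g (e k) = co i k := by
      intro k
      have h1 : ∃ l, e l = e k := ⟨k, rfl⟩
      simp only [g]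
      rw [dif_pos h1]
      rw [e.injective h1.choose_spec]
    have h1 : P.root i = ∑ j ∈ b.support, g j • P.root j := by
      rw [sum_supp hb, hco i]
      exact Finset.sum_congr rfl fun k _ => by rw [hg]
    rw [hht, height_eq_sum h1, sum_supp hb]
    exact Finset.sum_congr rfl fun k _ => hg k
  refine ⟨co, ?_, ?_, ?_, hht', ?_, ?_, ?_, ?_⟩
  · intro i j hij
    apply P.root.injective
    rw [hco i, hco j, hij]
  · intro k
    apply uniq
    rw [Finset.sum_eq_single k]
    · simp
    · intro l _ hl
      simp [Pi.single_eq_of_ne hl]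
    · simp
  · intro i j
    apply uniq
    rw [hs, hpr, root_reflectionPerm, reflection_apply_root, ← P.algebraMap_pairingIn ℤ]
    simp only [Pi.sub_apply, Pi.smul_apply, sub_smul, Finset.sum_sub_distrib, ← hco j,
      smul_assoc, ← Finset.smul_sum, ← hco i]
    congr 1
    simp only [algebraMap_int_eq, eq_intCast, Int.cast_smul_eq_zsmul]
  · intro i j k h
    obtain ⟨m, l, hm, hl, h1⟩ := (hc i j k).1 h
    refine ⟨m, l, hm, hl, uniq _ _ ?_⟩
    rw [h1, hco i, hco j, Finset.smul_sum, Finset.smul_sum, ← Finset.sum_add_distrib]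
    refine Finset.sum_congr rfl fun k _ => ?_
    rw [Pi.add_apply, add_smul, Pi.smul_apply, Pi.smul_apply, smul_assoc, smul_assoc]
  · intro i hi k
    rcases hco' i with h | h
    · exact h k
    · exfalso
      rw [hht'] at hi
      have := Finset.sum_nonpos (fun k (_ : k ∈ Finset.univ) => h k)
      omega
  · intro i j
    have h1 : (algebraMap ℤ ℚ) (C.pr j i) =
        (algebraMap ℤ ℚ) (∑ k, co j k * C.pr (e k) i) := by
      rw [map_sum, hpr, P.algebraMap_pairingIn ℤ, ← P.root_coroot_eq_pairing, hco j]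
      rw [map_sum, LinearMap.sum_apply]
      refine Finset.sum_congr rfl fun k _ => ?_
      rw [map_mul, hpr, P.algebraMap_pairingIn ℤ, ← P.root_coroot_eq_pairing, map_zsmul,
        LinearMap.smul_apply]
      simp
    exact (algebraMap ℤ ℚ).injective_int h1
  · intro i j k
    rw [hpr, hpr, hs, hs]
    apply (algebraMap ℤ ℚ).injective_int
    rw [P.algebraMap_pairingIn ℤ, P.algebraMap_pairingIn ℤ]
    rw [← P.pairing_reflectionPerm, P.reflectionPerm_self]

end

end Vale.Agent.P240.R2.H493
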