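import Vale.Agent.P240.R2.H493.NoSub
import Vale.Agent.P240.H195.Hyper

/-!
Euler characteristics modulo `r`.
-/

set_option autoImplicit false

namespace Vale.Agent.P240.R2.H493

open Subgroup Vale.Agent.P240.K Vale.Agent.P240.H195 Vale.Agent.P240.R2.H945.W CartanMatrix
open Vale.Agent.P240.R2.H986.X (RC nn nl wl nl_nil nl_cons nl_append wl_nil wl_cons wl_append SS
  wl_rev wl_rev' wl_neg)

universe u

section
variable {L : Type u} [Group L]

lemma exists_Q {r : ℕ} {s u : L} (hs : Nat.Coprime r (orderOf s)) {k : ℕ}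
    (hu : u ^ r ^ k = 1) (hsu : Commute s u) (hs0 : 0 < orderOf s) : ∃ Q, (s * u) ^ Q = s := by
  refine ⟨(r ^ k) ^ Nat.totient (orderOf s), ?_⟩
  have h1 : 0 < Nat.totient (orderOf s) := Nat.totient_pos.2 hs0
  have h2 : u ^ ((r ^ k) ^ Nat.totient (orderOf s)) = 1 := by
    obtain ⟨j, hj⟩ : ∃ j, Nat.totient (orderOf s) = j + 1 := ⟨_, (Nat.sub_add_cancel h1).symm⟩
    rw [hj, pow_succ', pow_mul, hu, one_pow]
  have h3 : s ^ ((r ^ k) ^ Nat.totient (orderOf s)) = s := by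
    have h4 := Nat.ModEq.pow_totient (Nat.Coprime.pow_left k hs)
    have h5 := (pow_eq_pow_iff_modEq (x := s)).2 h4
    rwa [pow_one] at h5
  rw [hsu.mul_pow, h2, h3, mul_one]

/-- **Euler characteristics modulo `r`** -/
theorem eu_general [Finite L] {p r : ℕ} [Fact p.Prime] [hr : Fact r.Prime] {s u s' n : L}
    {P : Subgroup L} (hs : Nat.Coprime r (orderOf s)) {k : ℕ}
    (hu : u ^ r ^ k = 1) (hsu : Commute s u) (hs' : n * s' * n⁻¹ = s)
    (hP : IsPGroup r P) (hPs : ∀ y ∈ P, y * s' = s' * y)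
    (hno : ∀ E ∈ Ain p (⊤ : Subgroup L), s' ∈ normalizer (E : Set L) →
      P ≤ normalizer (E : Set L) → False) : eulerFix p (⊤ : Subgroup L) (s * u) ≠ 0 := by
  obtain ⟨Q, hQ⟩ := exists_Q hs hu hsu (orderOf_pos s)
  rw [eulerFix_eq]
  have hstab : ∀ (s u : L), u * s = s * u → ∀ E ∈ {E | E ∈ Ain p (⊤ : Subgroup L) ∧
      s ∈ normalizer (E : Set L)}, cj u E ∈ {E | E ∈ Ain p (⊤ : Subgroup L) ∧
      s ∈ normalizer (E : Set L)} := by
    rintro s u hu E ⟨⟨h1, -⟩, h2⟩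
    refine ⟨⟨cj_mem_ApS.2 h1, le_top⟩, ?_⟩
    rw [H148.mem_normalizer_cj]
    have e : u⁻¹ * s * u = s := by
      rw [mul_assoc, ← hu]
      group
    rwa [e]
  have h1 : (r : ℤ) ∣ lam p (⊤ : Subgroup L) s' - 1 := by
    have h2 := eu_mod (r := r) (S := {E | E ∈ Ain p (⊤ : Subgroup L) ∧
      s' ∈ normalizer (E : Set L)}) P hP (fun u hu => hstab s' u (hPs u hu))
    have h3 : {E | E ∈ {E | E ∈ Ain p (⊤ : Subgroup L) ∧ s' ∈ normalizer (E : Set L)} ∧
        P ≤ normalizer (E : Set L)} = ∅ := by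
      ext E
      simp only [Set.mem_ofPred_eq, Set.mem_empty_iff_false, iff_false]
      rintro ⟨⟨h4, h5⟩, h6⟩
      exact hno E h4 h5 h6
    rwa [h3, eu_empty] at h2
  have h1' : (r : ℤ) ∣ lam p (⊤ : Subgroup L) s - 1 := by
    have h2 := lam_conj (p := p) n s' (⊤ : Subgroup L)
    have h3 : cj n (⊤ : Subgroup L) = ⊤ := by
      rw [eq_top_iff]
      intro y _
      exact ⟨n⁻¹ * y * n, mem_top _, by simp [MulAut.conj_apply, mul_assoc]⟩
    rw [h3, hs'] at h2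
    rw [h2]
    exact h1
  have h2 : (r : ℤ) ∣ lam p (⊤ : Subgroup L) s - lam p (⊤ : Subgroup L) (s * u) := by
    have h3 := eu_mod (r := r) (S := {E | E ∈ Ain p (⊤ : Subgroup L) ∧
      s ∈ normalizer (E : Set L)}) (zpowers u) (by
      rintro ⟨_, i, rfl⟩
      refine ⟨k, Subtype.ext ?_⟩
      change (u ^ i) ^ r ^ k = 1
      rw [← zpow_natCast, zpow_comm, zpow_natCast, hu, one_zpow]) (by
      rintro _ ⟨i, rfl⟩
      apply hstab
      exact (hsu.symm.zpow_left i))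
    have h4 : {E | E ∈ {E | E ∈ Ain p (⊤ : Subgroup L) ∧ s ∈ normalizer (E : Set L)} ∧
        zpowers u ≤ normalizer (E : Set L)} =
        {E | E ∈ Ain p (⊤ : Subgroup L) ∧ s * u ∈ normalizer (E : Set L)} := by
      ext E
      constructor
      · rintro ⟨⟨h5, h6⟩, h7⟩
        exact ⟨h5, mul_mem h6 (h7 (mem_zpowers _))⟩
      · rintro ⟨h5, h6⟩
        have h7 : s ∈ normalizer (E : Set L) := by
          rw [← hQ]
          exact pow_mem h6 _
        refine ⟨⟨h5, h7⟩, ?_⟩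
        rw [zpowers_le]
        have h8 : u = s⁻¹ * (s * u) := by group
        rw [h8]
        exact mul_mem (inv_mem h7) h6
    rwa [h4] at h3
  intro h3
  rw [h3, sub_zero] at h2
  have h4 : (r : ℤ) ∣ 1 := by
    have := dvd_sub h2 h1'
    simpa using this
  exact hr.out.one_lt.ne' (by exact_mod_cast Int.eq_one_of_dvd_one (by positivity) h4)

end

section
variable {F : Type} [Field F] {L : Type u} [Group L] {ι : Type} {C : RC ι} {e : Fin 4 → ι}
  {K₀ : Subfield F} {K : ι → Subfield F} {x : ι → F → L} {co : ι → Fin 4 → ℤ}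

namespace Dt

/-- powers of torus elements -/
lemma Hc.pow (h : Dt C e K₀ K x co) {z : F} {c : Fin 4 → ℤ} {t : L} (ht : Hc C e K x z c t)
    {m : ℕ} (hm : z ^ m = 1) : t ^ m = 1 := by
  apply h.T_ext (pow_mem ht.mem m)
  intro j
  have h1 := T_pow_act (ht.ac j).1 (ht.ac j).2 m 1 (one_mem _)
  rw [h1, mul_one, ← zpow_natCast, ← zpow_mul, mul_comm, zpow_mul, zpow_natCast, hm, one_zpow]

/-- the unipotent element `x₁(1) x₂(1) x₃(1)` -/
def uu (e : Fin 4 → ι) (x : ι → F → L) : L := x (e 1) 1 * x (e 2) 1 * x (e 3) 1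

lemma uu_mem (h : Dt C e K₀ K x co) : uu e x ∈ UU C K x :=
  mul_mem (mul_mem (TS.x_mem_UU (C.simp_pos _ (h.simp 1)) (one_mem _))
    (TS.x_mem_UU (C.simp_pos _ (h.simp 2)) (one_mem _)))
    (TS.x_mem_UU (C.simp_pos _ (h.simp 3)) (one_mem _))

lemma comm_uu (h : Dt C e K₀ K x co) {z : F} {s : L} (hs : Hc C e K x z ![2, 3, 2, 1] s) :
    Commute s (uu e x) := by
  have h1 : ∀ j : Fin 4, j ≠ 0 → s * x (e j) 1 * s⁻¹ = x (e j) 1 := by
    intro j hj
    have h2 := (hs.ac j).2 1 (one_mem _)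
    rw [bil_0, Pi.single_eq_of_ne (Ne.symm hj), zpow_zero, one_mul] at h2
    exact h2
  have h2 : s * uu e x * s⁻¹ = uu e x := by
    calc s * uu e x * s⁻¹ = (s * x (e 1) 1 * s⁻¹) * (s * x (e 2) 1 * s⁻¹) *
          (s * x (e 3) 1 * s⁻¹) := by rw [uu]; group
      _ = _ := by rw [h1 1 (by decide), h1 2 (by decide), h1 3 (by decide)]; rfl
  exact mul_inv_eq_iff_eq_mul.1 h2

/-- **the Euler characteristic** -/
theorem eu_part [Finite F] [Finite ι] [Finite L] (r : ℕ) [hr : Fact r.Prime] [CharP F r]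
    (hr3 : r ≠ 3)
    (h : Dt C e K₀ K x co) (h3 : ∀ c ∈ K₀, c ^ 3 = 1 → c = 1) {t : ℕ} (ht : 2 ≤ t)
    (hq : Nat.card K₀ = t ^ 3) {z : F} (hz : orderOf z = t ^ 2 + t + 1) (hzK : z ∈ K₀)
    (hrz : Nat.Coprime r (t ^ 2 + t + 1)) {s : L} (hs : Hc C e K x z ![2, 3, 2, 1] s) :
    eulerFix 3 (⊤ : Subgroup L) (s * uu e x) ≠ 0 := by
  have : Fact (Nat.Prime 3) := ⟨Nat.prime_three⟩
  have hz0 : z ≠ 0 := by
    rintro rfl
    rw [orderOf_eq_zero_iff'.2] at hz
    · omega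
    · intro n hn
      rw [zero_pow hn.ne']
      exact zero_ne_one
  obtain ⟨s', hs'⟩ := h.exists_hc hzK hz0 (Pi.single 1 1)
  have h1 := Hc.word h hzK hz0 hs' [0, 1, 2, 1, 0, 3, 2]
  rw [wc_0] at h1
  have h2 := Hc.eq h h1 hs
  obtain ⟨k, hk⟩ := UU_pgroup h.td.ts r ⟨_, h.uu_mem⟩
  have hsm : s ^ (t ^ 2 + t + 1) = 1 := hs.pow h (by rw [← hz, pow_orderOf_eq_one])
  refine eu_general (n := nl C x (([0, 1, 2, 1, 0, 3, 2] : List (Fin 4)).map e)) (s' := s')
    (P := PP C e K x) (hrz.coprime_dvd_right (orderOf_dvd_of_pow_eq_one hsm))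
    (k := k) (by simpa using congrArg Subtype.val hk) (h.comm_uu hs) h2
    ((UU_pgroup h.td.ts r).to_le PP_le) ?_ ?_
  · intro y hy
    have h3 : PP C e K x ≤ centralizer ({s'} : Set L) := by
      rw [PP, gr, closure_le]
      rintro _ ⟨j, a, ⟨hj, hj'⟩, ha, rfl⟩
      rw [SetLike.mem_coe, mem_centralizer_singleton_iff]
      rw [h.pr_e] at hj'
      exact (mul_inv_eq_iff_eq_mul.1 (hs'.fix h hzK hz0 hj' ha)).symm
    exact mem_centralizer_singleton_iff.1 (h3 hy)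
  · rintro E ⟨hE, -⟩ hsE hPE
    have h4 := h.no_sub r hr3 h3 ht hq hz hs' (E := E) (fun g hg => hE.2.2 g hg)
      (fun g hg g' hg' => hE.2.1 g hg g' hg')
      (fun g hg => (mem_normalizer_iff.1 hsE g).1 hg)
      (fun y hy g hg => (mem_normalizer_iff.1 (hPE hy) g).1 hg)
    exact hE.1 h4

end Dt

end

end Vale.Agent.P240.R2.H493
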