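import Vale.Agent.P240.R2.H493.LemR

/-!
The roots of `F₄`.
-/

set_option autoImplicit false

namespace Vale.Agent.P240.R2.H493

open Subgroup Vale.Agent.P240.K Vale.Agent.P240.H195 Vale.Agent.P240.R2.H945.W CartanMatrix
open Vale.Agent.P240.R2.H986.X (RC nn nl wl nl_nil nl_cons nl_append wl_nil wl_cons wl_append SS
  wl_rev wl_rev' wl_neg)

universe u

/-- the long roots and their coroots -/
def LL : List ((Fin 4 → ℤ) × (Fin 4 → ℤ)) := [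
  (![-2, -3, -4, -2], ![-2, -3, -2, -1]),
  (![-1, -3, -4, -2], ![-1, -3, -2, -1]),
  (![-1, -2, -4, -2], ![-1, -2, -2, -1]),
  (![-1, -2, -2, -2], ![-1, -2, -1, -1]),
  (![-1, -2, -2, 0], ![-1, -2, -1, 0]),
  (![-1, -1, -2, -2], ![-1, -1, -1, -1]),
  (![-1, -1, -2, 0], ![-1, -1, -1, 0]),
  (![-1, -1, 0, 0], ![-1, -1, 0, 0]),
  (![-1, 0, 0, 0], ![-1, 0, 0, 0]),
  (![0, -1, -2, -2], ![0, -1, -1, -1]),
  (![0, -1, -2, 0], ![0, -1, -1, 0]),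
  (![0, -1, 0, 0], ![0, -1, 0, 0]),
  (![0, 1, 0, 0], ![0, 1, 0, 0]),
  (![0, 1, 2, 0], ![0, 1, 1, 0]),
  (![0, 1, 2, 2], ![0, 1, 1, 1]),
  (![1, 0, 0, 0], ![1, 0, 0, 0]),
  (![1, 1, 0, 0], ![1, 1, 0, 0]),
  (![1, 1, 2, 0], ![1, 1, 1, 0]),
  (![1, 1, 2, 2], ![1, 1, 1, 1]),
  (![1, 2, 2, 0], ![1, 2, 1, 0]),
  (![1, 2, 2, 2], ![1, 2, 1, 1]),
  (![1, 2, 4, 2], ![1, 2, 2, 1]),
  (![1, 3, 4, 2], ![1, 3, 2, 1]),
  (![2, 3, 4, 2], ![2, 3, 2, 1])]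

/-- the short roots and their coroots -/
def SL : List ((Fin 4 → ℤ) × (Fin 4 → ℤ)) := [
  (![-1, -2, -3, -2], ![-2, -4, -3, -2]),
  (![-1, -2, -3, -1], ![-2, -4, -3, -1]),
  (![-1, -2, -2, -1], ![-2, -4, -2, -1]),
  (![-1, -1, -2, -1], ![-2, -2, -2, -1]),
  (![-1, -1, -1, -1], ![-2, -2, -1, -1]),
  (![-1, -1, -1, 0], ![-2, -2, -1, 0]),
  (![0, -1, -2, -1], ![0, -2, -2, -1]),
  (![0, -1, -1, -1], ![0, -2, -1, -1]),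
  (![0, -1, -1, 0], ![0, -2, -1, 0]),
  (![0, 0, -1, -1], ![0, 0, -1, -1]),
  (![0, 0, -1, 0], ![0, 0, -1, 0]),
  (![0, 0, 0, -1], ![0, 0, 0, -1]),
  (![0, 0, 0, 1], ![0, 0, 0, 1]),
  (![0, 0, 1, 0], ![0, 0, 1, 0]),
  (![0, 0, 1, 1], ![0, 0, 1, 1]),
  (![0, 1, 1, 0], ![0, 2, 1, 0]),
  (![0, 1, 1, 1], ![0, 2, 1, 1]),
  (![0, 1, 2, 1], ![0, 2, 2, 1]),
  (![1, 1, 1, 0], ![2, 2, 1, 0]),
  (![1, 1, 1, 1], ![2, 2, 1, 1]),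
  (![1, 1, 2, 1], ![2, 2, 2, 1]),
  (![1, 2, 2, 1], ![2, 4, 2, 1]),
  (![1, 2, 3, 1], ![2, 4, 3, 1]),
  (![1, 2, 3, 2], ![2, 4, 3, 2])]

lemma LL_closed : ∀ p ∈ LL, ∀ i : Fin 4, (sr F₄ i p.1, sc F₄ i p.2) ∈ LL := by decide +kernel

lemma SL_closed : ∀ p ∈ SL, ∀ i : Fin 4, (sr F₄ i p.1, sc F₄ i p.2) ∈ SL := by decide +kernel

lemma LL_0 : ∀ p ∈ LL, 0 < ∑ k, p.1 k → p.1 ≠ ![2, 3, 4, 2] →
    ∃ k, 0 < (![2, 3, 4, 2] : Fin 4 → ℤ) k - bil F₄ ![2, 3, 4, 2] p.2 * p.1 k := by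
  decide +kernel

lemma LL_1 : ∀ p ∈ LL, 0 < ∑ k, p.1 k → p.1 0 = 0 → p.1 ≠ ![0, 1, 2, 2] →
    ∃ k, 0 < (![0, 1, 2, 2] : Fin 4 → ℤ) k - bil F₄ ![0, 1, 2, 2] p.2 * p.1 k := by
  decide +kernel

lemma LL_2 : ∀ p ∈ LL, 0 < ∑ k, p.1 k → p.1 0 = 0 → p.1 3 = 0 → p.1 ≠ ![0, 1, 2, 0] →
    ∃ k, 0 < (![0, 1, 2, 0] : Fin 4 → ℤ) k - bil F₄ ![0, 1, 2, 0] p.2 * p.1 k := by
  decide +kernel

lemma ht_max : ∀ p ∈ LL ++ SL, ∑ k, p.1 k ≤ 11 ∧ (p.1 0 = 0 → ∑ k, p.1 k ≤ 5) ∧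
    (p.1 0 = 0 → p.1 3 = 0 → ∑ k, p.1 k ≤ 3) := by
  decide +kernel

lemma only_one : ∀ p ∈ LL ++ SL, p.1 0 = 0 → p.1 2 = 0 → p.1 3 = 0 → 0 < ∑ k, p.1 k →
    p.1 = Pi.single 1 1 := by
  decide +kernel

lemma single_mem : ∀ k : Fin 4, (Pi.single k 1, Pi.single k 1) ∈ LL ++ SL := by decide +kernel

lemma all_closed : ∀ p ∈ LL ++ SL, ∀ i : Fin 4, (sr F₄ i p.1, sc F₄ i p.2) ∈ LL ++ SL := by
  intro p hp i
  rw [List.mem_append] at hp ⊢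
  rcases hp with h | h
  · exact Or.inl (LL_closed p h i)
  · exact Or.inr (SL_closed p h i)

lemma LL_word {v c : Fin 4 → ℤ} (h : (v, c) ∈ LL) (l : List (Fin 4)) :
    (wr F₄ l v, wc F₄ l c) ∈ LL := by
  induction l with
  | nil => exact h
  | cons i l ih => exact LL_closed _ ih i

lemma all_word {v c : Fin 4 → ℤ} (h : (v, c) ∈ LL ++ SL) (l : List (Fin 4)) :
    (wr F₄ l v, wc F₄ l c) ∈ LL ++ SL := by
  induction l with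
  | nil => exact h
  | cons i l ih => exact all_closed _ ih i

lemma wr_0 : wr F₄ [0, 1, 2, 1, 0, 3, 2] (Pi.single 1 1) = ![2, 3, 4, 2] := by decide +kernel
lemma wr_1 : wr F₄ [3, 2] (Pi.single 1 1) = ![0, 1, 2, 2] := by decide +kernel
lemma wr_2 : wr F₄ [2] (Pi.single 1 1) = ![0, 1, 2, 0] := by decide +kernel
lemma wr_3 : wr F₄ [0, 1] (Pi.single 2 1) = ![1, 1, 1, 0] := by decide +kernel
lemma wc_0 : wc F₄ [0, 1, 2, 1, 0, 3, 2] (Pi.single 1 1) = ![2, 3, 2, 1] := by decide +kernel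
lemma wc_1 : wc F₄ [3, 2] (Pi.single 1 1) = ![0, 1, 1, 1] := by decide +kernel
lemma wc_2 : wc F₄ [2] (Pi.single 1 1) = ![0, 1, 1, 0] := by decide +kernel

lemma bil_0 (v : Fin 4 → ℤ) : bil F₄ v ![2, 3, 2, 1] = v 0 := by
  simp [bil, F₄, Fin.sum_univ_four]
  ring

lemma bil_1 (v : Fin 4 → ℤ) : bil F₄ v ![0, 1, 1, 1] = - v 0 + v 3 := by
  simp [bil, F₄, Fin.sum_univ_four]
  ring

lemma bil_2 (v : Fin 4 → ℤ) : bil F₄ v ![0, 1, 1, 0] = - v 0 + v 2 - v 3 := by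
  simp [bil, F₄, Fin.sum_univ_four]
  ring

section
variable {F : Type} [Field F] {L : Type u} [Group L] {ι : Type} {C : RC ι} {e : Fin 4 → ι}
  {K₀ : Subfield F} {K : ι → Subfield F} {x : ι → F → L} {co : ι → Fin 4 → ℤ}

/-- the coroot of `θ` is `c` -/
def IsCr (C : RC ι) (co : ι → Fin 4 → ℤ) (θ : ι) (c : Fin 4 → ℤ) : Prop :=
  ∀ j, C.pr j θ = bil F₄ (co j) c

namespace Dt

lemma isCr_e (h : Dt C e K₀ K x co) (k : Fin 4) : IsCr C co (e k) (Pi.single k 1) :=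
  fun j => h.pr_e j k

lemma isCr_word (h : Dt C e K₀ K x co) {θ : ι} {c : Fin 4 → ℤ} (hc : IsCr C co θ c)
    (l : List (Fin 4)) : IsCr C co (wl C (l.map e) θ) (wc F₄ l c) := by
  intro j
  have h1 : wl C (l.map e) (wl C (l.map e).reverse j) = j := wl_rev' _ _
  set j' := wl C (l.map e).reverse j with hj'
  rw [← h1, h.coo.pr_wl, hc, h.co_word, bil_wr_wc F₄ F4_two]

/-- the list of roots -/
lemma root_mem (h : Dt C e K₀ K x co) (i : ι) : ∃ c, (co i, c) ∈ LL ++ SL ∧ IsCr C co i c := by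
  obtain ⟨l, k, rfl⟩ := exists_rw h.td.simp i
  refine ⟨wc F₄ l (Pi.single k 1), ?_, h.isCr_word (h.isCr_e k) l⟩
  rw [h.co_word, h.coo.co_e]
  exact all_word (single_mem k) l

lemma ht_le (h : Dt C e K₀ K x co) (i : ι) : C.ht i ≤ 11 ∧ (co i 0 = 0 → C.ht i ≤ 5) ∧
    (co i 0 = 0 → co i 3 = 0 → C.ht i ≤ 3) := by
  obtain ⟨c, hc, -⟩ := h.root_mem i
  rw [h.coo.ht]
  exact ht_max _ hc

lemma eq_e1 (h : Dt C e K₀ K x co) {i : ι} (h0 : co i 0 = 0) (h2 : co i 2 = 0) (h3 : co i 3 = 0)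
    (hi : 0 < C.ht i) : i = e 1 := by
  obtain ⟨c, hc, -⟩ := h.root_mem i
  rw [h.coo.ht] at hi
  apply h.coo.inj
  rw [h.coo.co_e]
  exact only_one _ hc h0 h2 h3 hi

end Dt

/-- the highest root -/
def t0 (C : RC ι) (e : Fin 4 → ι) : ι := wl C (([0, 1, 2, 1, 0, 3, 2] : List (Fin 4)).map e) (e 1)

/-- the highest root of the subsystem `{1, 2, 3}` -/
def t1 (C : RC ι) (e : Fin 4 → ι) : ι := wl C (([3, 2] : List (Fin 4)).map e) (e 1)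

/-- the highest root of the subsystem `{1, 2}` -/
def t2 (C : RC ι) (e : Fin 4 → ι) : ι := wl C (([2] : List (Fin 4)).map e) (e 1)

/-- the short root `α₀ + α₁ + α₂` -/
def tg (C : RC ι) (e : Fin 4 → ι) : ι := wl C (([0, 1] : List (Fin 4)).map e) (e 2)

namespace Dt

lemma co_t0 (h : Dt C e K₀ K x co) : co (t0 C e) = ![2, 3, 4, 2] := by
  rw [t0, h.co_word, h.coo.co_e, wr_0]

lemma co_t1 (h : Dt C e K₀ K x co) : co (t1 C e) = ![0, 1, 2, 2] := by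
  rw [t1, h.co_word, h.coo.co_e, wr_1]

lemma co_t2 (h : Dt C e K₀ K x co) : co (t2 C e) = ![0, 1, 2, 0] := by
  rw [t2, h.co_word, h.coo.co_e, wr_2]

lemma co_tg (h : Dt C e K₀ K x co) : co (tg C e) = ![1, 1, 1, 0] := by
  rw [tg, h.co_word, h.coo.co_e, wr_3]

lemma pr_t0 (h : Dt C e K₀ K x co) (j : ι) : C.pr j (t0 C e) = co j 0 := by
  rw [t0, h.isCr_word (h.isCr_e 1) _ j, wc_0, bil_0]

lemma pr_t1 (h : Dt C e K₀ K x co) (j : ι) : C.pr j (t1 C e) = - co j 0 + co j 3 := by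
  rw [t1, h.isCr_word (h.isCr_e 1) _ j, wc_1, bil_1]

lemma pr_t2 (h : Dt C e K₀ K x co) (j : ι) : C.pr j (t2 C e) = - co j 0 + co j 2 - co j 3 := by
  rw [t2, h.isCr_word (h.isCr_e 1) _ j, wc_2, bil_2]

/-- long roots: images of `θ₀` etc. -/
lemma long_mem (h : Dt C e K₀ K x co) (l : List (Fin 4)) :
    ∃ c, (co (wl C (l.map e) (e 1)), c) ∈ LL ∧ IsCr C co (wl C (l.map e) (e 1)) c := by
  refine ⟨wc F₄ l (Pi.single 1 1), ?_, h.isCr_word (h.isCr_e 1) l⟩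
  rw [h.co_word, h.coo.co_e]
  exact LL_word (by decide +kernel) l

end Dt

end

end Vale.Agent.P240.R2.H493
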