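import Mathlib.FieldTheory.Fixed
import Mathlib.FieldTheory.Finite.Basic

/-!
Automorphisms of order three of finite fields.
-/

set_option autoImplicit false

namespace Vale.Agent.P240.R2.H493

open Subgroup

lemma exists_fix_card {F : Type} [Field F] [Finite F] {σ : RingAut F} (h3 : σ ^ 3 = 1)
    (h1 : σ ≠ 1) : ∃ a, Nat.card F = a ^ 3 ∧ ∀ z : F, σ z = z → z ≠ 0 → z ^ (a - 1) = 1 := by
  classical
  have := Fintype.ofFinite F
  have hfin : Finite (RingAut F) := Finite.of_injective (fun f : RingAut F => (f : F → F))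
    DFunLike.coe_injective
  have h2 : orderOf σ = 3 := orderOf_eq_prime h3 h1
  have := Fintype.ofFinite (zpowers σ)
  let F₁ := FixedPoints.subfield (zpowers σ) F
  have : FaithfulSMul (zpowers σ) F :=
    ⟨fun {g g'} hgg => Subtype.ext (RingEquiv.ext fun a => hgg a)⟩
  have h4 : Module.finrank F₁ F = Fintype.card (zpowers σ) := FixedPoints.finrank_eq_card _ _
  have h5 : Fintype.card (zpowers σ) = 3 := by
    rw [← Nat.card_eq_fintype_card, Nat.card_zpowers, h2]
  have := Fintype.ofFinite F₁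
  have h6 : Fintype.card F = Fintype.card F₁ ^ Module.finrank F₁ F := Module.card_eq_pow_finrank
  refine ⟨Fintype.card F₁, by rw [Nat.card_eq_fintype_card, h6, h4, h5], fun z hz hz0 => ?_⟩
  have hmem : z ∈ F₁ := by
    rintro ⟨g, i, rfl⟩
    change (σ ^ i) z = z
    have h7 : ∀ n : ℕ, (σ ^ n) z = z := by
      intro n
      induction n with
      | zero => rfl
      | succ n ih => rw [pow_succ, RingAut.mul_apply, hz, ih]
    have h8 : ∃ n : ℕ, σ ^ i = σ ^ n := by
      have := mem_powers_iff_mem_zpowers.2 (⟨i, rfl⟩ : σ ^ i ∈ zpowers σ)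
      obtain ⟨n, hn⟩ := this
      exact ⟨n, hn.symm⟩
    obtain ⟨n, hn⟩ := h8
    rw [hn, h7]
  have h7 := FiniteField.pow_card_sub_one_eq_one (⟨z, hmem⟩ : F₁) (fun h8 => hz0 (congrArg Subtype.val h8))
  exact congrArg Subtype.val h7

lemma pow3_inj {a b : ℕ} (h : a ^ 3 = b ^ 3) : a = b := Nat.pow_left_injective (by norm_num) h

/-- `q ^ 2 = a ^ 3` implies that `q` is a cube -/
lemma cube_of {q a : ℕ} (h : q ^ 2 = a ^ 3) : ∃ t, q = t ^ 3 ∧ a = t ^ 2 := by
  rcases Nat.eq_zero_or_pos a with rfl | ha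
  · refine ⟨0, ?_, rfl⟩
    simpa using h
  have hd : a ∣ q := by
    have h1 : a ^ 3 ∣ q ^ 3 := ⟨q, by rw [← h]; ring⟩
    exact (Nat.pow_dvd_pow_iff (by norm_num)).1 h1
  obtain ⟨t, rfl⟩ := hd
  have h2 : t ^ 2 = a := by
    have h3 : a ^ 2 * t ^ 2 = a ^ 2 * a := by
      calc a ^ 2 * t ^ 2 = (a * t) ^ 2 := by ring
        _ = a ^ 3 := h
        _ = a ^ 2 * a := by ring
    exact Nat.eq_of_mul_eq_mul_left (by positivity) h3
  exact ⟨t, by rw [← h2]; ring, h2.symm⟩

lemma sigma_trivial {F : Type} [Field F] [Finite F] {σ : RingAut F} (h3 : σ ^ 3 = 1) {t : ℕ}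
    (ht : 2 ≤ t) (hF : Nat.card F = (t ^ 3) ^ 2) {z : F} (hz : orderOf z = t ^ 2 + t + 1)
    (hσ : σ z = z) : σ = 1 := by
  by_contra h1
  obtain ⟨a, ha, h2⟩ := exists_fix_card h3 h1
  have ha' : a = t ^ 2 := by
    apply pow3_inj
    rw [← ha, hF]
    ring
  have hz0 : z ≠ 0 := by
    rintro rfl
    rw [orderOf_eq_zero_iff'.2] at hz
    · omega
    · intro n hn
      rw [zero_pow hn.ne']
      exact zero_ne_one
  have h4 := orderOf_dvd_of_pow_eq_one (h2 z hσ hz0)
  rw [hz, ha'] at h4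
  have h5 : 4 ≤ t ^ 2 := by nlinarith
  have h6 := Nat.le_of_dvd (by omega) h4
  omega

end Vale.Agent.P240.R2.H493
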