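import Vale.Agent.P240.R2.H493.O5a
import Vale.Agent.P240.R2.H63.P4c
import Vale.Agent.P240.R2.H406.PDefs

/-!
The group `PSL_4(5)` is `PΩ_6^+(5)`.
-/

set_option autoImplicit false
set_option linter.all false

namespace Vale.Agent.P240.R2.H493.O5

open Matrix Vale.Agent.P240.K Vale.Agent.P240.R2.OF
open Vale.Agent.P240.R2.H406 (Lam)

universe u v w

/-- `PSL_4(5)` is `PΩ` of the form `x_0^2 + ... + x_5^2` -/
theorem iso6 {L : Type u} [Group L] {F : Type} [Field F] [Finite F]
    (e : L ≃* ProjectiveSpecialLinearGroup (Fin 4) F) (h5 : Nat.card F = 5) :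
    Nonempty (Lam (fun _ : Fin 6 => (1 : ZMod 5)) ≃* L) := by
  haveI : Fintype F := Fintype.ofFinite F
  have h5' : Fintype.card F = 5 := by rw [← Nat.card_eq_fintype_card, h5]
  let σ : F ≃+* ZMod 5 := (ZMod.ringEquivOfPrime F (by norm_num) h5').symm
  have h2 : (2 : F) ≠ 0 := by
    intro h
    have h1 := congrArg σ h
    rw [map_ofNat, map_zero] at h1
    exact absurd h1 (by decide)
  obtain ⟨f⟩ := H63.P4.psl4_iso h2
  have hd : (diagonal (H945.U4.dd (1 : F))).det = -1 := by
    rw [H945.U4.dd_det, one_pow]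
  obtain ⟨g⟩ := pom_iso (m := 5) σ (by decide) (A := diagonal (H945.U4.dd (1 : F)))
    (diagonal_transpose _) (by rw [hd]; exact neg_ne_zero.2 one_ne_zero)
    (a := fun _ => (1 : ZMod 5)) (fun i => by decide)
    (by
      rw [hd, FiniteField.isSquare_neg_one_iff, h5']
      norm_num)
    (by
      rw [Finset.prod_const_one]
      exact ⟨1, by rw [mul_one]⟩)
  exact ⟨((e.trans f).trans g).symm⟩

end Vale.Agent.P240.R2.H493.O5
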