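import Vale.Agent.P240.R2.H493.Orb

/-!
Long root elements normalizing a `3`-subgroup centralize it.
-/

set_option autoImplicit false

namespace Vale.Agent.P240.R2.H493

open Subgroup Vale.Agent.P240.K Vale.Agent.P240.H195 Vale.Agent.P240.R2.H945.W
open Vale.Agent.P240.R2.H986.X (RC nn nl wl nl_nil nl_cons nl_append wl_nil wl_cons wl_append SS
  wl_rev wl_rev' wl_neg)

universe u

section
variable {Q : Type*} [Group Q]

lemma one_of_three {r : ℕ} (hr : r.Prime) (hr3 : r ≠ 3) {g : Q} {k : ℕ} (h1 : g ^ r ^ k = 1)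
    (h3 : g ^ 3 = 1) : g = 1 := by
  have h4 : Nat.Coprime (r ^ k) 3 := Nat.Coprime.pow_left k
    ((Nat.coprime_primes hr Nat.prime_three).2 hr3)
  have h5 := Nat.dvd_gcd (orderOf_dvd_of_pow_eq_one h1) (orderOf_dvd_of_pow_eq_one h3)
  rw [h4.gcd_eq_one, Nat.dvd_one, orderOf_eq_one_iff] at h5
  exact h5

end

section
variable {ι : Type*} {F : Type*} [Field F] {L : Type u} [Group L] {C : RC ι} {K : ι → Subfield F}
  {x : ι → F → L}

lemma U_three (h : TS C K x) [Finite ι] (r : ℕ) [Fact r.Prime] [CharP F r] (hr3 : r ≠ 3) {g : L}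
    (hg : g ∈ UU C K x) (hg3 : g ^ 3 = 1) : g = 1 := by
  obtain ⟨k, hk⟩ := UU_pgroup h r ⟨g, hg⟩
  exact one_of_three (Fact.out : r.Prime) hr3 (k := k) (by simpa using congrArg Subtype.val hk) hg3

/-- the inverse of `nl l` maps `gr p` to `gr q` -/
lemma nl_inv_conj_gr (h : TS C K x) {p q : ι → Prop} {l : List ι}
    (hpq : ∀ i, p (wl C l i) → q i) {u : L} (hu : u ∈ gr K x p) :
    (nl C x l)⁻¹ * u * nl C x l ∈ gr K x q := by
  refine closure_induction (p := fun u _ => (nl C x l)⁻¹ * u * nl C x l ∈ gr K x q)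
    ?_ ?_ ?_ ?_ hu
  · rintro _ ⟨i, v, hi, hv, rfl⟩
    have h1 := wl_rev' (C := C) l i
    rw [← h1] at hi hv ⊢
    rw [h.K_wl] at hv
    obtain ⟨w, hw, h2⟩ := nl_inv_act h l _ hv
    rw [h2]
    exact TS.x_mem_gr (hpq _ hi) hw
  · simp
  · intro a b _ _ h1 h2
    have e1 : (nl C x l)⁻¹ * (a * b) * nl C x l =
        ((nl C x l)⁻¹ * a * nl C x l) * ((nl C x l)⁻¹ * b * nl C x l) := by group
    rw [e1]
    exact mul_mem h1 h2
  · intro a _ h1
    have e1 : (nl C x l)⁻¹ * a⁻¹ * nl C x l = ((nl C x l)⁻¹ * a * nl C x l)⁻¹ := by group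
    rw [e1]
    exact inv_mem h1

/-- the group generated by `X_θ` and `X_{-θ}` -/
def GG (C : RC ι) (K : ι → Subfield F) (x : ι → F → L) (θ : ι) : Subgroup L :=
  gr K x (fun j => j = θ ∨ j = C.neg θ)

lemma x_mem_GG {θ : ι} {c : F} (hc : c ∈ K θ) : x θ c ∈ GG C K x θ :=
  subset_closure ⟨θ, c, Or.inl rfl, hc, rfl⟩

lemma x_mem_GG' {θ j : ι} (hj : j = C.neg θ) {c : F} (hc : c ∈ K j) : x j c ∈ GG C K x θ :=
  subset_closure ⟨j, c, Or.inr hj, hc, rfl⟩

lemma GG_le (h : TS C K x) (i : ι) (hi : C.simp i) :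
    GG C K x i ≤ Par (BB C K x) (nn C.neg x i 1) := by
  rw [GG, gr, closure_le]
  have h0 : ∀ t ∈ K i, x i t ∈ Par (BB C K x) (nn C.neg x i 1) := fun t ht =>
    le_Par (TS.UU_le (TS.x_mem_UU (C.simp_pos i hi) ht))
  rintro _ ⟨j, t, rfl | rfl, ht, rfl⟩
  · exact h0 t ht
  · rw [h.K_neg] at ht
    obtain ⟨v, hv, h1⟩ := n_onto h i i ht
    rw [C.s_self] at h1
    rw [h1]
    exact mul_mem (mul_mem self_mem_Par (h0 v hv)) (inv_mem self_mem_Par)

lemma conj_mem_GG {θ : ι} {c : F} (hc : c ∈ K θ) {y : L} (hy : y ∈ GG C K x θ) :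
    x θ c * y * (x θ c)⁻¹ ∈ GG C K x θ := by
  have h1 : x θ c ∈ GG C K x θ := x_mem_GG hc
  exact mul_mem (mul_mem h1 hy) (inv_mem h1)

/-- `θ` is the highest root -/
def Top (C : RC ι) (θ : ι) : Prop := 0 < C.ht θ ∧ ∀ j k, 0 < C.ht j → ¬ C.cone θ j k

lemma Top.comm {θ : ι} (hθ : Top C θ) (h : TS C K x) {u : L} (hu : u ∈ UU C K x) {c : F}
    (hc : c ∈ K θ) : u * x θ c * u⁻¹ = x θ c := by
  refine closure_induction (p := fun u _ => u * x θ c * u⁻¹ = x θ c) ?_ ?_ ?_ ?_ hu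
  · rintro _ ⟨j, t, hj, ht, rfl⟩
    by_cases hjθ : j = θ
    · subst hjθ
      rw [x_comm h _ ht hc, mul_inv_cancel_right]
    · have h1 := h.comm j θ hjθ (ne_neg hj hθ.1) t c ht hc
      have h2 : gr K x (C.cone j θ) = ⊥ := by
        rw [eq_bot_iff, gr, closure_le]
        rintro _ ⟨k, s, hk, -, -⟩
        exact absurd (C.cone_symm _ _ _ hk) (hθ.2 j k hj)
      rw [h2, mem_bot, mul_inv_eq_one] at h1
      exact h1
  · simp
  · intro a b _ _ h1 h2
    calc a * b * x θ c * (a * b)⁻¹ = a * (b * x θ c * b⁻¹) * a⁻¹ := by group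
      _ = _ := by rw [h2, h1]
  · intro a _ h1
    calc a⁻¹ * x θ c * a⁻¹⁻¹ = a⁻¹ * (a * x θ c * a⁻¹) * a := by rw [h1]; group
      _ = _ := by group

lemma Top.B {θ : ι} (hθ : Top C θ) (h : TS C K x) {b : L} (hb : b ∈ BB C K x) {c : F}
    (hc : c ∈ K θ) : ∃ c' ∈ K θ, b * x θ c * b⁻¹ = x θ c' := by
  obtain ⟨u, hu, t, ht, rfl⟩ := h.mem_BB hb
  obtain ⟨a, haK, -, h1⟩ := h.T_act ht θ
  refine ⟨a * c, mul_mem haK hc, ?_⟩
  calc u * t * x θ c * (u * t)⁻¹ = u * (t * x θ c * t⁻¹) * u⁻¹ := by group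
    _ = _ := by rw [h1 c hc, hθ.comm h hu (mul_mem haK hc)]

section
variable (r : ℕ) [Fact r.Prime] [CharP F r] [Finite ι] [Finite F] [Finite L] (h : TS C K x)
  (hcen : ∀ g : L, (∀ y, g * y = y * g) → g = 1)
  {i : ι} (hi : C.simp i) (hr3 : r ≠ 3) (h3 : ∀ c ∈ K i, c ^ 3 = 1 → c = 1)
  (hq : (∀ a, Nat.card (K i) + 1 ≠ 3 ^ a) ∨ (r = 2 ∧ 2 < Nat.card (K i)))
include r h hcen hi hr3 h3 hq

omit hr3 h3 hq in
/-- characteristic `2` -/
lemma lemR0 (hr2 : r = 2) (hK : 2 < Nat.card (K i)) {E : Subgroup L}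
    (hEP : E ≤ Par (BB C K x) (nn C.neg x i 1)) (hE3 : ∀ g ∈ E, g ^ 3 = 1)
    (hEc : ∀ g ∈ E, ∀ g' ∈ E, g * g' = g' * g)
    (hx : ∀ c ∈ K i, ∀ e ∈ E, x i c * e * (x i c)⁻¹ ∈ E) : E ≤ BB C K x := by
  classical
  have h2 : (2 : F) = 0 := by
    have := CharP.cast_eq_zero F r
    rw [hr2] at this
    exact_mod_cast this
  have hxx : ∀ a ∈ K i, x i a * x i a = 1 := by
    intro a ha
    rw [← h.add i _ _ ha ha]
    have : a + a = 0 := by linear_combination a * h2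
    rw [this, h.x_zero]
  -- the product of `e` and its conjugate
  have claim : ∀ a ∈ K i, a ≠ 0 → ∀ e ∈ E, e * (x i a * e * (x i a)⁻¹) ∈ BB C K x := by
    intro a ha ha0 e he
    set y := e * (x i a * e * (x i a)⁻¹) with hy
    have hyE : y ∈ E := mul_mem he (hx a ha e he)
    have hinv : (x i a)⁻¹ = x i a := inv_eq_of_mul_eq_one_left (hxx a ha)
    have hcomm : x i a * y * (x i a)⁻¹ = y := by
      have h4 : x i a * (x i a * e * (x i a)⁻¹) * (x i a)⁻¹ = e := by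
        rw [hinv]
        calc x i a * (x i a * e * x i a) * x i a = (x i a * x i a) * e * (x i a * x i a) := by
              group
          _ = e := by rw [hxx a ha, one_mul, mul_one]
      calc x i a * y * (x i a)⁻¹ =
          (x i a * e * (x i a)⁻¹) * (x i a * (x i a * e * (x i a)⁻¹) * (x i a)⁻¹) := by
            rw [hy]; group
        _ = (x i a * e * (x i a)⁻¹) * e := by rw [h4]
        _ = y := by rw [hy, hEc _ he _ (hx a ha e he)]
    by_contra hyB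
    rcases par_form h (bn0 r h hcen) hi (hEP hyE) with h1 | ⟨c₀, hc₀, b, hb, hb'⟩
    · exact hyB h1
    have h5 : (x i c₀ * nn C.neg x i 1)⁻¹ * (x i (a + c₀) * nn C.neg x i 1) ∈ BB C K x := by
      have e1 : (x i c₀ * nn C.neg x i 1)⁻¹ * (x i (a + c₀) * nn C.neg x i 1) =
          b * x i a * b⁻¹ := by
        rw [h.add i _ _ ha hc₀]
        have h6 : x i a * y = y * x i a := mul_inv_eq_iff_eq_mul.1 hcomm
        rw [hb'] at h6
        calc (x i c₀ * nn C.neg x i 1)⁻¹ * (x i a * x i c₀ * nn C.neg x i 1) =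
            (x i c₀ * nn C.neg x i 1)⁻¹ * (x i a * (x i c₀ * nn C.neg x i 1 * b)) * b⁻¹ := by
              group
          _ = (x i c₀ * nn C.neg x i 1)⁻¹ * ((x i c₀ * nn C.neg x i 1 * b) * x i a) * b⁻¹ := by
              rw [h6]
          _ = _ := by group
      rw [e1]
      exact mul_mem (mul_mem hb (TS.UU_le (TS.x_mem_UU (C.simp_pos i hi) ha))) (inv_mem hb)
    have h6 := point_inj r h hcen hi hc₀ (add_mem ha hc₀) h5
    exact ha0 (by linear_combination -h6)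
  obtain ⟨c, hc, hc0, hc1⟩ : ∃ c ∈ K i, c ≠ 0 ∧ c ≠ 1 := by
    by_contra hcon
    push Not at hcon
    have hinj : Function.Injective (fun c : K i => if (c : F) = 0 then (0 : Fin 2) else 1) := by
      intro a b hab
      by_cases ha : (a : F) = 0
      · by_cases hb : (b : F) = 0
        · exact Subtype.ext (ha.trans hb.symm)
        · simp [ha, hb] at hab
      · by_cases hb : (b : F) = 0
        · simp [ha, hb] at hab
        · exact Subtype.ext ((hcon a a.2 ha).trans (hcon b b.2 hb).symm)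
    have h4 := Nat.card_le_card_of_injective _ hinj
    rw [Nat.card_eq_fintype_card (α := Fin 2), Fintype.card_fin] at h4
    omega
  intro e he
  have m1 : (1 : F) ∈ K i := one_mem _
  set e₂ := x i c * e * (x i c)⁻¹ with he₂
  have he₂E : e₂ ∈ E := hx c hc e he
  have hw : x i 1 * e₂ * (x i 1)⁻¹ ∈ E := hx 1 m1 _ he₂E
  have a2 : e * e₂ ∈ BB C K x := claim c hc hc0 e he
  have a3 : e * (x i 1 * e₂ * (x i 1)⁻¹) ∈ BB C K x := by
    have h4 : (1 : F) + c ≠ 0 := by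
      intro h5
      apply hc1
      linear_combination h5 - h2
    have h5 := claim (1 + c) (add_mem m1 hc) h4 e he
    have e1 : x i (1 + c) * e * (x i (1 + c))⁻¹ = x i 1 * e₂ * (x i 1)⁻¹ := by
      rw [h.add i _ _ m1 hc, he₂]
      group
    rwa [e1] at h5
  have a4 : e₂ * (x i 1 * e₂ * (x i 1)⁻¹) ∈ BB C K x := claim 1 m1 one_ne_zero e₂ he₂E
  have h4 : e * e ∈ BB C K x := by
    have e1 : e * e = (e * e₂) * (e * (x i 1 * e₂ * (x i 1)⁻¹)) *
        (e₂ * (x i 1 * e₂ * (x i 1)⁻¹))⁻¹ := by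
      have h5 := hEc e he e₂ he₂E
      have h6 := hEc e₂ he₂E _ hw
      rw [mul_inv_rev]
      calc e * e = e * e * e₂ * e₂⁻¹ := by group
        _ = e * (e * e₂) * e₂⁻¹ := by group
        _ = e * (e₂ * e) * e₂⁻¹ := by rw [h5]
        _ = _ := by group
    rw [e1]
    exact mul_mem (mul_mem a2 a3) (inv_mem a4)
  have e2 : e = (e * e) * (e * e) := by
    have h8 := hE3 _ he
    calc e = e ^ 3 * e := by rw [h8, one_mul]
      _ = _ := by rw [pow_succ, pow_two]; simp only [mul_assoc]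
  rw [e2]
  exact mul_mem h4 h4

/-- in the minimal parabolic subgroup -/
lemma lemR1 {E : Subgroup L} (hEP : E ≤ Par (BB C K x) (nn C.neg x i 1))
    (hE3 : ∀ g ∈ E, g ^ 3 = 1) (hEc : ∀ g ∈ E, ∀ g' ∈ E, g * g' = g' * g)
    (hx : ∀ c ∈ K i, ∀ e ∈ E, x i c * e * (x i c)⁻¹ ∈ E) :
    ∀ e ∈ E, ∀ c ∈ K i, e * x i c = x i c * e := by
  have hEB : E ≤ BB C K x := by
    rcases hq with hq | ⟨hr2, hK⟩
    · by_contra hEB
      obtain ⟨a, ha⟩ := idx_pow (C := C) (K := K) (x := x) r hE3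
      exact hq a (by rw [← ha, idx_x r h hcen hi hr3 h3 hEP hE3 hx hEB])
    · exact lemR0 r h hcen hi hr2 hK hEP hE3 hEc hx
  intro e he c hc
  obtain ⟨v, hv, t, ht, hvt, -, hfix⟩ := B_three r h hcen hr3 hi h3 (hEB he) (hE3 e he)
  have h1 : e * x i c * e⁻¹ * (x i c)⁻¹ = v * (x i c * v⁻¹ * (x i c)⁻¹) := by
    rw [hvt]
    calc v * t * x i c * (v * t)⁻¹ * (x i c)⁻¹ = v * (t * x i c * t⁻¹) * v⁻¹ * (x i c)⁻¹ := by
          group
      _ = _ := by rw [hfix c hc]; group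
  have h2 : e * x i c * e⁻¹ * (x i c)⁻¹ ∈ UU C K x := by
    rw [h1]
    exact Ui_le i (mul_mem hv (Ui_conj_x h hi hc (inv_mem hv)))
  have h4 : e * x i c * e⁻¹ * (x i c)⁻¹ ∈ E := by
    have e1 : e * x i c * e⁻¹ * (x i c)⁻¹ = e * (x i c * e⁻¹ * (x i c)⁻¹) := by group
    rw [e1]
    exact mul_mem he (hx c hc _ (inv_mem he))
  have h5 := U_three h r hr3 h2 (hE3 _ h4)
  rw [mul_inv_eq_one, mul_inv_eq_iff_eq_mul] at h5
  exact h5

/-- in the group generated by two opposite root groups -/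
lemma lemR2 {l : List ι} {θ : ι} (hθ : wl C l i = θ) {E : Subgroup L} (hEP : E ≤ GG C K x θ)
    (hE3 : ∀ g ∈ E, g ^ 3 = 1) (hEc : ∀ g ∈ E, ∀ g' ∈ E, g * g' = g' * g) (hx : ∀ c ∈ K θ, ∀ e ∈ E, x θ c * e * (x θ c)⁻¹ ∈ E) :
    ∀ e ∈ E, ∀ c ∈ K θ, e * x θ c = x θ c * e := by
  subst hθ
  set m := nl C x l with hm
  let E' : Subgroup L := E.comap (MulAut.conj m).toMonoidHom
  have hE' : ∀ y, y ∈ E' ↔ m * y * m⁻¹ ∈ E := fun y => Iff.rfl
  have h1 : E' ≤ Par (BB C K x) (nn C.neg x i 1) := by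
    refine le_trans ?_ (GG_le h i hi)
    intro y hy
    have h2 := nl_inv_conj_gr h (q := fun j => j = i ∨ j = C.neg i) (l := l) ?_
      (hEP ((hE' y).1 hy))
    · have e1 : (nl C x l)⁻¹ * (m * y * m⁻¹) * nl C x l = y := by rw [hm]; group
      rwa [e1] at h2
    · intro j hj
      have inj : ∀ a b, wl C l a = wl C l b → a = b := fun a b hab => by
        have := congrArg (wl C l.reverse) hab
        rwa [wl_rev, wl_rev] at this
      rcases hj with h3 | h3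
      · exact Or.inl (inj _ _ h3)
      · right
        apply inj
        rw [h3, wl_neg]
  have h2 := lemR1 r h hcen hi hr3 h3 hq (E := E') h1 (fun g hg => by
    have h4 := hE3 _ ((hE' g).1 hg)
    rw [conj_pow, mul_inv_eq_one, mul_eq_left] at h4
    exact h4) (fun g hg g' hg' => by
    have h4 := hEc _ ((hE' g).1 hg) _ ((hE' g').1 hg')
    have e1 : m * g * m⁻¹ * (m * g' * m⁻¹) = m * (g * g') * m⁻¹ := by group
    have e2 : m * g' * m⁻¹ * (m * g * m⁻¹) = m * (g' * g) * m⁻¹ := by group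
    rw [e1, e2] at h4
    exact mul_left_cancel (mul_right_cancel h4)) (fun c hc e he => by
    rw [hE'] at he ⊢
    obtain ⟨φ, hφ, -, h4, -⟩ := h.nl_act l i
    have e1 : m * (x i c * e * (x i c)⁻¹) * m⁻¹ =
        (m * x i c * m⁻¹) * (m * e * m⁻¹) * (m * x i c * m⁻¹)⁻¹ := by group
    rw [e1, hm, h4 c hc]
    exact hx _ (by rw [h.K_wl]; exact hφ c hc) _ he)
  intro e he c hc
  rw [h.K_wl] at hc
  obtain ⟨v, hv, h4⟩ := nl_onto h l i hc
  have h5 := h2 (m⁻¹ * e * m) (by rw [hE']; have e1 : m * (m⁻¹ * e * m) * m⁻¹ = e := by group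
                                  rwa [e1]) v hv
  rw [h4, ← hm]
  calc e * (m * x i v * m⁻¹) = m * ((m⁻¹ * e * m) * x i v) * m⁻¹ := by group
    _ = m * (x i v * (m⁻¹ * e * m)) * m⁻¹ := by rw [h5]
    _ = _ := by group

/-- the highest root -/
theorem lemR3 {l₀ : List ι} {θ : ι} (hθi : wl C l₀ i = θ) (hθ : Top C θ)
    (hsep : ∀ l, (∀ j ∈ l, C.simp j) → wl C l θ ≠ C.neg θ →
      ∃ l', 0 < C.ht (wl C l' θ) ∧ 0 < C.ht (wl C l' (wl C l θ)))
    {E : Subgroup L} (hE3 : ∀ g ∈ E, g ^ 3 = 1) (hEc : ∀ g ∈ E, ∀ g' ∈ E, g * g' = g' * g)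
    (hx : ∀ c ∈ K θ, ∀ e ∈ E, x θ c * e * (x θ c)⁻¹ ∈ E) :
    ∀ e ∈ E, ∀ c ∈ K θ, x θ c * e * (x θ c)⁻¹ = e := by
  intro e he c hc
  obtain ⟨n, hn, b, hb, b', hb', hbb⟩ := (splitBN h hcen r).toSB.toBN.bruhat e
  obtain ⟨t, ht, l, hl, rfl⟩ := h.mem_NN hn
  -- the commutator
  set g := x θ c * e * (x θ c)⁻¹ * e⁻¹ with hg
  have hgE : g ∈ E := mul_mem (hx c hc e he) (inv_mem he)
  have hg3 := hE3 g hgE
  obtain ⟨c₁, hc₁, h1⟩ := hθ.B h hb' (c := -c) (neg_mem hc)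
  obtain ⟨φ, hφ, -, h2, -⟩ := h.nl_act l θ
  obtain ⟨d, hdK, -, h4⟩ := h.T_act ht (wl C l θ)
  rw [h.K_wl] at hdK h4
  obtain ⟨c₂, hc₂, h5⟩ := hθ.B h (inv_mem hb) hc
  have hφc : φ c₁ ∈ K θ := hφ c₁ hc₁
  have h6 : g = b * (x θ c₂ * x (wl C l θ) (d * φ c₁)) * b⁻¹ := by
    rw [← h5, ← h4 _ hφc, ← h2 _ hc₁, ← h1, h.x_neg θ hc, hg, hbb]
    group
  have hg1 : g = 1 := by
    by_cases hβ : wl C l θ = C.neg θ
    · -- the opposite case
      let E₁ : Subgroup L := GG C K x θ ⊓ E.comap (MulAut.conj b).toMonoidHom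
      have hE₁ : ∀ y, y ∈ E₁ ↔ y ∈ GG C K x θ ∧ b * y * b⁻¹ ∈ E := fun y => Iff.rfl
      have h7 := lemR2 r h hcen hi hr3 h3 hq hθi (E := E₁) inf_le_left (fun y hy => by
        have h4 := hE3 _ ((hE₁ y).1 hy).2
        rw [conj_pow, mul_inv_eq_one, mul_eq_left] at h4
        exact h4) (fun g hg g' hg' => by
        have h4 := hEc _ ((hE₁ g).1 hg).2 _ ((hE₁ g').1 hg').2
        have e1 : b * g * b⁻¹ * (b * g' * b⁻¹) = b * (g * g') * b⁻¹ := by group
        have e2 : b * g' * b⁻¹ * (b * g * b⁻¹) = b * (g' * g) * b⁻¹ := by group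
        rw [e1, e2] at h4
        exact mul_left_cancel (mul_right_cancel h4)) (fun a ha y hy => by
        rw [hE₁] at hy ⊢
        refine ⟨conj_mem_GG ha hy.1, ?_⟩
        obtain ⟨a', ha', h8⟩ := hθ.B h hb ha
        have e1 : b * (x θ a * y * (x θ a)⁻¹) * b⁻¹ =
          (b * x θ a * b⁻¹) * (b * y * b⁻¹) * (b * x θ a * b⁻¹)⁻¹ := by group
        rw [e1, h8]
        exact hx _ ha' _ hy.2)
      have hy : x θ c₂ * x (wl C l θ) (d * φ c₁) ∈ E₁ := by
        rw [hE₁]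
        refine ⟨mul_mem (x_mem_GG hc₂) (x_mem_GG' hβ ?_), ?_⟩
        · rw [h.K_wl]
          exact mul_mem hdK hφc
        · rw [← h6]
          exact hgE
      have h8 := h7 _ hy c₂ hc₂
      -- `x` commutes with `g`
      have h9 : g * x θ c = x θ c * g := by
        have e1 : x θ c = b * x θ c₂ * b⁻¹ := by rw [← h5]; group
        calc g * x θ c = b * (x θ c₂ * x (wl C l θ) (d * φ c₁)) * b⁻¹ * (b * x θ c₂ * b⁻¹) := by
              rw [← e1, ← h6]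
          _ = b * ((x θ c₂ * x (wl C l θ) (d * φ c₁)) * x θ c₂) * b⁻¹ := by group
          _ = b * (x θ c₂ * (x θ c₂ * x (wl C l θ) (d * φ c₁))) * b⁻¹ := by rw [h8]
          _ = (b * x θ c₂ * b⁻¹) * (b * (x θ c₂ * x (wl C l θ) (d * φ c₁)) * b⁻¹) := by group
          _ = x θ c * g := by rw [← e1, ← h6]
      have h10 : ∀ k : ℕ, x θ c ^ k * e * (x θ c ^ k)⁻¹ = g ^ k * e := by
        intro k
        induction k with
        | zero => simp
        | succ k ih =>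
          have h11 : x θ c * g ^ k = g ^ k * x θ c := (Commute.pow_left h9 k).symm
          have e1 : x θ c ^ (k + 1) * e * (x θ c ^ (k + 1))⁻¹ =
              x θ c * (x θ c ^ k * e * (x θ c ^ k)⁻¹) * (x θ c)⁻¹ := by
            rw [pow_succ']; group
          rw [e1, ih, ← mul_assoc, h11, pow_succ, hg]
          group
      have h11 := h10 r
      have h12 : x θ c ^ r = 1 := by
        have := x_pow_r r h hc
        rwa [pow_one] at this
      rw [h12, one_mul, inv_one, mul_one] at h11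
      have h13 : g ^ r ^ 1 = 1 := by
        rw [pow_one]
        exact (mul_eq_right.1 h11.symm)
      exact one_of_three (Fact.out : r.Prime) hr3 h13 hg3
    · obtain ⟨l', h7, h8⟩ := hsep l hl hβ
      have h9 : nl C x l' * (x θ c₂ * x (wl C l θ) (d * φ c₁)) * (nl C x l')⁻¹ ∈ UU C K x := by
        have m1 : x θ c₂ ∈ gr K x (fun j => j = θ ∨ j = wl C l θ) :=
          subset_closure ⟨θ, c₂, Or.inl rfl, hc₂, rfl⟩
        have m2 : x (wl C l θ) (d * φ c₁) ∈ gr K x (fun j => j = θ ∨ j = wl C l θ) :=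
          subset_closure ⟨wl C l θ, d * φ c₁, Or.inr rfl, by rw [h.K_wl]; exact mul_mem hdK hφc, rfl⟩
        refine h.nl_conj_gr (p := fun j => j = θ ∨ j = wl C l θ) (l := l') ?_ (mul_mem m1 m2)
        rintro j (rfl | rfl)
        exacts [h7, h8]
      have h10 := U_three h r hr3 h9 (by
        rw [conj_pow]
        have h11 : (x θ c₂ * x (wl C l θ) (d * φ c₁)) ^ 3 = 1 := by
          have h12 := hg3
          rw [h6, conj_pow, mul_inv_eq_one, mul_eq_left] at h12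
          exact h12
        rw [h11]
        group)
      rw [mul_inv_eq_one, mul_eq_left] at h10
      rw [h6, h10]
      group
  rw [hg, mul_inv_eq_one] at hg1
  exact hg1

/-- roots conjugate to the highest root -/
theorem lemR4 {l₀ : List ι} {θ : ι} (hθi : wl C l₀ i = θ) (hθ : Top C θ)
    (hsep : ∀ l, (∀ j ∈ l, C.simp j) → wl C l θ ≠ C.neg θ →
      ∃ l', 0 < C.ht (wl C l' θ) ∧ 0 < C.ht (wl C l' (wl C l θ)))
    {l₁ : List ι} {β : ι} (hβ : wl C l₁ β = θ)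
    {E : Subgroup L} (hE3 : ∀ g ∈ E, g ^ 3 = 1) (hEc : ∀ g ∈ E, ∀ g' ∈ E, g * g' = g' * g)
    (hx : ∀ c ∈ K β, ∀ e ∈ E, x β c * e * (x β c)⁻¹ ∈ E) :
    ∀ e ∈ E, ∀ c ∈ K β, x β c * e * (x β c)⁻¹ = e := by
  set m := nl C x l₁ with hm
  have hK : K θ = K β := by rw [← hβ, h.K_wl]
  let E' : Subgroup L := E.comap (MulAut.conj m⁻¹).toMonoidHom
  have hE' : ∀ y, y ∈ E' ↔ m⁻¹ * y * m⁻¹⁻¹ ∈ E := fun y => Iff.rfl
  have h1 := lemR3 r h hcen hi hr3 h3 hq hθi hθ hsep (E := E') (fun g hg => by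
    have h4 := hE3 _ ((hE' g).1 hg)
    rw [conj_pow, mul_inv_eq_one, mul_eq_left] at h4
    exact h4) (fun g hg g' hg' => by
    have h4 := hEc _ ((hE' g).1 hg) _ ((hE' g').1 hg')
    have e1 : m⁻¹ * g * m⁻¹⁻¹ * (m⁻¹ * g' * m⁻¹⁻¹) = m⁻¹ * (g * g') * m⁻¹⁻¹ := by group
    have e2 : m⁻¹ * g' * m⁻¹⁻¹ * (m⁻¹ * g * m⁻¹⁻¹) = m⁻¹ * (g' * g) * m⁻¹⁻¹ := by group
    rw [e1, e2] at h4
    exact mul_left_cancel (mul_right_cancel h4)) (fun c hc e he => by
    rw [hE'] at he ⊢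
    rw [hK] at hc
    obtain ⟨v, hv, h4⟩ := nl_onto h l₁ β hc
    rw [hβ, ← hm] at h4
    have e1 : m⁻¹ * (x θ c * e * (x θ c)⁻¹) * m⁻¹⁻¹ = x β v * (m⁻¹ * e * m⁻¹⁻¹) * (x β v)⁻¹ := by
      rw [h4]; group
    rw [e1]
    exact hx _ hv _ he)
  intro e he c hc
  obtain ⟨φ, hφ, -, h4, -⟩ := h.nl_act l₁ β
  have h5 := h4 c hc
  rw [hβ, ← hm] at h5
  have h6 := h1 (m * e * m⁻¹) (by
    rw [hE']
    have e1 : m⁻¹ * (m * e * m⁻¹) * m⁻¹⁻¹ = e := by group
    rwa [e1]) (φ c) (by rw [hK]; exact hφ c hc)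
  rw [← h5] at h6
  have e1 : m * x β c * m⁻¹ * (m * e * m⁻¹) * (m * x β c * m⁻¹)⁻¹ =
      m * (x β c * e * (x β c)⁻¹) * m⁻¹ := by group
  rw [e1] at h6
  exact mul_left_cancel (mul_right_cancel h6)

end

end

end Vale.Agent.P240.R2.H493
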