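import Vale.Agent.P240.R2.H493.ParE

/-!
No `3`-subgroup of exponent `3` is normalized by `⟨s⟩ × P`.
-/

set_option autoImplicit false

namespace Vale.Agent.P240.R2.H493

open Subgroup Vale.Agent.P240.K Vale.Agent.P240.H195 Vale.Agent.P240.R2.H945.W CartanMatrix
open Vale.Agent.P240.R2.H986.X (RC nn nl wl nl_nil nl_cons nl_append wl_nil wl_cons wl_append SS
  wl_rev wl_rev' wl_neg)
open Vale.Agent.P240.R2.H164.TW (T_act2)

universe u

section
variable {F : Type} [Field F] {L : Type u} [Group L] {ι : Type} {C : RC ι} {e : Fin 4 → ι}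
  {K₀ : Subfield F} {K : ι → Subfield F} {x : ι → F → L} {co : ι → Fin 4 → ℤ}

namespace Dt

lemma ht_e (h : Dt C e K₀ K x co) (k : Fin 4) : C.ht (e k) = 1 := by
  rw [h.coo.ht, h.coo.co_e]
  simp

lemma lead_simple (h : Dt C e K₀ K x co) (k : Fin 4) :
    Lead C (fun j => 0 < C.ht j ∧ j ≠ e k) (e k) where
  ideal := by
    refine ⟨fun _ hi => hi.1, fun i j k' hi hj hk => ?_⟩
    have h1 := (C.cone_ht _ _ _ hk hi.1 hj).1
    have h2 := hi.1
    refine ⟨by omega, fun he => ?_⟩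
    rw [he, h.ht_e] at h1
    omega
  pos := by rw [h.ht_e]; decide
  cone j k' hj hk := by
    have h1 := (C.cone_ht _ _ _ hk (by rw [h.ht_e]; decide) hj).1
    rw [h.ht_e] at h1
    refine ⟨by omega, fun he => ?_⟩
    rw [he, h.ht_e] at h1
    omega

lemma ht_ge (h : Dt C e K₀ K x co) {i j : ι} (hij : ∀ m, co i m ≤ co j m) : C.ht i ≤ C.ht j := by
  rw [h.coo.ht, h.coo.ht]
  exact Finset.sum_le_sum fun m _ => hij m

lemma lead_g (h : Dt C e K₀ K x co) {γ : ι} (hγ : 0 < C.ht γ) :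
    Lead C (fun j => 0 < C.ht j ∧ (∀ m, co γ m ≤ co j m) ∧ j ≠ γ) γ where
  ideal := by
    refine ⟨fun _ hi => hi.1, fun i j k hi hj hk => ?_⟩
    have h1 := (C.cone_ht _ _ _ hk hi.1 hj).1
    have h2 := hi.1
    have h3 := h.ht_ge hi.2.1
    refine ⟨by omega, fun m => (hi.2.1 m).trans (h.cone_ge hk hj m (h.coo.pos i hi.1 m)),
      fun he => ?_⟩
    rw [he] at h1
    omega
  pos := hγ
  cone j k hj hk := by
    have h1 := (C.cone_ht _ _ _ hk hγ hj).1
    refine ⟨by omega, fun m => h.cone_ge hk hj m (h.coo.pos γ hγ m), fun he => ?_⟩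
    rw [he] at h1
    omega

/-- a torus element that acts trivially on `X_i` and `X_{-i}` commutes with `n_i` -/
lemma T_comm_n {h : TS C K x} {t : L} (ht : t ∈ TT C K x) {i : ι}
    (hfix : t * x i 1 * t⁻¹ = x i 1) : t * nn C.neg x i 1 * t⁻¹ = nn C.neg x i 1 := by
  obtain ⟨c, hcK, hc0, h1⟩ := T_act2 h ht i
  have h2 := (h1 1 (one_mem _)).1
  rw [hfix, mul_one] at h2
  have h3 := h.x_inj (one_mem _) hcK h2
  subst h3
  have h4 := (h1 (-1⁻¹) (neg_mem (inv_mem (one_mem _)))).2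
  rw [inv_one, one_mul] at h4
  have e1 : t * nn C.neg x i 1 * t⁻¹ = (t * x i 1 * t⁻¹) *
      (t * x (C.neg i) (-1⁻¹) * t⁻¹) * (t * x i 1 * t⁻¹) := by
    rw [show nn C.neg x i 1 = x i 1 * x (C.neg i) (-1⁻¹) * x i 1 from rfl]
    group
  rw [inv_one] at e1
  rw [e1, hfix, h4]
  rw [show nn C.neg x i 1 = x i 1 * x (C.neg i) (-1⁻¹) * x i 1 from rfl, inv_one]

/-- the group `P` -/
def PP (C : RC ι) (e : Fin 4 → ι) (K : ι → Subfield F) (x : ι → F → L) : Subgroup L :=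
  gr K x (fun j => 0 < C.ht j ∧ C.pr j (e 1) = 0)

lemma x_mem_PP {j : ι} (hj : 0 < C.ht j) (hj' : C.pr j (e 1) = 0) {a : F} (ha : a ∈ K j) :
    x j a ∈ PP C e K x := subset_closure ⟨j, a, ⟨hj, hj'⟩, ha, rfl⟩

lemma PP_le : PP C e K x ≤ UU C K x := gr_mono fun _ hj => hj.1

lemma ht_tg (h : Dt C e K₀ K x co) : C.ht (tg C e) = 3 := by
  rw [h.coo.ht, h.co_tg]; decide

lemma wl_tg : wl C [e 2, e 1, e 0] (tg C e) = C.neg (e 2) := by
  have h1 : tg C e = C.s (e 0) (C.s (e 1) (e 2)) := rfl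
  rw [h1, wl_cons, wl_cons, wl_cons, wl_nil, C.s_s, C.s_s, C.s_self]

/-- elements of order `3` of `B` centralizing `P` -/
lemma B_eq_one [Finite F] [Finite ι] (r : ℕ) [Fact r.Prime] [CharP F r] (hr3 : r ≠ 3)
    (h : Dt C e K₀ K x co) (h3 : ∀ c ∈ K₀, c ^ 3 = 1 → c = 1) {g : L} (hg : g ∈ BB C K x)
    (hg3 : g ^ 3 = 1) (hP : ∀ y ∈ PP C e K x, g * y = y * g) : g = 1 := by
  have hts := h.td.ts
  obtain ⟨v, hv, t, ht, rfl, ht3, hfix0⟩ := B_three r hts h.cen hr3 (h.simp 0)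
    (by rw [h.td.K4_0]; exact h3) hg hg3
  have hvU : v ∈ UU C K x := Ui_le _ hv
  have hx : ∀ j, 0 < C.ht j → C.pr j (e 1) = 0 → ∀ a ∈ K j,
      v * (t * x j a * t⁻¹) * v⁻¹ = x j a := by
    intro j hj hj' a ha
    have h1 := hP _ (x_mem_PP hj hj' ha)
    calc v * (t * x j a * t⁻¹) * v⁻¹ = (v * t * x j a) * (v * t)⁻¹ := by group
      _ = _ := by rw [h1, mul_inv_cancel_right]
  -- `χ₀`
  have f0 : t * x (e 0) 1 * t⁻¹ = x (e 0) 1 := hfix0 1 (one_mem _)
  -- `χ₁`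
  have f1 : t * x (e 1) 1 * t⁻¹ = x (e 1) 1 := by
    obtain ⟨c, hcK, -, h1⟩ := hts.T_act ht (e 1)
    have h2 := T_pow_act hcK h1 3 1 (one_mem _)
    rw [ht3, one_mul, inv_one, mul_one, mul_one] at h2
    have h4 := h3 c (by rwa [h.td.K4_1] at hcK) (hts.x_inj (one_mem _) (pow_mem hcK 3) h2).symm
    rw [h1 1 (one_mem _), h4, one_mul]
  -- `χ₃`
  have f3 : t * x (e 3) 1 * t⁻¹ = x (e 3) 1 := by
    obtain ⟨c, hcK, -, h1⟩ := hts.T_act ht (e 3)
    have h2 := hx (e 3) (by rw [h.ht_e]; decide) (by rw [h.td.pr]; decide) 1 (one_mem _)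
    have hc1 : c * 1 ∈ K (e 3) := mul_mem hcK (one_mem _)
    rw [h1 1 (one_mem _)] at h2
    have h4 := (h.lead_simple 3).U hts hvU hc1
    rw [h2, ← hts.x_neg _ hc1, ← hts.add _ _ _ (one_mem _) (neg_mem hc1)] at h4
    have h5 := x_mem_Ui hts (h.simp 3) (add_mem (one_mem _) (neg_mem hc1)) h4
    have h6 : c = 1 := by linear_combination -h5
    rw [h1 1 (one_mem _), h6, one_mul]
  -- `χ_γ`
  have fγ : ∀ a ∈ K (tg C e), t * x (tg C e) a * t⁻¹ = x (tg C e) a := by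
    intro a ha
    obtain ⟨d, hdK, -, h1⟩ := hts.T_act ht (tg C e)
    have hγ : 0 < C.ht (tg C e) := by rw [h.ht_tg]; decide
    have h2 := hx (tg C e) hγ (by
      rw [h.pr_e, h.co_tg]
      decide +kernel) a ha
    have hda : d * a ∈ K (tg C e) := mul_mem hdK ha
    rw [h1 a ha] at h2
    have h4 := (h.lead_g hγ).U hts hvU hda
    have hs : a + -(d * a) ∈ K (tg C e) := add_mem ha (neg_mem hda)
    rw [h2, ← hts.x_neg _ hda, ← hts.add _ _ _ ha (neg_mem hda)] at h4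
    obtain ⟨φ, hφ, hφ0, h5, -⟩ := hts.nl_act [e 2, e 1, e 0] (tg C e)
    have h6 : x (wl C [e 2, e 1, e 0] (tg C e)) (φ (a + -(d * a))) ∈ UU C K x := by
      rw [← h5 _ hs]
      refine hts.nl_conj_gr (q := fun j => 0 < C.ht j) (l := [e 2, e 1, e 0]) ?_ h4
      rintro j ⟨hj1, hj2, hj3⟩
      have c1 := hj2 2
      rw [h.co_tg] at c1
      have c1' : 1 ≤ co j 2 := c1
      have j1 : j ≠ e 0 := by
        rintro rfl
        rw [h.coo.co_e] at c1'
        exact absurd c1' (by decide)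
      have p1 := C.s_pos (e 0) j (h.simp 0) hj1 j1
      have j2 : C.s (e 0) j ≠ e 1 := by
        intro he
        have : j = C.s (e 0) (e 1) := by rw [← he, C.s_s]
        rw [this, h.coo.co_s, h.coo.co_e, h.coo.co_e] at c1'
        exact absurd c1' (by simp)
      have p2 := C.s_pos (e 1) _ (h.simp 1) p1 j2
      have j3 : C.s (e 1) (C.s (e 0) j) ≠ e 2 := by
        intro he
        apply hj3
        have : j = C.s (e 0) (C.s (e 1) (e 2)) := by rw [← he, C.s_s, C.s_s]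
        exact this
      exact C.s_pos (e 2) _ (h.simp 2) p2 j3
    have h7 := hts.x_not_mem (by rw [wl_tg, C.ht_neg, h.ht_e]; decide)
      (by rw [hts.K_wl]; exact hφ _ hs) h6
    have h8 : a + -(d * a) = 0 := by
      by_contra hne
      exact hφ0 _ hs hne h7
    rw [h1 a ha]
    congr 1
    linear_combination -h8
  -- `χ₂`
  have f2 : t * x (e 2) 1 * t⁻¹ = x (e 2) 1 := by
    have n0 := T_comm_n (h := hts) ht f0
    have n1 := T_comm_n (h := hts) ht f1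
    obtain ⟨φ, hφ, hφ0, h5, -⟩ := hts.nl_act [e 0, e 1] (e 2)
    have h6 := h5 1 (one_mem _)
    have h7 := fγ (φ 1) (by
      have := hφ 1 (one_mem _)
      change φ 1 ∈ K (wl C [e 0, e 1] (e 2))
      rwa [hts.K_wl])
    have h8 : x (wl C [e 0, e 1] (e 2)) (φ 1) = x (tg C e) (φ 1) := rfl
    rw [h8] at h6
    rw [← h6] at h7
    have hm : t * nl C x [e 0, e 1] * t⁻¹ = nl C x [e 0, e 1] := by
      rw [nl_cons, nl_cons, nl_nil, mul_one]
      calc t * (nn C.neg x (e 0) 1 * nn C.neg x (e 1) 1) * t⁻¹ =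
          (t * nn C.neg x (e 0) 1 * t⁻¹) * (t * nn C.neg x (e 1) 1 * t⁻¹) := by group
        _ = _ := by rw [n0, n1]
    have h9 : t * (nl C x [e 0, e 1] * x (e 2) 1 * (nl C x [e 0, e 1])⁻¹) * t⁻¹ =
        (t * nl C x [e 0, e 1] * t⁻¹) * (t * x (e 2) 1 * t⁻¹) *
        (t * nl C x [e 0, e 1] * t⁻¹)⁻¹ := by group
    rw [h9, hm] at h7
    exact mul_left_cancel (mul_right_cancel h7)
  have ht1 : t = 1 := by
    apply h.T_ext ht
    intro j
    fin_cases j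
    exacts [f0, f1, f2, f3]
  subst ht1
  rw [mul_one] at hg3 ⊢
  exact U_three hts r hr3 hvU hg3

lemma hsep0 (h : Dt C e K₀ K x co) : ∀ l, (∀ j ∈ l, C.simp j) →
    wl C l (t0 C e) ≠ C.neg (t0 C e) →
    ∃ l', 0 < C.ht (wl C l' (t0 C e)) ∧ 0 < C.ht (wl C l' (wl C l (t0 C e))) := by
  intro l₁ hl₁ hne
  obtain ⟨l, rfl⟩ := exists_word h.td.simp hl₁
  set β := wl C (l.map e) (t0 C e) with hβ
  have hβn : C.neg β = wl C ((l ++ [0, 1, 2, 1, 0, 3, 2, 1]).map e) (e 1) := by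
    rw [hβ, List.map_append, wl_append]
    have : wl C (([0, 1, 2, 1, 0, 3, 2, 1] : List (Fin 4)).map e) (e 1) = C.neg (t0 C e) := by
      rw [t0, ← wl_neg, ← C.s_self]
      rfl
    rw [this, wl_neg]
  obtain ⟨c, hc, hcr⟩ := h.long_mem (l ++ [0, 1, 2, 1, 0, 3, 2, 1])
  rw [← hβn] at hc hcr
  have hne' : co (C.neg β) ≠ ![2, 3, 4, 2] := by
    intro h1
    apply hne
    rw [← C.neg_neg β]
    congr 1
    apply h.coo.inj
    rw [h.co_t0]
    exact h1
  obtain ⟨l', h1, h2, -⟩ := h.sep hcr h.co_t0 h.lead0.pos (fun hs => LL_0' hc hs hne')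
    (Ψ := fun _ => False) (fun _ hj => hj.elim) (fun _ hj => hj.elim)
  refine ⟨l', h2, ?_⟩
  rw [wl_neg, C.ht_neg] at h1
  omega

/-- a numerical fact -/
lemma num {t a : ℕ} (ht : 3 ≤ t) (ha : 3 ^ a ∣ t ^ 3 + 1) : 3 ^ a < t ^ 2 + t + 2 := by
  have h1 : t ^ 3 + 1 = (t + 1) * (t ^ 2 - t + 1) := by
    have : t ≤ t ^ 2 := by nlinarith
    zify [this]
    ring
  by_cases h2 : t % 3 = 2
  · obtain ⟨k, rfl⟩ : ∃ k, t = 3 * k + 2 := ⟨t / 3, by omega⟩
    have h3 : (3 * k + 2) ^ 3 + 1 = (3 * (3 * k + 2 + 1)) * (3 * k ^ 2 + 3 * k + 1) := by ring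
    rw [h3] at ha
    have h4 : Nat.Coprime (3 ^ a) (3 * k ^ 2 + 3 * k + 1) := by
      apply Nat.Coprime.pow_left
      rw [Nat.Prime.coprime_iff_not_dvd Nat.prime_three]
      omega
    have h5 := Nat.le_of_dvd (by positivity) (h4.dvd_of_dvd_mul_right ha)
    nlinarith
  · have h3 : ¬ 3 ∣ t ^ 3 + 1 := by
      intro h4
      have h5 : (t ^ 3 + 1) % 3 = 0 := Nat.mod_eq_zero_of_dvd h4
      have h6 : t % 3 = 0 ∨ t % 3 = 1 := by omega
      rcases h6 with h6 | h6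
      · simp [Nat.pow_mod, Nat.add_mod, h6] at h5
      · simp [Nat.pow_mod, Nat.add_mod, h6] at h5
    rcases Nat.eq_zero_or_pos a with rfl | ha0
    · rw [pow_zero]
      omega
    · exact absurd (dvd_trans (dvd_pow_self 3 ha0.ne') ha) h3

/-- **no subgroup of exponent `3` is normalized by `s` and `P`** -/
theorem no_sub [Finite F] [Finite ι] [Finite L] (r : ℕ) [Fact r.Prime] [CharP F r] (hr3 : r ≠ 3)
    (h : Dt C e K₀ K x co) (h3 : ∀ c ∈ K₀, c ^ 3 = 1 → c = 1) {t : ℕ} (ht : 2 ≤ t)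
    (hq : Nat.card K₀ = t ^ 3) {z : F} (hz : orderOf z = t ^ 2 + t + 1) {s : L}
    (hs : Hc C e K x z (Pi.single 1 1) s) {E : Subgroup L} (hE3 : ∀ g ∈ E, g ^ 3 = 1)
    (hEc : ∀ g ∈ E, ∀ g' ∈ E, g * g' = g' * g)
    (hsE : ∀ g ∈ E, s * g * s⁻¹ ∈ E) (hPE : ∀ y ∈ PP C e K x, ∀ g ∈ E, y * g * y⁻¹ ∈ E) :
    E = ⊥ := by
  have hts := h.td.ts
  have hK1 : K (e 1) = K₀ := h.td.K4_1
  have h3' : ∀ c ∈ K (e 1), c ^ 3 = 1 → c = 1 := by rw [hK1]; exact h3
  have hq' : (∀ a, Nat.card (K (e 1)) + 1 ≠ 3 ^ a) ∨ (r = 2 ∧ 2 < Nat.card (K (e 1))) := by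
    by_cases ht3 : 3 ≤ t
    · left
      intro a ha
      rw [hK1, hq] at ha
      have h1 := num ht3 (a := a) (by rw [ha])
      rw [← ha] at h1
      nlinarith
    · right
      have ht2 : t = 2 := by omega
      have h1 : r ∣ Nat.card F := by
        have := Fintype.ofFinite F
        rw [← CharP.cast_eq_zero_iff F r, Nat.card_eq_fintype_card]
        exact FiniteField.cast_card_eq_zero F
      rw [h.td.card, hq, ht2] at h1
      have h2 := (Fact.out : r.Prime).dvd_of_dvd_pow ((Fact.out : r.Prime).dvd_of_dvd_pow h1)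
      refine ⟨(Nat.prime_dvd_prime_iff_eq Fact.out Nat.prime_two).1 h2, ?_⟩
      rw [hK1, hq, ht2]
      norm_num
  have key : ∀ β, 0 < C.ht β → C.pr β (e 1) = 0 → (∃ l₁, wl C l₁ β = t0 C e) →
      ∀ g ∈ E, g * x β 1 * g⁻¹ = x β 1 := by
    rintro β hβ hβ' ⟨l₁, hl₁⟩ g hg
    have h1 := lemR4 r hts h.cen (h.simp 1) hr3 h3' hq'
      (l₀ := ([0, 1, 2, 1, 0, 3, 2] : List (Fin 4)).map e) (θ := t0 C e) rfl h.top0 h.hsep0 hl₁ hE3
      hEc
      (fun c hc g hg => hPE _ (x_mem_PP hβ hβ' hc) g hg) g hg 1 (one_mem _)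
    have h2 : x β 1 * g = g * x β 1 := mul_inv_eq_iff_eq_mul.1 h1
    rw [← h2, mul_inv_cancel_right]
  have hEP : E ≤ Par (BB C K x) (nn C.neg x (e 1) 1) := by
    intro g hg
    refine h.par r (key _ h.lead0.pos ?_ ⟨[], rfl⟩ g hg)
      (key _ h.lead1.pos ?_ ⟨([0, 1, 2, 1, 0] : List (Fin 4)).map e, ?_⟩ g hg)
      (key _ h.lead2.pos ?_ ⟨([0, 1, 2, 1, 0, 3] : List (Fin 4)).map e, ?_⟩ g hg)
    · rw [h.pr_e, h.co_t0]; decide +kernel
    · rw [h.pr_e, h.co_t1]; decide +kernel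
    · rfl
    · rw [h.pr_e, h.co_t2]; decide +kernel
    · rfl
  have hEB : E ≤ BB C K x := by
    by_contra hEB
    have hac := hs.ac 1
    have hb : bil F₄ (Pi.single 1 1) (Pi.single 1 1) = 2 := by decide +kernel
    rw [hb] at hac
    have h1 := idx_s r hts h.cen (h.simp 1) hr3 h3' hEP hE3 hs.mem hsE hac.1 hac.2
      (m := t ^ 2 + t + 1) (by nlinarith) (fun k hk hkm h4 => by
        rw [← zpow_natCast, ← zpow_mul] at h4
        have h5 : z ^ (2 * k) = 1 := by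
          rw [← zpow_natCast]
          push_cast
          exact h4
        have h6 := orderOf_dvd_of_pow_eq_one h5
        rw [hz] at h6
        have h7 : Nat.Coprime (t ^ 2 + t + 1) 2 := by
          rw [Nat.coprime_two_right]
          have : t ^ 2 + t + 1 = t * (t + 1) + 1 := by ring
          rw [this]
          exact (Nat.even_mul_succ_self t).add_one
        have h8 := Nat.le_of_dvd hk (h7.dvd_of_dvd_mul_left h6)
        omega) hEB
    have h4 := idx_dvd r hts h.cen (h.simp 1) hr3 h3' hEP hE3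
    have h4' := idx_ne r hts h.cen (h.simp 1) hr3 h3' hEP hE3 hs.mem hsE hac.1 hac.2 (by
      intro h5
      have h6 : z ^ 2 = 1 := by
        rw [← h5]
        exact (zpow_natCast z 2).symm
      have h7 := orderOf_dvd_of_pow_eq_one h6
      rw [hz] at h7
      have h8 := Nat.le_of_dvd (by norm_num) h7
      nlinarith)
    obtain ⟨a, ha⟩ := idx_pow (C := C) (K := K) (x := x) r hE3
    rw [ha] at h1 h4 h4'
    rw [hK1, hq] at h4 h4'
    by_cases ht3 : 3 ≤ t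
    · have := num ht3 h4
      omega
    · have ht2 : t = 2 := by omega
      subst ht2
      have h5 : 3 ^ a ≤ 9 := Nat.le_of_dvd (by norm_num) h4
      have h6 : a ≤ 2 := by
        by_contra hcon
        have : 3 ^ 3 ≤ 3 ^ a := Nat.pow_le_pow_right (by norm_num) (by omega)
        omega
      interval_cases a <;> omega
  rw [eq_bot_iff]
  intro g hg
  rw [mem_bot]
  refine h.B_eq_one r hr3 h3 (hEB hg) (hE3 g hg) fun y hy => ?_
  have h1 : g * y * g⁻¹ * y⁻¹ ∈ UU C K x :=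
    mul_mem (hts.B_conj_U (hEB hg) (PP_le hy)) (inv_mem (PP_le hy))
  have h2 : g * y * g⁻¹ * y⁻¹ ∈ E := by
    have e1 : g * y * g⁻¹ * y⁻¹ = g * (y * g⁻¹ * y⁻¹) := by group
    rw [e1]
    exact mul_mem hg (hPE y hy _ (inv_mem hg))
  have h4 := U_three hts r hr3 h1 (hE3 _ h2)
  rw [mul_inv_eq_one, mul_inv_eq_iff_eq_mul] at h4
  exact h4

end Dt

end

end Vale.Agent.P240.R2.H493
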