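import Vale.Agent.P240.R2.H945.U4e
import Vale.Agent.P240.R2.H401.DDefs
import Vale.Agent.P240.R2.H979.AutT
import Vale.Agent.P240.R2.H487.TF

/-!
The groups `PΩ` over a field with five elements: reduction to a given diagonal form over `ZMod 5`.
-/

set_option autoImplicit false
set_option linter.all false

namespace Vale.Agent.P240.R2.H493.O5

open Matrix Vale.Agent.P240.K Vale.Agent.P240.R2.OF
open Vale.Agent.P240.R2.H145.EO (OD)
open Vale.Agent.P240.R2.H401.D (POD)
open Vale.Agent.P240.R2.H487 (LocTopF TopFac AutTop)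

universe u v w

section field

variable {F : Type u} [Field F] {K : Type v} [Field K] {n : ℕ}

lemma map_mem (σ : F ≃+* K) {A : Matrix (Fin n) (Fin n) F} {g : GL (Fin n) F} (hg : g ∈ OA A) :
    GeneralLinearGroup.map (σ : F →+* K) g ∈ OA (A.map σ) := by
  rw [mem_OA] at hg ⊢
  have h1 : (GeneralLinearGroup.map (σ : F →+* K) g).1 = g.1.map σ := rfl
  rw [h1, ← Matrix.transpose_map, ← Matrix.map_mul, ← Matrix.map_mul, hg]

lemma map_mem' (σ : F ≃+* K) {A : Matrix (Fin n) (Fin n) F} {g : GL (Fin n) K}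
    (hg : g ∈ OA (A.map σ)) : GeneralLinearGroup.map (σ.symm : K →+* F) g ∈ OA A := by
  have h := map_mem σ.symm hg
  have h1 : (A.map σ).map σ.symm = A := by
    ext i j
    simp
  rwa [h1] at h

/-- change of the field -/
noncomputable def oaMap (σ : F ≃+* K) (A : Matrix (Fin n) (Fin n) F) :
    ↥(OA A) ≃* ↥(OA (A.map σ)) where
  toFun g := ⟨GeneralLinearGroup.map (σ : F →+* K) g.1, map_mem σ g.2⟩
  invFun g := ⟨GeneralLinearGroup.map (σ.symm : K →+* F) g.1, map_mem' σ g.2⟩
  left_inv g := by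
    apply Subtype.ext
    apply Units.ext
    ext i j
    show σ.symm (σ (g.1.1 i j)) = g.1.1 i j
    rw [RingEquiv.symm_apply_apply]
  right_inv g := by
    apply Subtype.ext
    apply Units.ext
    ext i j
    show σ (σ.symm (g.1.1 i j)) = g.1.1 i j
    rw [RingEquiv.apply_symm_apply]
  map_mul' g h := Subtype.ext (map_mul _ g.1 h.1)

/-- change of the field, for `PΩ` -/
noncomputable def pomMap (σ : F ≃+* K) (A : Matrix (Fin n) (Fin n) F) : POm A ≃* POm (A.map σ) :=
  commCongr (oaMap σ A)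

end field

section det

variable {F : Type u} [Field F] [Fintype F] {m : ℕ}

/-- forms whose discriminants agree up to squares have isomorphic groups `PΩ` -/
theorem pom_of_det' (h2 : (2 : F) ≠ 0) {A A' : Matrix (Fin (m + 1)) (Fin (m + 1)) F}
    (hA : Aᵀ = A) (hA' : A'ᵀ = A') (h0 : A.det ≠ 0) (h0' : A'.det ≠ 0)
    (hs : IsSquare (A.det * A'.det)) : Nonempty (POm A ≃* POm A') := by
  obtain ⟨D, hD, P, hP⟩ := exists_normal h2 hA h0
  obtain ⟨D', hD', P', hP'⟩ := exists_normal h2 hA' h0'
  obtain ⟨s, hs⟩ := hs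
  have d1 : P.1.det * A.det * P.1.det = D := by
    rw [← dl_det (m := m) D, ← hP, det_mul, det_mul, det_transpose]
  have d2 : P'.1.det * A'.det * P'.1.det = D' := by
    rw [← dl_det (m := m) D', ← hP', det_mul, det_mul, det_transpose]
  have hDD : D * D' = (s * P.1.det * P'.1.det) * (s * P.1.det * P'.1.det) := by
    rw [← d1, ← d2]
    linear_combination (P.1.det ^ 2 * P'.1.det ^ 2) * hs
  have hne : s * P.1.det * P'.1.det ≠ 0 := by
    intro h
    rw [h, zero_mul] at hDD
    exact mul_ne_zero hD hD' hDD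
  obtain ⟨Q, hQ⟩ := normal_sq h2 hP hD hD' (div_ne_zero hne hD') (by
    have h3 : (s * P.1.det * P'.1.det / D') * (s * P.1.det * P'.1.det / D') * D' =
        ((s * P.1.det * P'.1.det) * (s * P.1.det * P'.1.det)) / D' := by
      field_simp
    rw [h3, ← hDD, mul_div_cancel_right₀ _ hD'])
  obtain ⟨f⟩ := nonempty_POm (A := A) (B := dl m D') (P := Q) (c := 1) one_ne_zero
    (by rw [one_smul]; exact hQ)
  obtain ⟨f'⟩ := nonempty_POm (A := A') (B := dl m D') (P := P') (c := 1) one_ne_zero
    (by rw [one_smul]; exact hP')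
  exact ⟨f.trans f'.symm⟩

end det

lemma det_map' {F : Type u} [Field F] {K : Type v} [Field K] {n : ℕ} (σ : F ≃+* K)
    (A : Matrix (Fin n) (Fin n) F) : (A.map σ).det = σ A.det := by
  have h := RingHom.map_det (σ : F →+* K) A
  exact h.symm

/-- two forms over fields with the same number of elements -/
theorem pom_iso {F : Type} [Field F] [Fintype F] {K : Type} [Field K] [Fintype K] {m : ℕ}
    (σ : F ≃+* K) (h2 : (2 : K) ≠ 0) {A : Matrix (Fin (m + 1)) (Fin (m + 1)) F} (hA : Aᵀ = A)
    (h0 : A.det ≠ 0) {a : Fin (m + 1) → K} (ha : ∀ i, a i ≠ 0) (hs : IsSquare A.det)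
    (hs' : IsSquare (∏ i, a i)) : Nonempty (POm A ≃* ↥(commutator (POD a))) := by
  have h1 : (A.map σ).det ≠ 0 := by
    rw [det_map']
    exact (map_ne_zero σ).2 h0
  have h3 : (diagonal a).det ≠ 0 := by
    rw [det_diagonal]
    exact Finset.prod_ne_zero_iff.2 fun i _ => ha i
  have h4 : IsSquare ((A.map σ).det * (diagonal a).det) := by
    rw [det_map', det_diagonal]
    exact (hs.map σ).mul hs'
  obtain ⟨f⟩ := pom_of_det' h2 (A := A.map σ) (A' := diagonal a)
    (by rw [← Matrix.transpose_map, hA]) (diagonal_transpose a) h1 h3 h4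
  obtain ⟨f'⟩ := H945.U4.congr_comm (H945.U4.OD_eq_OA a)
  exact ⟨((pomMap σ A).trans f).trans f'.symm⟩

/-- `TopFac` from `AutTop` -/
theorem topFac_of_autTop {𝕜 : Type w} [Field 𝕜] {Λ : Type v} [Group Λ] {L : Type u} [Group L]
    (hs : IsSimpleGroup L) (hab : ∃ x y : L, x * y ≠ y * x) (e : L ≃* Λ) (h : AutTop 𝕜 Λ) :
    TopFac 𝕜 2 L := by
  rintro G _ _ M ⟨f⟩
  refine H979.locTopF_of_autTop (e.symm.trans f) (fun x hx => ?_) h
  have h1 : e.symm x ∈ Subgroup.center L := by
    rw [Subgroup.mem_center_iff]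
    intro y
    apply e.injective
    rw [map_mul, map_mul, e.apply_symm_apply]
    exact (hx (e y)).symm
  have h2 : Subgroup.center L = ⊥ := by
    rcases hs.eq_bot_or_eq_top_of_normal (Subgroup.center L) inferInstance with h2 | h2
    · exact h2
    · exfalso
      obtain ⟨x, y, hxy⟩ := hab
      apply hxy
      have h3 : y ∈ Subgroup.center L := by
        rw [h2]
        exact Subgroup.mem_top y
      exact Subgroup.mem_center_iff.1 h3 x
  rw [h2, Subgroup.mem_bot] at h1
  have h3 := congrArg e h1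
  rwa [e.apply_symm_apply, map_one] at h3

end Vale.Agent.P240.R2.H493.O5
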