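import Vale.Agent.P240.R2.H493.O5a
import Vale.Agent.P240.R2.H406.PDefs

/-!
The groups `PΩ_n^+(5)`, `n ≥ 8` even: from the property `AutTop` of one form to block (O5+).
-/

set_option autoImplicit false
set_option linter.all false

namespace Vale.Agent.P240.R2.H493.O5

open Matrix Vale.Agent.P240.K Vale.Agent.P240.R2.OF
open Vale.Agent.P240.R2.AS (GU PGU)
open Vale.Agent.P240.R2.H145.EO (OD)
open Vale.Agent.P240.R2.H401.D (POD)
open Vale.Agent.P240.R2.H406 (Lam Phi sg PNum StmtKer StmtAut)
open Vale.Agent.P240.R2.H487 (LocTopF TopFac AutTop)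

universe u v w

section star

variable {K : Type u} [Field K] [Fintype K] [StarRing K] {n : ℕ}

lemma star_eq_transpose (hs : ∀ x : K, star x = x) (A : Matrix (Fin n) (Fin n) K) :
    star A = Aᵀ := by
  ext i j
  rw [star_eq_conjTranspose, conjTranspose_apply, transpose_apply, hs]

/-- the isometry group of the standard form is the unitary group if the star is trivial -/
noncomputable def oneEquiv' (hs : ∀ x : K, star x = x) :
    ↥(OA (1 : Matrix (Fin n) (Fin n) K)) ≃* GU K n where
  toFun g := ⟨g.1.1, by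
    rw [Matrix.mem_unitaryGroup_iff', star_eq_transpose hs]
    have h := g.2
    rw [mem_OA, Matrix.mul_one] at h
    exact h⟩
  invFun u := ⟨⟨u.1, star u.1, Matrix.mem_unitaryGroup_iff.1 u.2, Matrix.mem_unitaryGroup_iff'.1 u.2⟩, by
    rw [mem_OA, Matrix.mul_one]
    have h := Matrix.mem_unitaryGroup_iff'.1 u.2
    rw [star_eq_transpose hs] at h
    exact h⟩
  left_inv g := Subtype.ext (Units.ext rfl)
  right_inv u := Subtype.ext rfl
  map_mul' a b := Subtype.ext rfl

/-- `PΩ` of the standard form -/
noncomputable def pomOne' (hs : ∀ x : K, star x = x) :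
    POm (1 : Matrix (Fin n) (Fin n) K) ≃* ↥(commutator (PGU K n)) :=
  commCongr (oneEquiv' hs)

end star

section form

/-- the form with `4` entries `2` and `n - 4` entries `1` -/
def af (n : ℕ) : Fin n → ZMod 5 := fun i => if i.val < 4 then 2 else 1

lemma card_lt (n : ℕ) (hn : 4 ≤ n) :
    (Finset.univ.filter fun i : Fin n => i.val < 4).card = 4 := by
  have h : (Finset.univ.filter fun i : Fin n => i.val < 4) =
      (Finset.univ : Finset (Fin 4)).map (Fin.castLEEmb hn) := by
    ext i
    rw [Finset.mem_filter, Finset.mem_map]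
    constructor
    · rintro ⟨-, hi⟩
      exact ⟨⟨i.val, hi⟩, Finset.mem_univ _, Fin.ext rfl⟩
    · rintro ⟨j, -, rfl⟩
      exact ⟨Finset.mem_univ _, j.2⟩
  rw [h, Finset.card_map, Finset.card_univ, Fintype.card_fin]

lemma two_ne_one' : (2 : ZMod 5) ≠ 1 := by decide

lemma pnum_af {n : ℕ} (hn : Even n) (h8 : 8 ≤ n) : PNum (af n) := by
  have e2 : (Finset.univ.filter fun i : Fin n => af n i = 2) =
      Finset.univ.filter fun i : Fin n => i.val < 4 := by
    apply Finset.filter_congr
    intro i _
    unfold af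
    split_ifs with h
    · simp [h]
    · simp only [h, iff_false]
      exact fun h1 => two_ne_one' h1.symm
  have e1 : (Finset.univ.filter fun i : Fin n => af n i = 1) =
      Finset.univ.filter fun i : Fin n => ¬ i.val < 4 := by
    apply Finset.filter_congr
    intro i _
    unfold af
    split_ifs with h
    · simp only [h, not_true_eq_false, iff_false]
      exact two_ne_one'
    · simp [h]
  have c2 : (Finset.univ.filter fun i : Fin n => af n i = 2).card = 4 := by
    rw [e2, card_lt n (by omega)]
  have c1 : (Finset.univ.filter fun i : Fin n => af n i = 1).card + 4 = n := by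
    rw [e1]
    have h := Finset.card_filter_add_card_filter_not (s := (Finset.univ : Finset (Fin n)))
      (fun i : Fin n => i.val < 4)
    rw [card_lt n (by omega), Finset.card_univ, Fintype.card_fin] at h
    omega
  refine ⟨fun i => ?_, by omega, by rw [c2], ?_, by rw [c2]; decide⟩
  · unfold af
    split_ifs
    · exact Or.inr rfl
    · exact Or.inl rfl
  · obtain ⟨k, hk⟩ := hn
    exact ⟨k - 2, by omega⟩

lemma af_ne {n : ℕ} (i : Fin n) : af n i ≠ 0 := by
  unfold af
  split_ifs <;> decide

lemma prod_af {n : ℕ} (h8 : 8 ≤ n) : IsSquare (∏ i, af n i) := by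
  unfold af
  rw [Finset.prod_ite, Finset.prod_const_one, mul_one, Finset.prod_const, card_lt n (by omega)]
  exact ⟨2 ^ 2, by rw [← pow_add]⟩

end form

section centre

variable {n : ℕ} {a : Fin n → ZMod 5}

/-- the simple group has no centre -/
lemma lam_centre (hK : StmtKer) (ha : PNum a) (x : Lam a) (hx : ∀ y : Lam a, x * y = y * x) :
    x = 1 := by
  obtain ⟨g, hg⟩ := QuotientGroup.mk_surjective x.1
  have h1 : Phi a g = 1 := by
    apply MulEquiv.ext
    intro y
    apply Subtype.ext
    show (QuotientGroup.mk g : POD a) * y.1 * (QuotientGroup.mk g : POD a)⁻¹ = y.1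
    rw [hg, mul_inv_eq_iff_eq_mul]
    exact congrArg Subtype.val (hx y)
  apply Subtype.ext
  rw [← hg]
  refine (QuotientGroup.eq_one_iff g).2 ?_
  rcases (hK n a ha g).1 h1 with h | h
  · rw [h]
    exact Subgroup.one_mem _
  · rw [h, Subgroup.mem_center_iff]
    intro z
    apply Subtype.ext
    apply Units.ext
    have h2 : (sg a Finset.univ).1.1 = (-1 : ZMod 5) • (1 : Matrix (Fin n) (Fin n) (ZMod 5)) := by
      show H406.sgM Finset.univ = _
      rw [H406.sgM, ← diagonal_one, ← diagonal_smul]
      congr 1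
      funext i
      simp
    show z.1.1 * (sg a Finset.univ).1.1 = (sg a Finset.univ).1.1 * z.1.1
    rw [h2, Matrix.mul_smul, Matrix.smul_mul, Matrix.mul_one, Matrix.one_mul]

end centre

/-- **block (O5+)** from the property `AutTop` -/
theorem o5p_of (hK : StmtKer) (hA : StmtAut.{w}) {K : Type} [Field K] [Fintype K] [StarRing K]
    {n : ℕ} (𝕜 : Type w) [Field 𝕜] (hs : ∀ x : K, star x = x) (h5 : Nat.card K = 5) (hn : Even n)
    (h8 : 8 ≤ n) {L : Type v} [Group L] (e : L ≃* ↥(commutator (PGU K n))) : TopFac 𝕜 2 L := by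
  intro G _ _ M hM
  obtain ⟨f⟩ := hM
  have h5' : Fintype.card K = 5 := by rw [← Nat.card_eq_fintype_card, h5]
  have hp := pnum_af hn h8
  let σ : K ≃+* ZMod 5 := (ZMod.ringEquivOfPrime K (by norm_num) h5').symm
  obtain ⟨m, hm⟩ : ∃ m, n = m + 1 := ⟨n - 1, by omega⟩
  have key : Nonempty (POm (1 : Matrix (Fin n) (Fin n) K) ≃* Lam (af n)) := by
    subst hm
    exact pom_iso σ (by decide) transpose_one (by rw [det_one]; exact one_ne_zero) af_ne
      (by rw [det_one]; exact ⟨1, by rw [mul_one]⟩) (prod_af h8)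
  obtain ⟨g⟩ := key
  exact H979.locTopF_of_autTop ((g.symm.trans (pomOne' hs)).trans (e.symm.trans f))
    (lam_centre hK hp) (hA n (af n) hp 𝕜)

end Vale.Agent.P240.R2.H493.O5
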