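import Vale.Agent.P240.R2.H493.Rank1

/-!
Minimal parabolic subgroups: orbits of `3`-subgroups on the points.
-/

set_option autoImplicit false

namespace Vale.Agent.P240.R2.H493

open Subgroup Vale.Agent.P240.K Vale.Agent.P240.H195 Vale.Agent.P240.R2.H945.W
open Vale.Agent.P240.R2.H986.X (RC nn nl wl nl_nil nl_cons nl_append wl_nil wl_cons wl_append SS
  wl_rev wl_rev' wl_neg)

universe u

section
variable {ι : Type*} {F : Type*} [Field F] {L : Type u} [Group L] {C : RC ι} {K : ι → Subfield F}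
  {x : ι → F → L}

variable (r : ℕ) [Fact r.Prime] [CharP F r] [Finite ι] [Finite F] [Finite L] (h : TS C K x)
  (hcen : ∀ g : L, (∀ y, g * y = y * g) → g = 1)
include r h hcen

lemma bn0 : BN0 (BB C K x) (NN C K x) (SS C x) := (splitBN h hcen r).toSB.toBN.toBN0

lemma n_not_mem {i : ι} (hi : C.simp i) : nn C.neg x i 1 ∉ BB C K x :=
  (bn0 r h hcen).not_mem (n_mem_SS hi)

lemma xn_not_mem {i : ι} (hi : C.simp i) {c : F} (hc : c ∈ K i) :
    x i c * nn C.neg x i 1 ∉ BB C K x := by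
  intro h1
  apply n_not_mem r h hcen hi
  have h2 := mul_mem (inv_mem (TS.UU_le (TS.x_mem_UU (x := x) (C.simp_pos i hi) hc))) h1
  rwa [inv_mul_cancel_left] at h2

variable {i : ι} (hi : C.simp i) (hr3 : r ≠ 3) (h3 : ∀ c ∈ K i, c ^ 3 = 1 → c = 1)
include hi hr3 h3

lemma fix_all {g e : L} (he : e ∈ BB C K x) (he3 : e ^ 3 = 1)
    (hg : g ∈ Par (BB C K x) (nn C.neg x i 1)) : g⁻¹ * e * g ∈ BB C K x := by
  rcases par_form h (bn0 r h hcen) hi hg with h1 | ⟨c, hc, b, hb, rfl⟩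
  · exact mul_mem (mul_mem (inv_mem h1) he) h1
  · have h1 := B_fix_point r h hcen hr3 hi h3 he he3 hc
    have e1 : (x i c * nn C.neg x i 1 * b)⁻¹ * e * (x i c * nn C.neg x i 1 * b) =
        b⁻¹ * ((x i c * nn C.neg x i 1)⁻¹ * e * (x i c * nn C.neg x i 1)) * b := by group
    rw [e1]
    exact mul_mem (mul_mem (inv_mem hb) h1) hb

lemma stab_iff {g e : L} (he3 : e ^ 3 = 1) (hg : g ∈ Par (BB C K x) (nn C.neg x i 1)) :
    g⁻¹ * e * g ∈ BB C K x ↔ e ∈ BB C K x := by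
  refine ⟨fun h1 => ?_, fun h1 => fix_all r h hcen hi hr3 h3 h1 he3 hg⟩
  have h4 : (g⁻¹ * e * g) ^ 3 = 1 := by
    have : g⁻¹ * e * g = g⁻¹ * e * (g⁻¹)⁻¹ := by group
    rw [this, conj_pow, he3]
    group
  have h2 := fix_all r h hcen hi hr3 h3 h1 h4 (inv_mem hg)
  have e1 : g⁻¹⁻¹ * (g⁻¹ * e * g) * g⁻¹ = e := by group
  rwa [e1] at h2

omit hr3 h3 in
/-- the number of points -/
lemma card_pts : Nat.card (Par (BB C K x) (nn C.neg x i 1) ⧸
    (BB C K x).subgroupOf (Par (BB C K x) (nn C.neg x i 1))) = Nat.card (K i) + 1 := by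
  classical
  set P := Par (BB C K x) (nn C.neg x i 1) with hP
  have hBP : BB C K x ≤ P := le_Par
  have hnP : nn C.neg x i 1 ∈ P := self_mem_Par
  have hx : ∀ c : K i, x i c * nn C.neg x i 1 ∈ P := fun c =>
    mul_mem (hBP (TS.UU_le (TS.x_mem_UU (C.simp_pos i hi) c.2))) hnP
  let f : Option (K i) → P ⧸ (BB C K x).subgroupOf P := fun o => match o with
    | none => QuotientGroup.mk 1
    | some c => QuotientGroup.mk ⟨x i c * nn C.neg x i 1, hx c⟩
  have hf : Function.Bijective f := by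
    constructor
    · rintro (_ | c) (_ | c') h1
      · rfl
      · exfalso
        have h2 := QuotientGroup.eq.1 h1
        rw [mem_subgroupOf] at h2
        apply xn_not_mem r h hcen hi c'.2
        simpa using h2
      · exfalso
        have h2 := QuotientGroup.eq.1 h1.symm
        rw [mem_subgroupOf] at h2
        apply xn_not_mem r h hcen hi c.2
        simpa using h2
      · have h2 := QuotientGroup.eq.1 h1
        rw [mem_subgroupOf] at h2
        have h3 := point_inj r h hcen hi c.2 c'.2 h2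
        rw [Subtype.ext h3]
    · intro ω
      obtain ⟨⟨g, hg⟩, rfl⟩ := QuotientGroup.mk_surjective ω
      rcases par_form h (bn0 r h hcen) hi hg with h1 | ⟨c, hc, b, hb, rfl⟩
      · refine ⟨none, QuotientGroup.eq.2 ?_⟩
        rw [mem_subgroupOf]
        simpa using h1
      · refine ⟨some ⟨c, hc⟩, QuotientGroup.eq.2 ?_⟩
        rw [mem_subgroupOf]
        have e1 : (x i c * nn C.neg x i 1)⁻¹ * (x i c * nn C.neg x i 1 * b) = b := by group
        change (x i c * nn C.neg x i 1)⁻¹ * (x i c * nn C.neg x i 1 * b) ∈ BB C K x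
        rw [e1]
        exact hb
  rw [← Nat.card_congr (Equiv.ofBijective f hf), Finite.card_option]

variable {E : Subgroup L} (hEP : E ≤ Par (BB C K x) (nn C.neg x i 1)) (hE3 : ∀ g ∈ E, g ^ 3 = 1)
include hEP hE3

/-- the orbits of `E` -/
lemma idx_dvd : ((BB C K x).subgroupOf E).index ∣ Nat.card (K i) + 1 := by
  classical
  rw [← card_pts r h hcen hi]
  set P := Par (BB C K x) (nn C.neg x i 1) with hP
  refine dvd_of_stab (G := E.subgroupOf P) fun ω => ?_
  obtain ⟨⟨g, hg⟩, rfl⟩ := QuotientGroup.mk_surjective ω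
  have h1 : MulAction.stabilizer (E.subgroupOf P)
      ((⟨g, hg⟩ : P) : P ⧸ (BB C K x).subgroupOf P) =
      ((BB C K x).subgroupOf P).subgroupOf (E.subgroupOf P) := by
    ext ⟨⟨a, ha⟩, ha'⟩
    rw [MulAction.mem_stabilizer_iff, mem_subgroupOf, mem_subgroupOf]
    change (((⟨a, ha⟩ : P) * (⟨g, hg⟩ : P) : P) : P ⧸ (BB C K x).subgroupOf P) =
      ((⟨g, hg⟩ : P) : P ⧸ (BB C K x).subgroupOf P) ↔ a ∈ BB C K x
    rw [eq_comm, QuotientGroup.eq, mem_subgroupOf]
    have h2 := stab_iff r h hcen hi hr3 h3 (hE3 a ha') hg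
    rw [← h2]
    change g⁻¹ * (a * g) ∈ BB C K x ↔ _
    rw [mul_assoc]
  rw [h1]
  exact relIndex_subgroupOf hEP

omit h3 hr3 hi hEP h hcen in
lemma idx_pow : ∃ a, ((BB C K x).subgroupOf E).index = 3 ^ a := by
  have : Fact (Nat.Prime 3) := ⟨Nat.prime_three⟩
  have h1 : IsPGroup 3 E := fun g => ⟨1, Subtype.ext (by simpa using hE3 g g.2)⟩
  exact h1.index _

/-- `X_i` normalizes `E` -/
lemma idx_x (hx : ∀ c ∈ K i, ∀ e ∈ E, x i c * e * (x i c)⁻¹ ∈ E) (hEB : ¬ E ≤ BB C K x) :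
    ((BB C K x).subgroupOf E).index = Nat.card (K i) + 1 := by
  classical
  refine le_antisymm (Nat.le_of_dvd (by omega) (idx_dvd r h hcen hi hr3 h3 hEP hE3)) ?_
  obtain ⟨e₀, he₀, he₀B⟩ := SetLike.not_le_iff_exists.1 hEB
  rcases par_form h (bn0 r h hcen) hi (hEP he₀) with h1 | ⟨c₀, hc₀, b, hb, hb'⟩
  · exact absurd h1 he₀B
  let g : K i → L := fun c => x i (c - c₀) * e₀ * (x i (c - c₀))⁻¹
  have hgE : ∀ c, g c ∈ E := fun c => hx _ (sub_mem c.2 hc₀) _ he₀
  have hg : ∀ c : K i, ∃ b' ∈ BB C K x, g c = x i c * nn C.neg x i 1 * b' := by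
    intro c
    refine ⟨b * (x i (c - c₀))⁻¹, mul_mem hb (inv_mem (TS.UU_le (TS.x_mem_UU (C.simp_pos i hi)
      (sub_mem c.2 hc₀)))), ?_⟩
    have e1 : x i (c : F) = x i (c - c₀) * x i c₀ := by
      rw [← h.add i _ _ (sub_mem c.2 hc₀) hc₀, sub_add_cancel]
    change x i (c - c₀) * e₀ * (x i (c - c₀))⁻¹ = _
    rw [hb', e1]
    group
  let f : Option (K i) → E ⧸ (BB C K x).subgroupOf E := fun o => match o with
    | none => QuotientGroup.mk 1
    | some c => QuotientGroup.mk ⟨g c, hgE c⟩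
  have hB : ∀ c, g c ∉ BB C K x := by
    intro c h1
    obtain ⟨b', hb', h2⟩ := hg c
    apply xn_not_mem r h hcen hi c.2
    rw [h2] at h1
    have := mul_mem h1 (inv_mem hb')
    rwa [mul_inv_cancel_right] at this
  have hf : Function.Injective f := by
    rintro (_ | c) (_ | c') h1
    · rfl
    · exfalso
      have h2 := QuotientGroup.eq.1 h1
      rw [mem_subgroupOf] at h2
      apply hB c'
      simpa using h2
    · exfalso
      have h2 := QuotientGroup.eq.1 h1.symm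
      rw [mem_subgroupOf] at h2
      apply hB c
      simpa using h2
    · have h2 := QuotientGroup.eq.1 h1
      rw [mem_subgroupOf] at h2
      change (g c)⁻¹ * g c' ∈ BB C K x at h2
      obtain ⟨b₁, hb₁, h4⟩ := hg c
      obtain ⟨b₂, hb₂, h5⟩ := hg c'
      have h6 : (x i c * nn C.neg x i 1)⁻¹ * (x i c' * nn C.neg x i 1) ∈ BB C K x := by
        have e1 : (x i (c : F) * nn C.neg x i 1)⁻¹ * (x i (c' : F) * nn C.neg x i 1) =
            b₁ * ((g c)⁻¹ * g c') * b₂⁻¹ := by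
          rw [h4, h5]
          group
        rw [e1]
        exact mul_mem (mul_mem hb₁ h2) (inv_mem hb₂)
      rw [Subtype.ext (point_inj r h hcen hi c.2 c'.2 h6)]
  have h7 := Nat.card_le_card_of_injective f hf
  rw [Finite.card_option] at h7
  exact h7

/-- a torus element that normalizes `E` and acts nontrivially on `X_i` -/
lemma no_opp {s : L} (hs : s ∈ TT C K x) (hsE : ∀ e ∈ E, s * e * s⁻¹ ∈ E) {c : F} (hcK : c ∈ K i)
    (hc : ∀ u ∈ K i, s * x i u * s⁻¹ = x i (c * u)) (hc1 : c ≠ 1) {e₀ b : L} (he₀ : e₀ ∈ E)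
    (he₀B : e₀ ∉ BB C K x) (hb : b ∈ BB C K x) : e₀ ≠ nn C.neg x i 1 * b := by
  intro hb'
  have hnP : nn C.neg x i 1 ∈ Par (BB C K x) (nn C.neg x i 1) := self_mem_Par
  have hsB : s ∈ BB C K x := TS.TT_le_BB hs
  have hcj : ∀ t ∈ TT C K x, (nn C.neg x i 1)⁻¹ * t * nn C.neg x i 1 ∈ BB C K x := by
    intro t ht
    have h1 := N_conj_T h (inv_mem (TS.SS_le (K := K) _ (n_mem_SS (x := x) hi))) ht
    rw [inv_inv] at h1
    exact TS.TT_le_BB h1
  set n := nn C.neg x i 1 with hn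
  -- `e' = e₀⁻¹ s e₀ s⁻¹`
  have h1 : e₀⁻¹ * (s * e₀ * s⁻¹) ∈ E := mul_mem (inv_mem he₀) (hsE _ he₀)
  have h2 : e₀⁻¹ * (s * e₀ * s⁻¹) ∈ BB C K x := by
    have e1 : e₀⁻¹ * (s * e₀ * s⁻¹) = b⁻¹ * (n⁻¹ * s * n) * b * s⁻¹ := by rw [hb']; group
    rw [e1]
    exact mul_mem (mul_mem (mul_mem (inv_mem hb) (hcj s hs)) hb) (inv_mem hsB)
  have h4 := fix_all r h hcen hi hr3 h3 h2 (hE3 _ h1) hnP
  -- `s e₀ n ∈ e₀ n B`
  have h5 : (e₀ * n)⁻¹ * s * (e₀ * n) ∈ BB C K x := by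
    have e1 : (e₀ * n)⁻¹ * s * (e₀ * n) =
        (n⁻¹ * (e₀⁻¹ * (s * e₀ * s⁻¹)) * n) * (n⁻¹ * s * n) := by group
    rw [e1]
    exact mul_mem h4 (hcj s hs)
  rcases par_form h (bn0 r h hcen) hi (mul_mem (hEP he₀) hnP) with h6 | ⟨c₁, hc₁, b₁, hb₁, hb₁'⟩
  · apply he₀B
    have h7 : e₀ * e₀ ∈ BB C K x := by
      have e1 : e₀ * e₀ = (e₀ * n) * b := by
        rw [mul_assoc]
        congr 1
      rw [e1]
      exact mul_mem h6 hb
    have e2 : e₀ = (e₀ * e₀) * (e₀ * e₀) := by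
      have h8 := hE3 _ he₀
      calc e₀ = e₀ ^ 3 * e₀ := by rw [h8, one_mul]
        _ = _ := by rw [pow_succ, pow_two]; simp only [mul_assoc]
    rw [e2]
    exact mul_mem h7 h7
  · rw [hb₁'] at h5
    have h6 : (x i c₁ * n)⁻¹ * (x i (c * c₁) * n) ∈ BB C K x := by
      have e1 : (x i c₁ * n)⁻¹ * (x i (c * c₁) * n) =
          b₁ * ((x i c₁ * n * b₁)⁻¹ * s * (x i c₁ * n * b₁)) * b₁⁻¹ * (n⁻¹ * s⁻¹ * n) := by
        rw [← hc c₁ hc₁]
        group
      rw [e1]
      exact mul_mem (mul_mem (mul_mem hb₁ h5) (inv_mem hb₁)) (hcj _ (inv_mem hs))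
    have h7 := point_inj r h hcen hi hc₁ (mul_mem hcK hc₁) h6
    have h8 : c₁ = 0 := by
      have h9 : (c - 1) * c₁ = 0 := by linear_combination -h7
      rcases mul_eq_zero.1 h9 with h10 | h10
      · exact absurd (sub_eq_zero.1 h10) hc1
      · exact h10
    rw [h8, h.x_zero, one_mul, ← hn] at hb₁'
    apply he₀B
    rw [← stab_iff r h hcen hi hr3 h3 (hE3 _ he₀) hnP]
    have e1 : n⁻¹ * e₀ * n = b₁ := by rw [mul_assoc, hb₁']; group
    rw [e1]
    exact hb₁

/-- not all points are in the orbit -/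
lemma idx_ne {s : L} (hs : s ∈ TT C K x) (hsE : ∀ e ∈ E, s * e * s⁻¹ ∈ E) {c : F} (hcK : c ∈ K i)
    (hc : ∀ u ∈ K i, s * x i u * s⁻¹ = x i (c * u)) (hc1 : c ≠ 1) :
    ((BB C K x).subgroupOf E).index ≠ Nat.card (K i) + 1 := by
  classical
  intro h1
  rw [← card_pts r h hcen hi] at h1
  have h2 := (quotientSubgroupOfEmbeddingOfLE (BB C K x) hEP).injective
  have h4 := (Nat.bijective_iff_injective_and_card
    (quotientSubgroupOfEmbeddingOfLE (BB C K x) hEP)).2 ⟨h2, h1⟩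
  obtain ⟨ω, hω⟩ := h4.2 (QuotientGroup.mk ⟨nn C.neg x i 1, self_mem_Par⟩)
  obtain ⟨⟨e₀, he₀⟩, rfl⟩ := QuotientGroup.mk_surjective ω
  rw [quotientSubgroupOfEmbeddingOfLE_apply_mk] at hω
  have h5 := QuotientGroup.eq.1 hω.symm
  rw [mem_subgroupOf] at h5
  have h6 : (nn C.neg x i 1)⁻¹ * e₀ ∈ BB C K x := h5
  have h7 : e₀ ∉ BB C K x := by
    intro h8
    apply n_not_mem r h hcen hi
    have := mul_mem h8 (inv_mem h6)
    have e1 : e₀ * ((nn C.neg x i 1)⁻¹ * e₀)⁻¹ = nn C.neg x i 1 := by group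
    rwa [e1] at this
  exact no_opp r h hcen hi hr3 h3 hEP hE3 hs hsE hcK hc hc1 he₀ h7 h6 (by group)

/-- a torus element normalizes `E` -/
lemma idx_s {s : L} (hs : s ∈ TT C K x) (hsE : ∀ e ∈ E, s * e * s⁻¹ ∈ E) {c : F} (hcK : c ∈ K i)
    (hc : ∀ u ∈ K i, s * x i u * s⁻¹ = x i (c * u)) {m : ℕ} (hm2 : 2 ≤ m)
    (hm : ∀ k, 0 < k → k < m → c ^ k ≠ 1) (hEB : ¬ E ≤ BB C K x) :
    m + 1 ≤ ((BB C K x).subgroupOf E).index := by
  classical
  have hc1 : c ≠ 1 := by
    have := hm 1 (by omega) (by omega)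
    rwa [pow_one] at this
  have hc0 : c ≠ 0 := by
    rintro rfl
    have h1 := hc 1 (one_mem _)
    rw [zero_mul, h.x_zero, mul_inv_eq_one, mul_eq_left] at h1
    exact one_ne_zero (h.inj i 1 (one_mem _) h1)
  have hsB : s ∈ BB C K x := TS.TT_le_BB hs
  have hcj : ∀ t ∈ TT C K x, (nn C.neg x i 1)⁻¹ * t * nn C.neg x i 1 ∈ BB C K x := by
    intro t ht
    have h1 := N_conj_T h (inv_mem (TS.SS_le (K := K) _ (n_mem_SS (x := x) hi))) ht
    rw [inv_inv] at h1
    exact TS.TT_le_BB h1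
  obtain ⟨e₀, he₀, he₀B⟩ := SetLike.not_le_iff_exists.1 hEB
  rcases par_form h (bn0 r h hcen) hi (hEP he₀) with h1 | ⟨c₀, hc₀, b, hb, hb'⟩
  · exact absurd h1 he₀B
  by_cases hc00 : c₀ = 0
  · exfalso
    subst hc00
    rw [h.x_zero, one_mul] at hb'
    exact no_opp r h hcen hi hr3 h3 hEP hE3 hs hsE hcK hc hc1 he₀ he₀B hb hb'
  · let g : Fin m → L := fun k => s ^ (k : ℕ) * e₀ * (s ^ (k : ℕ))⁻¹
    have hgE : ∀ k, g k ∈ E := by
      intro k
      change s ^ (k : ℕ) * e₀ * (s ^ (k : ℕ))⁻¹ ∈ E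
      induction (k : ℕ) with
      | zero => simpa using he₀
      | succ j ih =>
        have e1 : s ^ (j + 1) * e₀ * (s ^ (j + 1))⁻¹ = s * (s ^ j * e₀ * (s ^ j)⁻¹) * s⁻¹ := by
          rw [pow_succ']; group
        rw [e1]
        exact hsE _ ih
    have hg : ∀ k : Fin m, ∃ b' ∈ BB C K x, g k = x i (c ^ (k : ℕ) * c₀) * nn C.neg x i 1 * b' := by
      intro k
      refine ⟨((nn C.neg x i 1)⁻¹ * s ^ (k : ℕ) * nn C.neg x i 1) * b * (s ^ (k : ℕ))⁻¹,
        mul_mem (mul_mem (hcj _ (pow_mem hs _)) hb) (inv_mem (pow_mem hsB _)), ?_⟩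
      change s ^ (k : ℕ) * e₀ * (s ^ (k : ℕ))⁻¹ = _
      rw [← T_pow_act hcK hc k c₀ hc₀, hb']
      group
    have hck : ∀ k : ℕ, c ^ k * c₀ ∈ K i := fun k => mul_mem (pow_mem hcK k) hc₀
    let f : Option (Fin m) → E ⧸ (BB C K x).subgroupOf E := fun o => match o with
      | none => QuotientGroup.mk 1
      | some k => QuotientGroup.mk ⟨g k, hgE k⟩
    have hB : ∀ k, g k ∉ BB C K x := by
      intro k h1
      obtain ⟨b', hb', h2⟩ := hg k
      apply xn_not_mem r h hcen hi (hck k)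
      rw [h2] at h1
      have := mul_mem h1 (inv_mem hb')
      rwa [mul_inv_cancel_right] at this
    have hpow : ∀ k l : ℕ, k < l → l < m → c ^ k * c₀ ≠ c ^ l * c₀ := by
      intro k l hkl hl h1
      have h2 := mul_right_cancel₀ hc00 h1
      apply hm (l - k) (by omega) (by omega)
      have h4 : c ^ l = c ^ k * c ^ (l - k) := by rw [← pow_add]; congr 1; omega
      rw [h4] at h2
      exact (mul_eq_left₀ (pow_ne_zero k hc0)).1 h2.symm
    have hf : Function.Injective f := by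
      rintro (_ | k) (_ | l) h1
      · rfl
      · exfalso
        have h2 := QuotientGroup.eq.1 h1
        rw [mem_subgroupOf] at h2
        apply hB l
        simpa using h2
      · exfalso
        have h2 := QuotientGroup.eq.1 h1.symm
        rw [mem_subgroupOf] at h2
        apply hB k
        simpa using h2
      · have h2 := QuotientGroup.eq.1 h1
        rw [mem_subgroupOf] at h2
        change (g k)⁻¹ * g l ∈ BB C K x at h2
        obtain ⟨b₁, hb₁, h4⟩ := hg k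
        obtain ⟨b₂, hb₂, h5⟩ := hg l
        have h6 : (x i (c ^ (k : ℕ) * c₀) * nn C.neg x i 1)⁻¹ *
            (x i (c ^ (l : ℕ) * c₀) * nn C.neg x i 1) ∈ BB C K x := by
          have e1 : (x i (c ^ (k : ℕ) * c₀) * nn C.neg x i 1)⁻¹ *
              (x i (c ^ (l : ℕ) * c₀) * nn C.neg x i 1) =
              b₁ * ((g k)⁻¹ * g l) * b₂⁻¹ := by
            rw [h4, h5]
            group
          rw [e1]
          exact mul_mem (mul_mem hb₁ h2) (inv_mem hb₂)
        have h7 := point_inj r h hcen hi (hck k) (hck l) h6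
        have h8 : (k : ℕ) = l := by
          rcases lt_trichotomy (k : ℕ) l with h8 | h8 | h8
          · exact absurd h7 (hpow _ _ h8 l.2)
          · exact h8
          · exact absurd h7.symm (hpow _ _ h8 k.2)
        rw [Fin.ext h8]
    have h7 := Nat.card_le_card_of_injective f hf
    rw [Finite.card_option, Nat.card_eq_fintype_card, Fintype.card_fin] at h7
    exact h7

end

end Vale.Agent.P240.R2.H493
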