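import Vale.Agent.P240.R2.H493.Br
import Vale.Agent.P240.R2.H493.Fld
import Vale.Agent.P240.R2.H945.W.TwF

/-!
Automorphisms of order `3` of `²E₆(q)` that fix the element `s u`.
-/

set_option autoImplicit false

namespace Vale.Agent.P240.R2.H493

open Subgroup Vale.Agent.P240.K Vale.Agent.P240.H195 Vale.Agent.P240.R2.H945.W CartanMatrix
open Vale.Agent.P240.R2.H986.X (RC nn nl wl nl_nil nl_cons nl_append wl_nil wl_cons wl_append SS
  wl_rev wl_rev' wl_neg)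
open Vale.Agent.P240.R2.H164.TW (T_act2 ext_simple gen_simple AG AlT_inv)
open Vale.Agent.P240.R2.H997 (am_pow_eq normal_conj)

universe u

section
variable {F : Type} [Field F] {L : Type u} [Group L] {ι : Type} {C : RC ι} {e : Fin 4 → ι}
  {K₀ : Subfield F} {K : ι → Subfield F} {x : ι → F → L} {co : ι → Fin 4 → ℤ}

namespace Dt

lemma conj_inj (h : Dt C e K₀ K x co) {g g' : L} (hg : MulAut.conj g = MulAut.conj g') :
    g = g' := by
  have h1 : g'⁻¹ * g = 1 := by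
    apply h.cen
    intro y
    have h3 := congrArg (fun f : MulAut L => f y) hg
    simp only [MulAut.conj_apply] at h3
    calc g'⁻¹ * g * y = g'⁻¹ * (g * y * g⁻¹) * g := by group
      _ = g'⁻¹ * (g' * y * g'⁻¹) * g := by rw [h3]
      _ = y * (g'⁻¹ * g) := by group
  rw [inv_mul_eq_one] at h1
  exact h1.symm

/-- the image of a torus element -/
lemma alt_hc [Finite F] (h : Dt C e K₀ K x co) {ε : MulAut L} {σ : RingAut F} {c : ι → F}
    (hc : H164.TW.AlT C K x ε σ c) {z : F} (hz : z ∈ K₀) (hz0 : z ≠ 0) {d : Fin 4 → ℤ} {s : L}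
    (hs : Hc C e K x z d s) : σ z ∈ K₀ ∧ Hc C e K x (σ z) d (ε s) := by
  have hts := h.td.ts
  have hσK : ∀ t ∈ K₀, σ t ∈ K₀ := by
    intro t ht
    have := ((hc (e 0) (h.simp 0)).2.2 t (h.mem_K 0 ht)).1
    rwa [h.td.K4_0] at this
  have hσz0 : σ z ≠ 0 := (map_ne_zero σ).2 hz0
  refine ⟨hσK z hz, ?_⟩
  obtain ⟨s', hs'⟩ := h.exists_hc (hσK z hz) hσz0 d
  have hci := AlT_inv hc
  suffices h1 : ε s = s' by rw [h1]; exact hs'
  apply h.conj_inj
  refine ext_simple hts fun i hi t ht => ?_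
  obtain ⟨j, rfl⟩ := (h.td.simp _).1 hi
  obtain ⟨hcK, hc0, h2⟩ := hc (e j) hi
  have hinv : ∀ y ∈ K (e j), σ⁻¹ y ∈ K (e j) := fun y hy => ((hci (e j) hi).2.2 y hy).1
  have e0 : ∀ t, σ (σ⁻¹ t) = t := fun t => by
    rw [← RingAut.mul_apply, mul_inv_cancel, RingAut.one_apply]
  obtain ⟨a, haK, ha0, h3⟩ := T_act2 hts hs.mem (e j)
  obtain ⟨b, hbK, hb0, h4⟩ := T_act2 hts hs'.mem (e j)
  have ha : a = z ^ bil F₄ (Pi.single j 1) d := by
    have h5 := (h3 1 (one_mem _)).1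
    rw [(hs.ac j).2 1 (one_mem _), mul_one, mul_one] at h5
    exact (hts.x_inj (hs.ac j).1 haK h5).symm
  have hb : b = σ z ^ bil F₄ (Pi.single j 1) d := by
    have h5 := (h4 1 (one_mem _)).1
    rw [(hs'.ac j).2 1 (one_mem _), mul_one, mul_one] at h5
    exact (hts.x_inj (hs'.ac j).1 hbK h5).symm
  have hσa : σ a = b := by rw [ha, hb, map_zpow₀]
  constructor
  · have h5 : x (e j) t = ε (x (e j) (σ⁻¹ ((c (e j))⁻¹ * t))) := by
      rw [(h2 _ (hinv _ (mul_mem (inv_mem hcK) ht))).2.1, e0, mul_inv_cancel_left₀ hc0]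
    have h6 : σ⁻¹ ((c (e j))⁻¹ * t) ∈ K (e j) := hinv _ (mul_mem (inv_mem hcK) ht)
    rw [MulAut.conj_apply, MulAut.conj_apply, (h4 t ht).1]
    calc ε s * x (e j) t * (ε s)⁻¹ =
        ε (s * x (e j) (σ⁻¹ ((c (e j))⁻¹ * t)) * s⁻¹) := by rw [map_mul, map_mul, map_inv, ← h5]
      _ = x (e j) (b * t) := by
        rw [(h3 _ h6).1, (h2 _ (mul_mem haK h6)).2.1, map_mul, e0, hσa]
        congr 1
        field_simp
  · have h6 : σ⁻¹ (c (e j) * t) ∈ K (e j) := hinv _ (mul_mem hcK ht)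
    have h5 : x (C.neg (e j)) t = ε (x (C.neg (e j)) (σ⁻¹ (c (e j) * t))) := by
      rw [(h2 _ h6).2.2, e0, inv_mul_cancel_left₀ hc0]
    rw [MulAut.conj_apply, MulAut.conj_apply, (h4 t ht).2]
    calc ε s * x (C.neg (e j)) t * (ε s)⁻¹ =
        ε (s * x (C.neg (e j)) (σ⁻¹ (c (e j) * t)) * s⁻¹) := by
          rw [map_mul, map_mul, map_inv, ← h5]
      _ = x (C.neg (e j)) (b⁻¹ * t) := by
        rw [(h3 _ h6).2, (h2 _ (mul_mem (inv_mem haK) h6)).2.2, map_mul, map_inv₀, e0, hσa]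
        congr 1
        field_simp

end Dt

omit [Field F] [Group L] in
lemma LL_bd : ∀ p ∈ LL, ∀ j : Fin 4, -2 ≤ bil F₄ (Pi.single j 1) p.2 ∧
    bil F₄ (Pi.single j 1) p.2 ≤ 2 := by decide +kernel

omit [Field F] [Group L] in
lemma LL_t0 : ((![2, 3, 4, 2], ![2, 3, 2, 1]) : (Fin 4 → ℤ) × (Fin 4 → ℤ)) ∈ LL := by
  decide +kernel

omit [Field F] [Group L] in
lemma LL_two : ∀ p ∈ LL, bil F₄ (Pi.single 0 1) p.2 = 2 → bil F₄ (Pi.single 1 1) p.2 = -1 := by
  decide +kernel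

omit [Field F] [Group L] in
lemma bd_c0 : ∀ j : Fin 4, 0 ≤ bil F₄ (Pi.single j 1) ![2, 3, 2, 1] ∧
    bil F₄ (Pi.single j 1) ![2, 3, 2, 1] ≤ 1 := by decide +kernel

omit [Group L] in
lemma zpow_eq_small {z : F} (hz0 : z ≠ 0) {m : ℕ} (hz : orderOf z = m) {a b : ℤ}
    (hab : z ^ a = z ^ b) (h1 : |a - b| < m) : a = b := by
  have h2 : (Units.mk0 z hz0) ^ (a - b) = 1 := by
    apply Units.ext
    rw [Units.val_zpow_eq_zpow_val, Units.val_mk0, Units.val_one, zpow_sub₀ hz0, hab,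
      div_self (zpow_ne_zero b hz0)]
  have h3 := orderOf_dvd_iff_zpow_eq_one.2 h2
  rw [← orderOf_units, Units.val_mk0, hz] at h3
  have h4 := Int.eq_zero_of_abs_lt_dvd h3 h1
  omega

omit [Group L] in
/-- the exponent is `1` -/
lemma exp_one [Finite F] {σ : RingAut F} (h3 : σ ^ 3 = 1) {z : F} (hz0 : z ≠ 0) {m : ℕ}
    (hz : orderOf z = m) (hm : m = 7 ∨ 10 ≤ m) {k : ℤ} (hk : (σ z) ^ k = z) (hk1 : -2 ≤ k)
    (hk2 : k ≤ 2) (hk3 : k ≠ 2) : k = 1 := by
  have h4 : σ (σ (σ z)) = z := by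
    have : (σ ^ 3) z = z := by rw [h3]; rfl
    rw [pow_succ, pow_succ, pow_one] at this
    exact this
  have h5 : z ^ k = σ (σ z) := by
    have := congrArg σ (congrArg σ hk)
    rw [map_zpow₀, map_zpow₀, h4] at this
    exact this
  have h6 : z ^ (k * k) = σ z := by
    rw [zpow_mul, h5, ← map_zpow₀, hk]
  have h7 : z ^ (k * k * k) = z ^ (1 : ℤ) := by
    rw [zpow_mul, h6, hk, zpow_one]
  rcases hm with rfl | hm
  · have h8 : z ^ (k * k * k - 1) = 1 := by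
      rw [zpow_sub₀ hz0, h7, div_self (zpow_ne_zero 1 hz0)]
    have h9 : (Units.mk0 z hz0) ^ (k * k * k - 1) = 1 := by
      apply Units.ext
      rw [Units.val_zpow_eq_zpow_val, Units.val_mk0, Units.val_one, h8]
    have h10 := orderOf_dvd_iff_zpow_eq_one.2 h9
    rw [← orderOf_units, Units.val_mk0, hz] at h10
    have : k = -2 ∨ k = -1 ∨ k = 0 ∨ k = 1 := by omega
    rcases this with rfl | rfl | rfl | rfl <;> omega
  have h8 := zpow_eq_small hz0 hz h7 (by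
    have : k = -2 ∨ k = -1 ∨ k = 0 ∨ k = 1 ∨ k = 2 := by omega
    have hm' : (10 : ℤ) ≤ m := by exact_mod_cast hm
    rcases this with rfl | rfl | rfl | rfl | rfl <;> norm_num <;> omega)
  have : k = -2 ∨ k = -1 ∨ k = 0 ∨ k = 1 ∨ k = 2 := by omega
  rcases this with rfl | rfl | rfl | rfl | rfl <;> omega

namespace Dt

/-- **automorphisms of order `3` that fix `s u` are inner** -/
theorem out_part [Finite F] [Finite ι] [Finite L] (r : ℕ) [hr : Fact r.Prime] [CharP F r]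
    (h : Dt C e K₀ K x co) {t : ℕ} (ht : 2 ≤ t)
    (hq : Nat.card K₀ = t ^ 3) {z : F} (hz : orderOf z = t ^ 2 + t + 1) (hzK : z ∈ K₀)
    (hrz : Nat.Coprime r (t ^ 2 + t + 1)) {s : L} (hs : Hc C e K x z ![2, 3, 2, 1] s)
    {f : MulAut L} (hf3 : f ^ 3 = 1) (hfs : f (s * uu e x) = s * uu e x) :
    f ∈ (MulAut.conj (G := L)).range := by
  have hts := h.td.ts
  have hz0 : z ≠ 0 := by
    rintro rfl
    rw [orderOf_eq_zero_iff'.2] at hz
    · omega
    · intro n hn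
      rw [zero_pow hn.ne']
      exact zero_ne_one
  have hm : t ^ 2 + t + 1 = 7 ∨ 10 ≤ t ^ 2 + t + 1 := by
    by_cases ht3 : 3 ≤ t
    · right; nlinarith
    · left
      have : t = 2 := by omega
      subst this
      norm_num
  have hF : Nat.card F = (t ^ 3) ^ 2 := by rw [h.td.card, hq]
  -- `f` fixes `s` and `u`
  have hsm : s ^ (t ^ 2 + t + 1) = 1 := hs.pow h (by rw [← hz, pow_orderOf_eq_one])
  obtain ⟨k, hk⟩ := UU_pgroup h.td.ts r ⟨_, h.uu_mem⟩
  obtain ⟨Q, hQ⟩ := exists_Q (hrz.coprime_dvd_right (orderOf_dvd_of_pow_eq_one hsm)) (k := k)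
    (by simpa using congrArg Subtype.val hk) (h.comm_uu hs) (orderOf_pos s)
  have hf1 : f s = s := by rw [← hQ, map_pow, hfs]
  have hf2 : f (uu e x) = uu e x := by
    have h1 : uu e x = s⁻¹ * (s * uu e x) := by group
    rw [h1, map_mul, map_inv, hf1, hfs]
  -- normalization
  have hSB : SB r (BB C K x) (NN C K x) (H945.W.UU C K x) (SS C x) :=
    (splitBN hts h.cen r).toSB
  obtain ⟨l₀, hl₀, hl₀'⟩ := C.long
  have hn₀ : nl C x l₀ ∈ NN C K x := TS.nl_mem hl₀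
  have hopp := H164.TW.opp_nl hts hl₀'
  obtain ⟨g, hgB, hgC⟩ := H112.Br.norm_all hSB hr.out hn₀ hopp f
  have hnI : (MulAut.conj (G := L)).range.Normal := normal_conj
  set I := (MulAut.conj (G := L)).range with hI
  have hgI : MulAut.conj g ∈ I := ⟨g, rfl⟩
  obtain ⟨ε, hε⟩ : ∃ ε, ε = (MulAut.conj g)⁻¹ * f := ⟨_, rfl⟩
  rw [← hε] at hgB hgC
  have hfε : f = MulAut.conj g * ε := by rw [hε, mul_inv_cancel_left]
  have hε3 : ε ^ 3 ∈ I := by
    rw [← QuotientGroup.eq_one_iff (N := I)]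
    have h3 : ((ε : MulAut L) : MulAut L ⧸ I) = (f : MulAut L ⧸ I) := by
      rw [hε, QuotientGroup.mk_mul, QuotientGroup.mk_inv, (QuotientGroup.eq_one_iff _).2 hgI,
        inv_one, one_mul]
    rw [QuotientGroup.mk_pow, h3, ← QuotientGroup.mk_pow, hf3, QuotientGroup.mk_one]
  obtain ⟨σ, c, hc⟩ := H945.W.stmtT4 ι F L r C K x hts h.cen h.td.lc4 h.td.pc4 l₀ hl₀ hl₀' ε
    hgB hgC
  have hAG : (ε, (σ : RingAut F)) ∈ AG C K x := ⟨c, hc⟩
  have hAGp : (ε ^ 3, (σ : RingAut F) ^ 3) ∈ AG C K x := pow_mem hAG 3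
  obtain ⟨c', hc'⟩ := hAGp
  have hσ3 : (σ : RingAut F) ^ 3 = 1 :=
    H164.TW.sigma_one hr.out hts hSB hl₀ hl₀' ⟨e 2, h.simp 2, h.td.K4_2⟩ hε3 (am_pow_eq hgB 3)
      (am_pow_eq hgC 3) hc'
  have hcA : H164.TW.AlT C K x ε (σ : RingAut F) c := hc
  -- the torus element
  obtain ⟨hσK, hεs⟩ := h.alt_hc hcA hzK hz0 hs
  have hσz0 : (σ : RingAut F) z ≠ 0 := (map_ne_zero σ).2 hz0
  have h1 : g * ε s * g⁻¹ = s := by
    have : f s = g * ε s * g⁻¹ := by rw [hfε]; rfl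
    rw [← this, hf1]
  obtain ⟨n, hn, b, hb, b', hb', hbb⟩ := hSB.toBN.bruhat g
  have h2 := tor_conj r hts h.cen hεs.mem hs.mem hb hb' hn hbb h1
  obtain ⟨τ, hτ, l₁, hl₁, rfl⟩ := hts.mem_NN hn
  obtain ⟨l, rfl⟩ := exists_word h.td.simp hl₁
  have h3 : nl C x (l.map e) * ε s * (nl C x (l.map e))⁻¹ = s := by
    have h4 : nl C x (l.map e) * ε s * (nl C x (l.map e))⁻¹ =
        τ⁻¹ * (τ * nl C x (l.map e) * ε s * (τ * nl C x (l.map e))⁻¹) * τ := by group
    rw [h4, h2, mul_assoc, T_comm hts h.cen hs.mem hτ, inv_mul_cancel_left]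
  have h4 := Hc.word h hσK hσz0 hεs l
  rw [h3] at h4
  have hex : ∀ j, ((σ : RingAut F) z) ^ bil F₄ (Pi.single j 1) (wc F₄ l ![2, 3, 2, 1]) =
      z ^ bil F₄ (Pi.single j 1) ![2, 3, 2, 1] := by
    intro j
    have h5 := (h4.ac j).2 1 (one_mem _)
    rw [(hs.ac j).2 1 (one_mem _), mul_one, mul_one] at h5
    exact (hts.x_inj (hs.ac j).1 (h4.ac j).1 h5).symm
  have hbd := fun j => LL_bd _ (LL_word LL_t0 l) j
  have hk1 : bil F₄ (Pi.single 0 1) (wc F₄ l ![2, 3, 2, 1]) = 1 := by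
    refine exp_one hσ3 hz0 hz hm ?_ (hbd 0).1 (hbd 0).2 ?_
    · rw [hex 0, bil_0, Pi.single_eq_same, zpow_one]
    · intro hk2
      have h5 := LL_two _ (LL_word LL_t0 l) hk2
      have h6 := hex 1
      simp only at h5
      rw [h5, bil_0, Pi.single_eq_of_ne (by decide), zpow_zero, zpow_neg_one] at h6
      have h7 : (σ : RingAut F) z = 1 := by
        rw [← inv_inv ((σ : RingAut F) z), h6, inv_one]
      have h8 : z = 1 := (σ : RingAut F).injective (by rw [h7, map_one])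
      rw [h8, orderOf_one] at hz
      omega
  have hσz : (σ : RingAut F) z = z := by
    have := hex 0
    rw [hk1, bil_0, Pi.single_eq_same, zpow_one, zpow_one] at this
    exact this
  have hσ1 : (σ : RingAut F) = 1 := sigma_trivial hσ3 ht hF hz hσz
  have hbil : ∀ j, bil F₄ (Pi.single j 1) (wc F₄ l ![2, 3, 2, 1]) =
      bil F₄ (Pi.single j 1) ![2, 3, 2, 1] := by
    intro j
    have h5 := hex j
    rw [hσz] at h5
    refine zpow_eq_small hz0 hz h5 ?_
    have h6 := hbd j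
    have h7 := bd_c0 j
    have hm' : (7 : ℤ) ≤ ((t ^ 2 + t + 1 : ℕ) : ℤ) := by
      have : 7 ≤ t ^ 2 + t + 1 := by omega
      exact_mod_cast this
    rw [abs_lt]
    simp only at h6
    constructor <;> omega
  -- `w` preserves the first coordinate
  have hw0 : ∀ j, co (wl C (l.map e) j) 0 = co j 0 := by
    intro j
    rw [h.co_word, ← bil_0 (wr F₄ l (co j)), ← bil_0 (co j), ← bil_wr_wc F₄ F4_two l (co j)]
    exact bil_congr F₄ fun j => (hbil j).symm
  -- the unipotent element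
  have hcj : ∀ j, c (e j) ∈ K (e j) ∧ c (e j) ≠ 0 ∧ ∀ a ∈ K (e j),
      ε (x (e j) a) = x (e j) (c (e j) * a) ∧
      ε (x (C.neg (e j)) a) = x (C.neg (e j)) ((c (e j))⁻¹ * a) := by
    intro j
    obtain ⟨h5, h6, h7⟩ := hcA (e j) (h.simp j)
    refine ⟨h5, h6, fun a ha => ?_⟩
    obtain ⟨-, h8, h9⟩ := h7 a ha
    rw [hσ1] at h8 h9
    exact ⟨h8, h9⟩
  have hεu : ε (uu e x) = x (e 1) (c (e 1)) * x (e 2) (c (e 2)) * x (e 3) (c (e 3)) := by
    rw [uu, map_mul, map_mul, ((hcj 1).2.2 1 (one_mem _)).1, ((hcj 2).2.2 1 (one_mem _)).1,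
      ((hcj 3).2.2 1 (one_mem _)).1, mul_one, mul_one, mul_one]
  have hεuU : ε (uu e x) ∈ UU C K x := by
    rw [hεu]
    exact mul_mem (mul_mem (TS.x_mem_UU (C.simp_pos _ (h.simp 1)) (hcj 1).1)
      (TS.x_mem_UU (C.simp_pos _ (h.simp 2)) (hcj 2).1))
      (TS.x_mem_UU (C.simp_pos _ (h.simp 3)) (hcj 3).1)
  have hne : ∀ i j : Fin 4, i ≠ j → e i ≠ e j := fun i j hij he => hij (h.td.inj he)
  -- coordinates
  have hcd : ∀ (d : Fin 4 → F), (∀ j, d j ∈ K (e j)) → ∀ j : Fin 4, j ≠ 0 →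
      Cd C K x (e j) (x (e 1) (d 1) * x (e 2) (d 2) * x (e 3) (d 3)) (d j) := by
    intro d hd j hj
    have o : ∀ i j : Fin 4, i ≠ j → Cd C K x (e j) (x (e i) (d i)) 0 := fun i j hij =>
      Cd.other hts (C.simp_pos _ (h.simp i)) (hne i j hij) (hd i)
    have sf : ∀ j : Fin 4, Cd C K x (e j) (x (e j) (d j)) (d j) := fun j => Cd.self (hd j)
    have h123 : j = 1 ∨ j = 2 ∨ j = 3 := by revert j; decide
    rcases h123 with rfl | rfl | rfl
    · have := ((sf 1).mul hts (h.simp 1) (o 2 1 (by decide))).mul hts (h.simp 1) (o 3 1 (by decide))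
      simpa using this
    · have := ((o 1 2 (by decide)).mul hts (h.simp 2) (sf 2)).mul hts (h.simp 2) (o 3 2 (by decide))
      simpa using this
    · have := ((o 1 3 (by decide)).mul hts (h.simp 3) (o 2 3 (by decide))).mul hts (h.simp 3) (sf 3)
      simpa using this
  have hcdu : ∀ j : Fin 4, j ≠ 0 → Cd C K x (e j) (uu e x) 1 := fun j hj =>
    hcd (fun _ => 1) (fun _ => one_mem _) j hj
  have hcdε : ∀ j : Fin 4, j ≠ 0 → Cd C K x (e j) (ε (uu e x)) (c (e j)) := fun j hj => by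
    rw [hεu]
    exact hcd (fun j => c (e j)) (fun j => (hcj j).1) j hj
  have h5 : g * ε (uu e x) * g⁻¹ = uu e x := by
    have : f (uu e x) = g * ε (uu e x) * g⁻¹ := by rw [hfε]; rfl
    rw [← this, hf2]
  -- all simple roots are mapped to positive roots
  have hpos : ∀ j, 0 < C.ht (wl C (l.map e) (e j)) := by
    intro j
    by_cases hj : j = 0
    · subst hj
      apply h.coo.ht_pos (k := 0)
      rw [hw0, h.coo.co_e]
      decide
    · by_contra hcon
      have h6 := C.ht_ne (wl C (l.map e) (e j))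
      have h7 := desc r hts h.cen hl₁ hτ (h.simp j) (by omega) (y := b' * ε (uu e x) * b'⁻¹)
        (hts.B_conj_U hb' hεuU) (by
          have e1 : τ * nl C x (l.map e) * (b' * ε (uu e x) * b'⁻¹) *
              (τ * nl C x (l.map e))⁻¹ = b⁻¹ * (g * ε (uu e x) * g⁻¹) * b⁻¹⁻¹ := by
            rw [hbb]; group
          rw [e1, h5]
          exact hts.B_conj_U (inv_mem hb) h.uu_mem)
      obtain ⟨v, hv, t', ht', hvt⟩ := hts.mem_BB hb'
      obtain ⟨a, haK, ha0, ha⟩ := hts.T_act ht' (e j)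
      have h8 := ((hcdε j hj).conjT hts ht' ⟨haK, ha⟩).conj hts (h.simp j) hv
      have e1 : v * (t' * ε (uu e x) * t'⁻¹) * v⁻¹ = b' * ε (uu e x) * b'⁻¹ := by
        rw [hvt]; group
      rw [e1] at h8
      exact mul_ne_zero ha0 (hcj j).2.1 (h8.eq hts (h.simp j) (Cd.zero hts h7))
  have hnT : nl C x (l.map e) ∈ TT C K x :=
    hts.nl_mem_T _ _ rfl hl₁ fun j hj => h.coo.word_pos h.td.pr hpos hj
  have hgBB : g ∈ BB C K x := by
    rw [hbb]
    exact mul_mem (mul_mem hb (mul_mem (TS.TT_le_BB hτ) (TS.TT_le_BB hnT))) hb'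
  obtain ⟨v, hv, t', ht', hvt⟩ := hts.mem_BB hgBB
  choose a haK ha0 ha using fun j => T_act2 hts ht' (e j)
  have hac : ∀ j : Fin 4, j ≠ 0 → a j * c (e j) = 1 := by
    intro j hj
    have h8 := ((hcdε j hj).conjT hts ht' ⟨haK j, fun u hu => (ha j u hu).1⟩).conj hts
      (h.simp j) hv
    have e1 : v * (t' * ε (uu e x) * t'⁻¹) * v⁻¹ = g * ε (uu e x) * g⁻¹ := by
      rw [hvt]; group
    rw [e1, h5] at h8
    exact h8.eq hts (h.simp j) (hcdu j hj)
  -- the remaining automorphism is inner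
  have hK0 : K (e 0) = K₀ := h.td.K4_0
  have hd0 : a 0 * c (e 0) ∈ K₀ := by
    rw [← hK0]
    exact mul_mem (haK 0) (hcj 0).1
  obtain ⟨t₁, ht₁, g0, g1, g2, g3⟩ := h.td.ac_sub (a := a 0 * c (e 0)) (b := 1) (s := 1) (t := 1)
    hd0 (one_mem _) (one_mem _) (one_mem _) (mul_ne_zero (ha0 0) (hcj 0).2.1) one_ne_zero
    one_ne_zero one_ne_zero
  have hgj : ∀ j, Ac K x (e j) t₁ (a j * c (e j)) := by
    intro j
    fin_cases j
    · exact g0
    · have := hac 1 (by decide)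
      change Ac K x (e 1) t₁ (a 1 * c (e 1))
      rw [this]; exact g1
    · have := hac 2 (by decide)
      change Ac K x (e 2) t₁ (a 2 * c (e 2))
      rw [this]; exact g2
    · have := hac 3 (by decide)
      change Ac K x (e 3) t₁ (a 3 * c (e 3))
      rw [this]; exact g3
  have h6 : MulAut.conj t' * ε = MulAut.conj t₁ := by
    refine ext_simple hts fun i hi y hy => ?_
    obtain ⟨j, rfl⟩ := (h.td.simp _).1 hi
    obtain ⟨d, hdK, hd0, h7⟩ := T_act2 hts ht₁ (e j)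
    have hd : d = a j * c (e j) := by
      have h8 := (h7 1 (one_mem _)).1
      rw [(hgj j).2 1 (one_mem _), mul_one, mul_one] at h8
      exact (hts.x_inj (hgj j).1 hdK h8).symm
    obtain ⟨hcK, hc0, h8⟩ := hcj j
    rw [MulAut.mul_apply, MulAut.mul_apply, MulAut.conj_apply, MulAut.conj_apply,
      MulAut.conj_apply, MulAut.conj_apply, (h8 y hy).1, (h8 y hy).2, (h7 y hy).1, (h7 y hy).2,
      (ha j _ (mul_mem hcK hy)).1, (ha j _ (mul_mem (inv_mem hcK) hy)).2, hd, mul_inv]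
    exact ⟨by rw [mul_assoc], by rw [mul_assoc]⟩
  have h7 : ε = (MulAut.conj t')⁻¹ * MulAut.conj t₁ := by rw [← h6, inv_mul_cancel_left]
  rw [hfε, h7]
  exact mul_mem hgI (mul_mem (inv_mem ⟨t', rfl⟩) ⟨t₁, rfl⟩)

end Dt

end

end Vale.Agent.P240.R2.H493
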