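import Vale.Agent.P240.R2.H493.Casc

/-!
Elements centralizing the root groups of the Kostant cascade lie in a minimal parabolic subgroup.
-/

set_option autoImplicit false

namespace Vale.Agent.P240.R2.H493

open Subgroup Vale.Agent.P240.K Vale.Agent.P240.H195 Vale.Agent.P240.R2.H945.W CartanMatrix
open Vale.Agent.P240.R2.H986.X (RC nn nl wl nl_nil nl_cons nl_append wl_nil wl_cons wl_append SS
  wl_rev wl_rev' wl_neg)

universe u

section
variable {F : Type} [Field F] {L : Type u} [Group L] {ι : Type} {C : RC ι} {e : Fin 4 → ι}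
  {K₀ : Subfield F} {K : ι → Subfield F} {x : ι → F → L} {co : ι → Fin 4 → ℤ}

namespace Dt

lemma ht_t0 (h : Dt C e K₀ K x co) : C.ht (t0 C e) = 11 := by
  rw [h.coo.ht, h.co_t0]; decide

lemma ht_t1 (h : Dt C e K₀ K x co) : C.ht (t1 C e) = 5 := by
  rw [h.coo.ht, h.co_t1]; decide

lemma ht_t2 (h : Dt C e K₀ K x co) : C.ht (t2 C e) = 3 := by
  rw [h.coo.ht, h.co_t2]; decide

lemma cone_ge (h : Dt C e K₀ K x co) {i j k : ι} (hc : C.cone i j k) (hj : 0 < C.ht j) (m : Fin 4)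
    (hi : 0 ≤ co i m) : co i m ≤ co k m := by
  obtain ⟨a, b, ha, hb, hab⟩ := h.coo.cone i j k hc
  have h1 := h.coo.pos j hj m
  rw [hab, Pi.add_apply, Pi.smul_apply, Pi.smul_apply, nsmul_eq_mul, nsmul_eq_mul]
  have h2 : (1 : ℤ) ≤ a := by exact_mod_cast ha
  have h3 : (0 : ℤ) ≤ b := by positivity
  nlinarith

lemma lead0 (h : Dt C e K₀ K x co) : Lead C (fun _ => False) (t0 C e) where
  ideal := ⟨fun _ hi => hi.elim, fun _ _ _ hi => hi.elim⟩
  pos := by rw [h.ht_t0]; decide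
  cone j k hj hk := by
    have h1 := (C.cone_ht _ _ _ hk (by rw [h.ht_t0]; decide) hj).1
    rw [h.ht_t0] at h1
    have h2 := (h.ht_le k).1
    omega

lemma top0 (h : Dt C e K₀ K x co) : Top C (t0 C e) := ⟨h.lead0.pos, h.lead0.cone⟩

lemma lead1 (h : Dt C e K₀ K x co) : Lead C (fun j => 0 < co j 0) (t1 C e) where
  ideal := ⟨fun _ hi => h.coo.ht_pos hi, fun i j k hi hj hk =>
    lt_of_lt_of_le hi (h.cone_ge hk hj 0 (le_of_lt hi))⟩
  pos := by rw [h.ht_t1]; decide
  cone j k hj hk := by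
    have h0 : 0 < C.ht (t1 C e) := by rw [h.ht_t1]; decide
    have h1 := (C.cone_ht _ _ _ hk h0 hj).1
    have h2 := (h.ht_le k).2.1
    have h3 := h.coo.pos k (h0.trans h1) 0
    rw [h.ht_t1] at h1
    by_contra hcon
    have := h2 (by omega)
    omega

lemma lead2 (h : Dt C e K₀ K x co) : Lead C (fun j => 0 < co j 0 ∨ 0 < co j 3) (t2 C e) where
  ideal := by
    have h0 : ∀ i, 0 < co i 0 ∨ 0 < co i 3 → 0 < C.ht i := by
      rintro i (hi | hi)
      exacts [h.coo.ht_pos hi, h.coo.ht_pos hi]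
    refine ⟨h0, ?_⟩
    rintro i j k (hi | hi) hj hk
    · exact Or.inl (lt_of_lt_of_le hi (h.cone_ge hk hj 0 (le_of_lt hi)))
    · exact Or.inr (lt_of_lt_of_le hi (h.cone_ge hk hj 3 (le_of_lt hi)))
  pos := by rw [h.ht_t2]; decide
  cone j k hj hk := by
    have h0 : 0 < C.ht (t2 C e) := by rw [h.ht_t2]; decide
    have h1 := (C.cone_ht _ _ _ hk h0 hj).1
    have h2 := (h.ht_le k).2.2
    have h3 := h.coo.pos k (h0.trans h1) 0
    have h4 := h.coo.pos k (h0.trans h1) 3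
    rw [h.ht_t2] at h1
    by_contra hcon
    push Not at hcon
    have := h2 (by omega) (by omega)
    omega

/-- separation of roots by a reflection -/
lemma sep (h : Dt C e K₀ K x co) {β θ : ι} {c v : Fin 4 → ℤ} (hcr : IsCr C co β c)
    (hθ : co θ = v) (hθ0 : 0 < C.ht θ)
    (hk : 0 < ∑ k, co β k → ∃ k, 0 < v k - bil F₄ v c * co β k) {Ψ : ι → Prop}
    (hΨ : ∀ j, Ψ j → 0 < C.ht j) (hΨ' : ∀ j, Ψ j → 0 < C.ht (C.s β j)) :
    ∃ l', C.ht (wl C l' β) < 0 ∧ 0 < C.ht (wl C l' θ) ∧ ∀ j, Ψ j → 0 < C.ht (wl C l' j) := by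
  by_cases hβ : 0 < C.ht β
  · refine ⟨[β], ?_, ?_, hΨ'⟩
    · rw [wl_cons, wl_nil, C.s_self, C.ht_neg]
      omega
    · rw [wl_cons, wl_nil]
      rw [h.coo.ht] at hβ
      obtain ⟨k, hk⟩ := hk hβ
      apply h.coo.ht_pos (k := k)
      rw [h.coo.co_s, hcr, hθ]
      simpa using hk
  · have h1 := C.ht_ne β
    exact ⟨[], by rw [wl_nil]; omega, hθ0, hΨ⟩

/-- images of `e 1` under words -/
lemma long_mem' (h : Dt C e K₀ K x co) (l l' : List (Fin 4)) :
    ∃ c, (co (wl C (l.map e) (wl C (l'.map e) (e 1))), c) ∈ LL ∧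
      IsCr C co (wl C (l.map e) (wl C (l'.map e) (e 1))) c := by
  rw [← wl_append, ← List.map_append]
  exact h.long_mem _

lemma long_t0 (h : Dt C e K₀ K x co) (l : List (Fin 4)) :
    ∃ c, (co (wl C (l.map e) (t0 C e)), c) ∈ LL ∧ IsCr C co (wl C (l.map e) (t0 C e)) c :=
  h.long_mem' l _

lemma long_t1 (h : Dt C e K₀ K x co) (l : List (Fin 4)) :
    ∃ c, (co (wl C (l.map e) (t1 C e)), c) ∈ LL ∧ IsCr C co (wl C (l.map e) (t1 C e)) c :=
  h.long_mem' l _

lemma long_t2 (h : Dt C e K₀ K x co) (l : List (Fin 4)) :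
    ∃ c, (co (wl C (l.map e) (t2 C e)), c) ∈ LL ∧ IsCr C co (wl C (l.map e) (t2 C e)) c :=
  h.long_mem' l _

omit [Field F] [Group L] in
lemma LL_0' {v c : Fin 4 → ℤ} (hm : (v, c) ∈ LL) (hs : 0 < ∑ k, v k) (hne : v ≠ ![2, 3, 4, 2]) :
    ∃ k, 0 < (![2, 3, 4, 2] : Fin 4 → ℤ) k - bil F₄ ![2, 3, 4, 2] c * v k := LL_0 (v, c) hm hs hne

omit [Field F] [Group L] in
lemma LL_1' {v c : Fin 4 → ℤ} (hm : (v, c) ∈ LL) (hs : 0 < ∑ k, v k) (h0 : v 0 = 0)
    (hne : v ≠ ![0, 1, 2, 2]) :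
    ∃ k, 0 < (![0, 1, 2, 2] : Fin 4 → ℤ) k - bil F₄ ![0, 1, 2, 2] c * v k :=
  LL_1 (v, c) hm hs h0 hne

omit [Field F] [Group L] in
lemma LL_2' {v c : Fin 4 → ℤ} (hm : (v, c) ∈ LL) (hs : 0 < ∑ k, v k) (h0 : v 0 = 0)
    (h3 : v 3 = 0) (hne : v ≠ ![0, 1, 2, 0]) :
    ∃ k, 0 < (![0, 1, 2, 0] : Fin 4 → ℤ) k - bil F₄ ![0, 1, 2, 0] c * v k :=
  LL_2 (v, c) hm hs h0 h3 hne

lemma s_coord (h : Dt C e K₀ K x co) {β j : ι} {k : Fin 4} (hβ : co β k = 0) :
    co (C.s β j) k = co j k := by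
  rw [h.coo.co_s]
  simp [hβ]

/-- **elements centralizing the cascade** -/
theorem par [Finite F] [Finite L] [Finite ι] (r : ℕ) [Fact r.Prime] [CharP F r]
    (h : Dt C e K₀ K x co) {g : L}
    (g0 : g * x (t0 C e) 1 * g⁻¹ = x (t0 C e) 1) (g1 : g * x (t1 C e) 1 * g⁻¹ = x (t1 C e) 1)
    (g2 : g * x (t2 C e) 1 * g⁻¹ = x (t2 C e) 1) :
    g ∈ Par (BB C K x) (nn C.neg x (e 1) 1) := by
  have hts := h.td.ts
  obtain ⟨n, hn, b, hb, b', hb', hbb⟩ := (splitBN hts h.cen r).toSB.toBN.bruhat g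
  obtain ⟨t, ht, l₁, hl₁, rfl⟩ := hts.mem_NN hn
  obtain ⟨l, rfl⟩ := exists_word h.td.simp hl₁
  set w := wl C (l.map e) with hw
  -- first step
  have w0 : w (t0 C e) = t0 C e := by
    refine casc hts h.lead0 hb hb' ht hbb g0 (fun _ hj => hj.elim) (fun hne => ?_)
    obtain ⟨c, hc, hcr⟩ := h.long_t0 l
    refine h.sep hcr h.co_t0 h.lead0.pos (fun hs => LL_0' hc hs fun h1 => hne ?_)
      (fun _ hj => hj.elim) (fun _ hj => hj.elim)
    apply h.coo.inj
    rw [h.co_t0]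
    exact h1
  have c0 : ∀ j, co (w j) 0 = co j 0 := by
    intro j
    rw [← h.pr_t0, ← h.pr_t0 j, ← h.coo.pr_wl (l.map e) j, ← hw, w0]
  -- second step
  have w1 : w (t1 C e) = t1 C e := by
    refine casc hts h.lead1 hb hb' ht hbb g1 (fun j hj => by rw [c0]; exact hj) (fun hne => ?_)
    obtain ⟨c, hc, hcr⟩ := h.long_t1 l
    have hβ0 : co (w (t1 C e)) 0 = 0 := by rw [c0, h.co_t1]; rfl
    refine h.sep hcr h.co_t1 h.lead1.pos (fun hs => LL_1' hc hs hβ0 fun h1 => hne ?_)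
      (fun j hj => h.coo.ht_pos hj) (fun j hj => ?_)
    · apply h.coo.inj
      rw [h.co_t1]
      exact h1
    · apply h.coo.ht_pos (k := 0)
      rw [h.s_coord hβ0]
      exact hj
  have c3 : ∀ j, co (w j) 3 = co j 3 := by
    intro j
    have h1 : C.pr (w j) (t1 C e) = C.pr j (t1 C e) := by
      rw [← h.coo.pr_wl (l.map e) j, ← hw, w1]
    rw [h.pr_t1, h.pr_t1, c0] at h1
    omega
  -- third step
  have w2 : w (t2 C e) = t2 C e := by
    refine casc hts h.lead2 hb hb' ht hbb g2 (fun j hj => by rw [c0, c3]; exact hj)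
      (fun hne => ?_)
    obtain ⟨c, hc, hcr⟩ := h.long_t2 l
    have hβ0 : co (w (t2 C e)) 0 = 0 := by rw [c0, h.co_t2]; rfl
    have hβ3 : co (w (t2 C e)) 3 = 0 := by rw [c3, h.co_t2]; rfl
    refine h.sep hcr h.co_t2 h.lead2.pos (fun hs => LL_2' hc hs hβ0 hβ3 fun h1 => hne ?_)
      (fun j hj => ?_) (fun j hj => ?_)
    · apply h.coo.inj
      rw [h.co_t2]
      exact h1
    · exact h.lead2.ideal.1 j hj
    · rcases hj with hj | hj
      · apply h.coo.ht_pos (k := 0)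
        rw [h.s_coord hβ0]
        exact hj
      · apply h.coo.ht_pos (k := 3)
        rw [h.s_coord hβ3]
        exact hj
  have c2 : ∀ j, co (w j) 2 = co j 2 := by
    intro j
    have h1 : C.pr (w j) (t2 C e) = C.pr j (t2 C e) := by
      rw [← h.coo.pr_wl (l.map e) j, ← hw, w2]
    rw [h.pr_t2, h.pr_t2, c0, c3] at h1
    omega
  -- the element of the Weyl group is `1` or `s₁`
  have hle : BB C K x ≤ Par (BB C K x) (nn C.neg x (e 1) 1) := le_Par
  have hnl : nl C x (l.map e) ∈ Par (BB C K x) (nn C.neg x (e 1) 1) := by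
    by_cases h1 : 0 < C.ht (w (e 1))
    · apply hle
      apply TS.TT_le_BB
      refine hts.nl_mem_T _ _ rfl hl₁ fun j hj => h.coo.word_pos h.td.pr (fun k => ?_) hj
      fin_cases k
      · refine h.coo.ht_pos (k := 0) ?_
        change 0 < co (w (e 0)) 0
        rw [c0, h.coo.co_e]; decide
      · exact h1
      · refine h.coo.ht_pos (k := 2) ?_
        change 0 < co (w (e 2)) 2
        rw [c2, h.coo.co_e]; decide
      · refine h.coo.ht_pos (k := 3) ?_
        change 0 < co (w (e 3)) 3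
        rw [c3, h.coo.co_e]; decide
    · have h2 : ∀ j, wl C ((l ++ [1]).map e) j = w (C.s (e 1) j) := by
        intro j
        rw [List.map_append, wl_append]
        rfl
      have h3 : nl C x ((l ++ [1]).map e) ∈ TT C K x := by
        refine hts.nl_mem_T _ _ rfl ?_ fun j hj => h.coo.word_pos h.td.pr (fun k => ?_) hj
        · intro i hi
          rw [List.mem_map] at hi
          obtain ⟨k, -, rfl⟩ := hi
          exact h.simp k
        · rw [h2]
          have h4 : co (e 1) 0 = 0 := by rw [h.coo.co_e]; decide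
          have h5 : co (e 1) 2 = 0 := by rw [h.coo.co_e]; decide
          have h6 : co (e 1) 3 = 0 := by rw [h.coo.co_e]; decide
          fin_cases k
          · refine h.coo.ht_pos (k := 0) ?_
            change 0 < co (w (C.s (e 1) (e 0))) 0
            rw [c0, h.s_coord h4, h.coo.co_e]; decide
          · change 0 < C.ht (w (C.s (e 1) (e 1)))
            rw [C.s_self, hw, wl_neg, C.ht_neg, ← hw]
            have := C.ht_ne (w (e 1))
            omega
          · refine h.coo.ht_pos (k := 2) ?_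
            change 0 < co (w (C.s (e 1) (e 2))) 2
            rw [c2, h.s_coord h5, h.coo.co_e]; decide
          · refine h.coo.ht_pos (k := 3) ?_
            change 0 < co (w (C.s (e 1) (e 3))) 3
            rw [c3, h.s_coord h6, h.coo.co_e]; decide
      have h4 : nl C x (l.map e) = nl C x ((l ++ [1]).map e) * (nn C.neg x (e 1) 1)⁻¹ := by
        rw [List.map_append, nl_append]
        have : nl C x (([1] : List (Fin 4)).map e) = nn C.neg x (e 1) 1 := by
          rw [List.map_cons, List.map_nil, nl_cons, nl_nil, mul_one]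
        rw [this, mul_inv_cancel_right]
      rw [h4]
      exact mul_mem (hle (TS.TT_le_BB h3)) (inv_mem self_mem_Par)
  rw [hbb]
  exact mul_mem (mul_mem (hle hb) (mul_mem (hle (TS.TT_le_BB ht)) hnl)) (hle hb')

end Dt

end

end Vale.Agent.P240.R2.H493
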