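import Vale.Agent.P240.R2.H493.Root

/-!
Minimal parabolic subgroups: elementary abelian `3`-subgroups acting on the points.
-/

set_option autoImplicit false

namespace Vale.Agent.P240.R2.H493

open Subgroup Vale.Agent.P240.K Vale.Agent.P240.H195 Vale.Agent.P240.R2.H945.W
open Vale.Agent.P240.R2.H986.X (RC nn nl wl nl_nil nl_cons nl_append wl_nil wl_cons wl_append SS
  wl_rev wl_rev' wl_neg)

universe u

section

/-- all orbits have the same length -/
lemma dvd_of_stab {G X : Type*} [Group G] [MulAction G X] [Finite X] {k : ℕ}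
    (hk : ∀ a : X, (MulAction.stabilizer G a).index = k) : k ∣ Nat.card X := by
  classical
  have h1 := Nat.card_congr (MulAction.selfEquivSigmaOrbitsQuotientStabilizer G X)
  have : Finite (Quotient (MulAction.orbitRel G X)) := Quotient.finite _
  have := Fintype.ofFinite (Quotient (MulAction.orbitRel G X))
  by_cases hk0 : k = 0
  · subst hk0
    rw [h1]
    by_cases hne : Nonempty X
    · exfalso
      obtain ⟨a⟩ := hne
      have h2 := hk a
      have h3 : Finite (G ⧸ MulAction.stabilizer G a) :=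
        Finite.of_equiv _ (MulAction.orbitEquivQuotientStabilizer G a)
      exact (Nat.card_pos (α := G ⧸ MulAction.stabilizer G a)).ne' h2
    · rw [← h1]
      have : IsEmpty X := not_nonempty_iff.1 hne
      simp
  · have hfin : ∀ ω : Quotient (MulAction.orbitRel G X),
        Finite (G ⧸ MulAction.stabilizer G ω.out) := fun ω =>
      Finite.of_equiv _ (MulAction.orbitEquivQuotientStabilizer G ω.out)
    rw [h1, Nat.card_sigma]
    exact Finset.dvd_sum fun ω _ => by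
      have h2 : Nat.card (G ⧸ MulAction.stabilizer G ω.out) = k := hk _
      rw [h2]

end

section
variable {ι : Type*} {F : Type*} [Field F] {L : Type u} [Group L] {C : RC ι} {K : ι → Subfield F}
  {x : ι → F → L}

lemma n_mem_SS {i : ι} (hi : C.simp i) : nn C.neg x i 1 ∈ SS C x := ⟨i, hi, rfl⟩

lemma inv_conj_Ui (h : TS C K x) {i : ι} (hi : C.simp i) {v : L} (hv : v ∈ Ui C K x i) :
    (nn C.neg x i 1)⁻¹ * v * nn C.neg x i 1 ∈ Ui C K x i := by
  set n := nn C.neg x i 1 with hn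
  have h1 : (n * n)⁻¹ ∈ TT C K x := inv_mem (h.nn_nn (one_mem _) one_ne_zero (one_mem _) one_ne_zero)
  have h2 := Ui_conj_n h hi (h.T_conj_gr h1 hv)
  have e1 : n⁻¹ * v * n = n * ((n * n)⁻¹ * v * ((n * n)⁻¹)⁻¹) * n⁻¹ := by group
  rw [e1]
  exact h2

/-- `U = X_i U_i` -/
lemma U_dec' (h : TS C K x) {i : ι} (hi : C.simp i) {g : L} (hg : g ∈ UU C K x) :
    ∃ v ∈ Ui C K x i, ∃ c, c ∈ K i ∧ g = x i c * v := by
  obtain ⟨v, hv, c, hc, rfl⟩ := U_dec h hi hg
  refine ⟨(x i c)⁻¹ * v * x i c, ?_, c, hc, by group⟩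
  have h1 := Ui_conj_x h hi (neg_mem hc) hv
  rw [h.x_neg i hc, inv_inv] at h1
  exact h1

lemma par_form (h : TS C K x) (hB : BN0 (BB C K x) (NN C K x) (SS C x)) {i : ι} (hi : C.simp i)
    {g : L} (hg : g ∈ Par (BB C K x) (nn C.neg x i 1)) : g ∈ BB C K x ∨
    ∃ c, c ∈ K i ∧ ∃ b ∈ BB C K x, g = x i c * nn C.neg x i 1 * b := by
  rcases (hB.par_mem_iff (n_mem_SS hi)).1 hg with h1 | ⟨a, ha, b, hb, rfl⟩
  · exact Or.inl h1
  · right
    obtain ⟨u, hu, t, ht, rfl⟩ := h.mem_BB ha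
    obtain ⟨v, hv, c, hc, rfl⟩ := U_dec' h hi hu
    refine ⟨c, hc, ((nn C.neg x i 1)⁻¹ * v * nn C.neg x i 1) *
      ((nn C.neg x i 1)⁻¹ * t * nn C.neg x i 1) * b, mul_mem (mul_mem ?_ ?_) hb, by group⟩
    · exact TS.UU_le (Ui_le i (inv_conj_Ui h hi hv))
    · have h1 := N_conj_T h (inv_mem (TS.SS_le (K := K) _ (n_mem_SS (x := x) hi))) ht
      rw [inv_inv] at h1
      exact TS.TT_le_BB h1

/-- `X_i ∩ U_i = 1` -/
lemma x_mem_Ui (h : TS C K x) {i : ι} (hi : C.simp i) {c : F} (hc : c ∈ K i)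
    (h1 : x i c ∈ Ui C K x i) : c = 0 := by
  obtain ⟨φ, hφ, hφ0, h2⟩ := n_act h i i
  have h3 := Ui_le i (Ui_conj_n h hi h1)
  rw [h2 c hc, C.s_self] at h3
  have h4 := h.x_not_mem (simp_neg_lt hi) (by rw [h.K_neg]; exact hφ c hc) h3
  by_contra hc0
  exact hφ0 c hc hc0 h4

variable (r : ℕ) [Fact r.Prime] [CharP F r]

omit [Fact r.Prime] in
lemma x_pow_r (h : TS C K x) {i : ι} {c : F} (hc : c ∈ K i) : x i c ^ r ^ 1 = 1 := by
  rw [pow_one, x_pow h _ hc, CharP.cast_eq_zero, zero_mul, h.x_zero]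

section
variable [Finite ι] [Finite F] (h : TS C K x) (hcen : ∀ g : L, (∀ y, g * y = y * g) → g = 1)
include r h hcen

lemma T_inf_U {t : L} (ht : t ∈ TT C K x) (hu : t ∈ UU C K x) : t = 1 := by
  obtain ⟨k, hk⟩ := UU_pgroup h r ⟨t, hu⟩
  exact T_eq_one h hcen r ht (by simpa using congrArg Subtype.val hk)

/-- the points are different -/
lemma point_inj {i : ι} (hi : C.simp i) {c c' : F} (hc : c ∈ K i) (hc' : c' ∈ K i)
    (h1 : (x i c * nn C.neg x i 1)⁻¹ * (x i c' * nn C.neg x i 1) ∈ BB C K x) : c = c' := by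
  obtain ⟨φ, hφ, hφ0, h2⟩ := n_inv_act h i i
  have hd : c' + -c ∈ K i := add_mem hc' (neg_mem hc)
  have e1 : (x i c * nn C.neg x i 1)⁻¹ * (x i c' * nn C.neg x i 1) =
      (nn C.neg x i 1)⁻¹ * x i (c' + -c) * nn C.neg x i 1 := by
    rw [add_comm, h.add i _ _ (neg_mem hc) hc', h.x_neg i hc]
    group
  rw [e1, h2 _ hd, C.s_self] at h1
  have hk : φ (c' + -c) ∈ K (C.neg i) := by rw [h.K_neg]; exact hφ _ hd
  have h3 := h.x_not_mem (simp_neg_lt hi) hk (mem_U_of_pow h hcen r h1 (x_pow_r r h hk))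
  by_contra hne
  refine hφ0 _ hd (fun h4 => hne ?_) h3
  linear_combination -h4

/-- elements of order `3` of `B` -/
lemma B_three (hr3 : r ≠ 3) {i : ι} (hi : C.simp i) (h3 : ∀ c ∈ K i, c ^ 3 = 1 → c = 1) {g : L}
    (hg : g ∈ BB C K x) (hg3 : g ^ 3 = 1) : ∃ v ∈ Ui C K x i, ∃ t ∈ TT C K x,
      g = v * t ∧ t ^ 3 = 1 ∧ ∀ u ∈ K i, t * x i u * t⁻¹ = x i u := by
  obtain ⟨u, hu, t, ht, rfl⟩ := h.mem_BB hg
  obtain ⟨v, hv, a, ha, rfl⟩ := U_dec h hi hu
  obtain ⟨c, hcK, hc0, h1⟩ := h.T_act ht i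
  -- the torus part
  have h2 : ∀ k : ℕ, ∃ w ∈ UU C K x, (v * x i a * t) ^ k = w * t ^ k := by
    intro k
    induction k with
    | zero => exact ⟨1, one_mem _, by simp⟩
    | succ k ih =>
      obtain ⟨w, hw, hw'⟩ := ih
      refine ⟨w * (t ^ k * (v * x i a) * (t ^ k)⁻¹), mul_mem hw (h.T_conj_gr (pow_mem ht k) hu), ?_⟩
      rw [pow_succ, hw', pow_succ]
      group
  have ht3 : t ^ 3 = 1 := by
    obtain ⟨w, hw, hw'⟩ := h2 3
    rw [hg3] at hw'
    refine T_inf_U r h hcen (pow_mem ht 3) ?_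
    rw [eq_inv_of_mul_eq_one_right hw'.symm]
    exact inv_mem hw
  have hc1 : c = 1 := by
    apply h3 c hcK
    have h4 := T_pow_act hcK h1 3 1 (one_mem _)
    rw [ht3, one_mul, inv_one, mul_one, mul_one] at h4
    exact (h.x_inj (one_mem _) (pow_mem hcK 3) h4).symm
  subst hc1
  have hfix : ∀ u ∈ K i, t * x i u * t⁻¹ = x i u := fun u hu => by rw [h1 u hu, one_mul]
  have hfixk : ∀ (k : ℕ), ∀ u ∈ K i, t ^ k * x i u * (t ^ k)⁻¹ = x i u := fun k u hu => by
    rw [T_pow_act hcK h1 k u hu, one_pow, one_mul]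
  -- the coordinate
  have h5 : ∀ k : ℕ, ∃ w ∈ Ui C K x i, (v * x i a * t) ^ k = w * x i (k * a) * t ^ k := by
    intro k
    induction k with
    | zero => exact ⟨1, one_mem _, by simp [h.x_zero]⟩
    | succ k ih =>
      obtain ⟨w, hw, hw'⟩ := ih
      have hka : (k : F) * a ∈ K i := mul_mem (natCast_mem _ k) ha
      refine ⟨w * (x i (k * a) * (t ^ k * v * (t ^ k)⁻¹) * (x i (k * a))⁻¹),
        mul_mem hw (Ui_conj_x h hi hka (h.T_conj_gr (pow_mem ht k) hv)), ?_⟩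
      have e1 : x i (((k + 1 : ℕ) : F) * a) = x i (k * a) * x i a := by
        rw [← h.add i _ _ hka ha]
        congr 1
        push_cast
        ring
      rw [pow_succ, hw', e1, pow_succ]
      have e2 := hfixk k a ha
      have e3 : t ^ k * x i a = x i a * t ^ k := mul_inv_eq_iff_eq_mul.1 e2
      calc w * x i (↑k * a) * t ^ k * (v * x i a * t) =
          w * x i (↑k * a) * (t ^ k * v * (t ^ k)⁻¹) * (t ^ k * x i a) * t := by group
        _ = w * x i (↑k * a) * (t ^ k * v * (t ^ k)⁻¹) * (x i a * t ^ k) * t := by rw [e3]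
        _ = _ := by group
  have ha0 : a = 0 := by
    obtain ⟨w, hw, hw'⟩ := h5 3
    rw [hg3, ht3, mul_one] at hw'
    have h3a : ((3 : ℕ) : F) * a ∈ K i := mul_mem (natCast_mem _ 3) ha
    have h6 : x i (((3 : ℕ) : F) * a) ∈ Ui C K x i := by
      rw [eq_inv_of_mul_eq_one_right hw'.symm]
      exact inv_mem hw
    have h7 := x_mem_Ui h hi h3a h6
    rcases mul_eq_zero.1 h7 with h8 | h8
    · exfalso
      have h9 := (CharP.cast_eq_zero_iff F r 3).1 h8
      exact hr3 ((Nat.prime_dvd_prime_iff_eq Fact.out Nat.prime_three).1 h9)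
    · exact h8
  subst ha0
  rw [h.x_zero, mul_one]
  exact ⟨v, hv, t, ht, rfl, ht3, hfix⟩

/-- they fix the points -/
lemma B_fix_point (hr3 : r ≠ 3) {i : ι} (hi : C.simp i) (h3 : ∀ c ∈ K i, c ^ 3 = 1 → c = 1)
    {g : L} (hg : g ∈ BB C K x) (hg3 : g ^ 3 = 1) {c : F} (hc : c ∈ K i) :
    (x i c * nn C.neg x i 1)⁻¹ * g * (x i c * nn C.neg x i 1) ∈ BB C K x := by
  obtain ⟨v, hv, t, ht, rfl, -, hfix⟩ := B_three r h hcen hr3 hi h3 hg hg3
  have e1 : t * x i c = x i c * t := mul_inv_eq_iff_eq_mul.1 (hfix c hc)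
  have e2 : (x i c * nn C.neg x i 1)⁻¹ * (v * t) * (x i c * nn C.neg x i 1) =
      ((nn C.neg x i 1)⁻¹ * (x i (-c) * v * (x i (-c))⁻¹) * nn C.neg x i 1) *
      ((nn C.neg x i 1)⁻¹ * t * nn C.neg x i 1) := by
    rw [h.x_neg i hc]
    calc (x i c * nn C.neg x i 1)⁻¹ * (v * t) * (x i c * nn C.neg x i 1) =
        (nn C.neg x i 1)⁻¹ * (x i c)⁻¹ * v * (t * x i c) * nn C.neg x i 1 := by group
      _ = (nn C.neg x i 1)⁻¹ * (x i c)⁻¹ * v * (x i c * t) * nn C.neg x i 1 := by rw [e1]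
      _ = _ := by group
  rw [e2]
  refine mul_mem (TS.UU_le (Ui_le i (inv_conj_Ui h hi (Ui_conj_x h hi (neg_mem hc) hv)))) ?_
  have h1 := N_conj_T h (inv_mem (TS.SS_le (K := K) _ (n_mem_SS (x := x) hi))) ht
  rw [inv_inv] at h1
  exact TS.TT_le_BB h1

end

end

end Vale.Agent.P240.R2.H493
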