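import Vale.Agent.P240.R2.H493.Tor

/-!
Roots as images of simple roots; the action of torus elements on root groups.
-/

set_option autoImplicit false

namespace Vale.Agent.P240.R2.H493

open Subgroup Vale.Agent.P240.K Vale.Agent.P240.H195 Vale.Agent.P240.R2.H945.W CartanMatrix
open Vale.Agent.P240.R2.H986.X (RC nn nl wl nl_nil nl_cons nl_append wl_nil wl_cons wl_append SS
  wl_rev wl_rev' wl_neg)
open Vale.Agent.P240.R2.H164.TW (T_act2 ext_simple gen_simple)

universe u

section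
variable {n : ℕ} {A : Matrix (Fin n) (Fin n) ℤ}

lemma sc_sc (hA : ∀ i, A i i = 2) (i : Fin n) (c : Fin n → ℤ) : sc A i (sc A i c) = c := by
  rw [sc_eq, sc_eq, ← bil_single_left, ← bil_single_left, bil_sub_right, bil_smul_right,
    bil_single, hA]
  funext k
  simp only [Pi.sub_apply, Pi.smul_apply, smul_eq_mul]
  ring

lemma wc_append (l l' : List (Fin n)) (c : Fin n → ℤ) : wc A (l ++ l') c = wc A l (wc A l' c) := by
  simp [wc]

lemma wc_rev (hA : ∀ i, A i i = 2) (l : List (Fin n)) (c : Fin n → ℤ) :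
    wc A l (wc A l.reverse c) = c := by
  induction l with
  | nil => rfl
  | cons i l ih =>
    rw [List.reverse_cons, wc_append]
    change sc A i (wc A l (wc A l.reverse (sc A i c))) = c
    have h1 : ∀ c, wc A l (wc A l.reverse c) = c := by
      intro c
      clear ih
      induction l generalizing c with
      | nil => rfl
      | cons j l ih =>
        rw [List.reverse_cons, wc_append]
        change sc A j (wc A l (wc A l.reverse (sc A j c))) = c
        rw [ih, sc_sc hA]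
    rw [h1, sc_sc hA]

variable {ι : Type} {C : RC ι} {e : Fin n → ι} {co : ι → Fin n → ℤ}

lemma Coo.pr_wl (h : Coo C e co) (l : List ι) (j k : ι) :
    C.pr (wl C l j) (wl C l k) = C.pr j k := by
  induction l with
  | nil => rfl
  | cons i l ih => rw [wl_cons, wl_cons, h.pr_inv, ih]

lemma exists_rw (hsimp : ∀ i, C.simp i ↔ ∃ k, i = e k) (i : ι) :
    ∃ (l : List (Fin n)) (k : Fin n), i = wl C (l.map e) (e k) := by
  revert i
  apply C.gen
  · intro i hi
    obtain ⟨k, rfl⟩ := (hsimp i).1 hi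
    exact ⟨[], k, rfl⟩
  · rintro i _ hi ⟨l, k, rfl⟩
    obtain ⟨m, rfl⟩ := (hsimp i).1 hi
    exact ⟨m :: l, k, rfl⟩

lemma Coo.pr_word (h : Coo C e co) (hA : ∀ i j, C.pr (e i) (e j) = A i j) (hA2 : ∀ i, A i i = 2)
    (l : List (Fin n)) (k : Fin n) (j : ι) :
    C.pr j (wl C (l.map e) (e k)) = bil A (co j) (wc A l (Pi.single k 1)) := by
  have h1 : wl C (l.map e) (wl C (l.map e).reverse j) = j := wl_rev' _ _
  set j' := wl C (l.map e).reverse j with hj'
  rw [← h1, h.pr_wl, h.pr_lin, h.co_word hA, bil_wr_wc A hA2, bil_single_right]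
  exact Finset.sum_congr rfl fun m _ => by rw [hA]

end

section
variable {ι : Type*} {F : Type*} [Field F] {L : Type*} [Group L] {C : RC ι} {K : ι → Subfield F}
  {x : ι → F → L}

/-- `nl l` maps root groups onto root groups -/
lemma nl_onto (h : TS C K x) (l : List ι) (j : ι) {u : F} (hu : u ∈ K j) : ∃ v, v ∈ K j ∧
    x (wl C l j) u = nl C x l * x j v * (nl C x l)⁻¹ := by
  induction l generalizing u with
  | nil => exact ⟨u, hu, by simp [nl_nil, wl_nil]⟩
  | cons i l ih =>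
    obtain ⟨v, hv, h1⟩ := n_onto h i (wl C l j) (u := u) (by rwa [h.K_wl])
    rw [h.K_wl] at hv
    obtain ⟨w, hw, h2⟩ := ih hv
    refine ⟨w, hw, ?_⟩
    rw [wl_cons, h1, h2, nl_cons]
    group

/-- the inverse action -/
lemma nl_inv_act (h : TS C K x) (l : List ι) (j : ι) {u : F} (hu : u ∈ K j) : ∃ v, v ∈ K j ∧
    (nl C x l)⁻¹ * x (wl C l j) u * nl C x l = x j v := by
  obtain ⟨v, hv, h1⟩ := nl_onto h l j hu
  refine ⟨v, hv, ?_⟩
  rw [h1]
  group

end

section
variable {F : Type} [Field F] {L : Type u} [Group L] {ι : Type} {C : RC ι} {e : Fin 4 → ι}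
  {K₀ : Subfield F} {K : ι → Subfield F} {x : ι → F → L} {co : ι → Fin 4 → ℤ}

lemma F4_two : ∀ i, F₄ i i = 2 := by decide

namespace Dt

lemma co_word (h : Dt C e K₀ K x co) (l : List (Fin 4)) (j : ι) :
    co (wl C (l.map e) j) = wr F₄ l (co j) := h.coo.co_word h.td.pr l j

lemma pr_word (h : Dt C e K₀ K x co) (l : List (Fin 4)) (k : Fin 4) (j : ι) :
    C.pr j (wl C (l.map e) (e k)) = bil F₄ (co j) (wc F₄ l (Pi.single k 1)) :=
  h.coo.pr_word h.td.pr F4_two l k j

lemma pr_e (h : Dt C e K₀ K x co) (j : ι) (k : Fin 4) :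
    C.pr j (e k) = bil F₄ (co j) (Pi.single k 1) := h.pr_word [] k j

/-- torus elements centralize the root groups with trivial pairing -/
lemma Hc.fix [Finite F] (h : Dt C e K₀ K x co) {z : F} (hz : z ∈ K₀) (hz0 : z ≠ 0)
    {c : Fin 4 → ℤ} {t : L} (ht : Hc C e K x z c t) {i : ι} (hi : bil F₄ (co i) c = 0) {u : F}
    (hu : u ∈ K i) : t * x i u * t⁻¹ = x i u := by
  obtain ⟨l, k, rfl⟩ := exists_rw h.td.simp i
  rw [h.td.ts.K_wl] at hu
  obtain ⟨v, hv, h1⟩ := nl_onto h.td.ts (l.map e) (e k) hu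
  obtain ⟨t', ht'⟩ := h.exists_hc hz hz0 (wc F₄ l.reverse c)
  have h2 := Hc.word h hz hz0 ht' l
  rw [wc_rev F4_two] at h2
  have h3 : t = nl C x (l.map e) * t' * (nl C x (l.map e))⁻¹ := Hc.eq h ht h2
  have h4 := (ht'.ac k).2 v hv
  have h5 : bil F₄ (Pi.single k 1) (wc F₄ l.reverse c) = 0 := by
    rw [← bil_wr_wc F₄ F4_two l, wc_rev F4_two]
    rw [h.co_word, h.coo.co_e] at hi
    exact hi
  rw [h5, zpow_zero, one_mul] at h4
  rw [h1, h3]
  calc nl C x (l.map e) * t' * (nl C x (l.map e))⁻¹ *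
        (nl C x (l.map e) * x (e k) v * (nl C x (l.map e))⁻¹) *
        (nl C x (l.map e) * t' * (nl C x (l.map e))⁻¹)⁻¹ =
      nl C x (l.map e) * (t' * x (e k) v * t'⁻¹) * (nl C x (l.map e))⁻¹ := by group
    _ = _ := by rw [h4]

end Dt

end

end Vale.Agent.P240.R2.H493
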