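import Vale.Agent.P240.R2.H493.Vec

/-!
Elements of the torus of `²E₆(q)` given by coroots.
-/

set_option autoImplicit false

namespace Vale.Agent.P240.R2.H493

open Subgroup Vale.Agent.P240.K Vale.Agent.P240.H195 Vale.Agent.P240.R2.H945.W CartanMatrix
open Vale.Agent.P240.R2.H986.X (RC nn nl wl nl_nil nl_cons nl_append wl_nil wl_cons wl_append SS)
open Vale.Agent.P240.R2.H164.TW (T_act2 ext_simple gen_simple)

universe u

section
variable {F : Type} [Field F] {L : Type u} [Group L] {ι : Type} {C : RC ι} {e : Fin 4 → ι}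
  {K₀ : Subfield F} {K : ι → Subfield F} {x : ι → F → L} {co : ι → Fin 4 → ℤ}

/-- the data of `²E₆(q)` -/
structure Dt (C : RC ι) (e : Fin 4 → ι) (K₀ : Subfield F) (K : ι → Subfield F) (x : ι → F → L)
    (co : ι → Fin 4 → ℤ) : Prop where
  td : TD F₄ 2 C e K₀ K x
  coo : Coo C e co
  cen : ∀ g : L, (∀ y, g * y = y * g) → g = 1

namespace Dt

lemma simp (h : Dt C e K₀ K x co) (k : Fin 4) : C.simp (e k) := (h.td.simp _).2 ⟨k, rfl⟩

lemma mem_K (h : Dt C e K₀ K x co) (k : Fin 4) {z : F} (hz : z ∈ K₀) : z ∈ K (e k) := by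
  fin_cases k
  · change z ∈ K (e 0); rwa [h.td.K4_0]
  · change z ∈ K (e 1); rwa [h.td.K4_1]
  · change z ∈ K (e 2); rw [h.td.K4_2]; trivial
  · change z ∈ K (e 3); rw [h.td.K4_3]; trivial

/-- elements of `T` are determined by their action on the simple root groups -/
lemma T_ext (h : Dt C e K₀ K x co) {g : L} (hg : g ∈ TT C K x)
    (h1 : ∀ j, g * x (e j) 1 * g⁻¹ = x (e j) 1) : g = 1 := by
  have h2 : MulAut.conj g = 1 := by
    refine ext_simple h.td.ts fun i hi t ht => ?_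
    obtain ⟨j, rfl⟩ := (h.td.simp _).1 hi
    obtain ⟨c, hcK, hc0, h3⟩ := T_act2 h.td.ts hg (e j)
    have h4 := (h3 1 (one_mem _)).1
    rw [h1 j, mul_one] at h4
    have h5 := h.td.ts.x_inj (one_mem _) hcK h4
    subst h5
    rw [MulAut.conj_apply, MulAut.conj_apply, (h3 t ht).1, (h3 t ht).2, inv_one, one_mul]
    exact ⟨rfl, rfl⟩
  apply h.cen
  intro y
  have h3 := congrArg (fun f : MulAut L => f y) h2
  simp only [MulAut.conj_apply, MulAut.one_apply] at h3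
  exact mul_inv_eq_iff_eq_mul.1 h3

lemma T_eq (h : Dt C e K₀ K x co) {g g' : L} (hg : g ∈ TT C K x) (hg' : g' ∈ TT C K x)
    {c : Fin 4 → F} (h1 : ∀ j, Ac K x (e j) g (c j)) (h2 : ∀ j, Ac K x (e j) g' (c j)) :
    g = g' := by
  have h3 : g'⁻¹ * g = 1 := by
    apply h.T_ext (mul_mem (inv_mem hg') hg)
    intro j
    have e1 : g'⁻¹ * g * x (e j) 1 * (g'⁻¹ * g)⁻¹ = g'⁻¹ * (g * x (e j) 1 * g⁻¹) * g' := by group
    rw [e1, (h1 j).2 1 (one_mem _), ← (h2 j).2 1 (one_mem _)]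
    group
  rw [inv_mul_eq_one] at h3
  exact h3.symm

/-- the action of `h_i(z)`, `z ∈ K₀` -/
lemma ac_hh [Finite F] (h : Dt C e K₀ K x co) (i j : Fin 4) {z : F} (hz : z ∈ K₀) (hz0 : z ≠ 0) :
    Ac K x (e j) (hh C x (e i) z) (z ^ F₄ j i) := by
  by_cases hij : i = j
  · subst hij
    have h1 := h.td.ac_self i (h.mem_K i hz) hz0
    have h2 : ∀ i, F₄ i i = 2 := by decide
    rw [h2]
    convert h1 using 1
    rw [zpow_ofNat, pow_two]
  · refine ⟨?_, fun u hu => ?_⟩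
    · exact zpow_mem (h.mem_K j hz) _
    · rw [h.td.h_rel i j hij z u (h.mem_K i hz) hz0 hu]
      split_ifs with h2
      · have h3 : z ^ (-((2 : ℕ) : ℤ)) = (z * z)⁻¹ := by rw [zpow_neg, zpow_natCast, pow_two]
        rw [h2, h3, div_two h.td.card, pow_succ, pow_q z hz]
      · rfl

/-- the element of `T` given by the coroot `c` and `z ∈ K₀` -/
structure Hc (C : RC ι) (e : Fin 4 → ι) (K : ι → Subfield F) (x : ι → F → L) (z : F)
    (c : Fin 4 → ℤ) (t : L) : Prop where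
  mem : t ∈ TT C K x
  ac : ∀ j, Ac K x (e j) t (z ^ bil F₄ (Pi.single j 1) c)

lemma exists_hc [Finite F] (h : Dt C e K₀ K x co) {z : F} (hz : z ∈ K₀) (hz0 : z ≠ 0)
    (c : Fin 4 → ℤ) : ∃ t, Hc C e K x z c t := by
  have hp : ∀ k : ℤ, z ^ k ∈ K₀ := fun k => zpow_mem hz k
  have hq : ∀ k : ℤ, z ^ k ≠ 0 := fun k => zpow_ne_zero k hz0
  obtain ⟨g, hg, g0, g1, g2, g3⟩ := h.td.ac_sub (hp (bil F₄ (Pi.single 0 1) c))
    (hp (bil F₄ (Pi.single 1 1) c)) (hp (bil F₄ (Pi.single 2 1) c))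
    (hp (bil F₄ (Pi.single 3 1) c)) (hq _) (hq _) (hq _) (hq _)
  refine ⟨g, hg, fun j => ?_⟩
  fin_cases j
  exacts [g0, g1, g2, g3]

lemma Hc.eq (h : Dt C e K₀ K x co) {z : F} {c : Fin 4 → ℤ} {t t' : L}
    (ht : Hc C e K x z c t) (ht' : Hc C e K x z c t') : t = t' :=
  h.T_eq ht.mem ht'.mem ht.ac ht'.ac

/-- conjugation by `n_i(1)` -/
lemma Hc.conj [Finite F] (h : Dt C e K₀ K x co) {z : F} (hz : z ∈ K₀) (hz0 : z ≠ 0)
    {c : Fin 4 → ℤ} {t : L} (ht : Hc C e K x z c t) (i : Fin 4) :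
    Hc C e K x z (sc F₄ i c) (nn C.neg x (e i) 1 * t * (nn C.neg x (e i) 1)⁻¹) := by
  have hts := h.td.ts
  refine ⟨hts.nn_conj_T (e i) (one_mem _) one_ne_zero ht.mem, fun j => ?_⟩
  set k := bil F₄ (Pi.single i 1) c with hk
  obtain ⟨a, haK, ha0, h3⟩ := T_act2 hts ht.mem (e i)
  have ha : a = z ^ k := by
    have h4 := (h3 1 (one_mem _)).1
    rw [(ht.ac i).2 1 (one_mem _), mul_one, mul_one] at h4
    exact (hts.x_inj (ht.ac i).1 haK h4).symm
  have h5 : t * nn C.neg x (e i) 1 * t⁻¹ = nn C.neg x (e i) (z ^ k) := by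
    have e1 : t * nn C.neg x (e i) 1 * t⁻¹ = (t * x (e i) 1 * t⁻¹) *
        (t * x (C.neg (e i)) (-1⁻¹) * t⁻¹) * (t * x (e i) 1 * t⁻¹) := by
      rw [show nn C.neg x (e i) 1 = x (e i) 1 * x (C.neg (e i)) (-1⁻¹) * x (e i) 1 from rfl]
      group
    rw [e1, (h3 1 (one_mem _)).1, (h3 (-1⁻¹) (neg_mem (inv_mem (one_mem _)))).2, mul_one, ha]
    rw [show nn C.neg x (e i) (z ^ k) = x (e i) (z ^ k) * x (C.neg (e i)) (-(z ^ k)⁻¹) *
      x (e i) (z ^ k) from rfl]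
    simp
  have h6 : nn C.neg x (e i) 1 * t * (nn C.neg x (e i) 1)⁻¹ = (hh C x (e i) (z ^ k))⁻¹ * t := by
    rw [hh, ← h5]
    group
  have h7 : (hh C x (e i) (z ^ k))⁻¹ = hh C x (e i) (z ^ (-k)) := by
    rw [inv_eq_iff_mul_eq_one]
    apply h.T_ext (mul_mem (hts.h_mem (h.mem_K i (zpow_mem hz k)) (zpow_ne_zero k hz0))
      (hts.h_mem (h.mem_K i (zpow_mem hz (-k))) (zpow_ne_zero (-k) hz0)))
    intro j
    have h8 := (h.ac_hh i j (zpow_mem hz k) (zpow_ne_zero k hz0)).mul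
      (h.ac_hh i j (zpow_mem hz (-k)) (zpow_ne_zero (-k) hz0))
    have h9 := h8.2 1 (one_mem _)
    have h11 : (z ^ k) ^ F₄ j i * (z ^ (-k)) ^ F₄ j i = 1 := by
      rw [← mul_zpow, ← zpow_add₀ hz0, add_neg_cancel, zpow_zero, one_zpow]
    rw [h11, one_mul] at h9
    exact h9
  rw [h6, h7]
  have h8 := (h.ac_hh i j (zpow_mem hz (-k)) (zpow_ne_zero (-k) hz0)).mul (ht.ac j)
  convert h8 using 1
  rw [← zpow_mul, ← zpow_add₀ hz0, sc_eq, bil_sub_right, bil_smul_right, bil_single,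
    ← bil_single_left, ← hk]
  congr 1
  ring

lemma Hc.word [Finite F] (h : Dt C e K₀ K x co) {z : F} (hz : z ∈ K₀) (hz0 : z ≠ 0)
    {c : Fin 4 → ℤ} {t : L} (ht : Hc C e K x z c t) (l : List (Fin 4)) :
    Hc C e K x z (wc F₄ l c) (nl C x (l.map e) * t * (nl C x (l.map e))⁻¹) := by
  induction l with
  | nil => simpa [nl_nil, wc] using ht
  | cons i l ih =>
    have h1 := ih.conj h hz hz0 i
    have e1 : nl C x ((i :: l).map e) * t * (nl C x ((i :: l).map e))⁻¹ =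
        nn C.neg x (e i) 1 * (nl C x (l.map e) * t * (nl C x (l.map e))⁻¹) *
          (nn C.neg x (e i) 1)⁻¹ := by
      rw [List.map_cons, nl_cons]
      group
    rw [e1]
    exact h1

end Dt

end

end Vale.Agent.P240.R2.H493
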