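import Vale.Agent.P240.R2.H493.Co

/-!
Reflections of coordinate vectors.
-/

set_option autoImplicit false

namespace Vale.Agent.P240.R2.H493

open Matrix Vale.Agent.P240.R2.H986.X

section
variable {n : ℕ} (A : Matrix (Fin n) (Fin n) ℤ)

/-- the simple reflection on roots -/
def sr (i : Fin n) (v : Fin n → ℤ) : Fin n → ℤ := fun k => if k = i then v k - ∑ j, v j * A j i else v k

/-- the simple reflection on coroots -/
def sc (i : Fin n) (c : Fin n → ℤ) : Fin n → ℤ :=
  fun k => if k = i then c k - ∑ j, c j * A i j else c k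

/-- the pairing `⟨v, c⟩` -/
def bil (v c : Fin n → ℤ) : ℤ := ∑ j, ∑ i, v j * c i * A j i

/-- words -/
def wr (l : List (Fin n)) (v : Fin n → ℤ) : Fin n → ℤ := l.foldr (sr A) v

/-- words -/
def wc (l : List (Fin n)) (c : Fin n → ℤ) : Fin n → ℤ := l.foldr (sc A) c

lemma sr_eq (i : Fin n) (v : Fin n → ℤ) :
    sr A i v = v - (∑ j, v j * A j i) • (Pi.single i 1 : Fin n → ℤ) := by
  funext k
  by_cases h : k = i
  · subst h; simp [sr]
  · simp [sr, h]

lemma sc_eq (i : Fin n) (c : Fin n → ℤ) :
    sc A i c = c - (∑ j, c j * A i j) • (Pi.single i 1 : Fin n → ℤ) := by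
  funext k
  by_cases h : k = i
  · subst h; simp [sc]
  · simp [sc, h]

lemma bil_sub_left (v v' c : Fin n → ℤ) : bil A (v - v') c = bil A v c - bil A v' c := by
  simp only [bil, Pi.sub_apply, sub_mul, Finset.sum_sub_distrib]

lemma bil_sub_right (v c c' : Fin n → ℤ) : bil A v (c - c') = bil A v c - bil A v c' := by
  simp only [bil, Pi.sub_apply, mul_sub, sub_mul, Finset.sum_sub_distrib]

lemma bil_smul_left (a : ℤ) (v c : Fin n → ℤ) : bil A (a • v) c = a * bil A v c := by
  simp only [bil, Pi.smul_apply, smul_eq_mul, Finset.mul_sum, mul_assoc]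

lemma bil_smul_right (a : ℤ) (v c : Fin n → ℤ) : bil A v (a • c) = a * bil A v c := by
  simp only [bil, Pi.smul_apply, smul_eq_mul, Finset.mul_sum]
  refine Finset.sum_congr rfl fun j _ => Finset.sum_congr rfl fun i _ => ?_
  ring

lemma bil_single_left (i : Fin n) (c : Fin n → ℤ) :
    bil A (Pi.single i 1) c = ∑ j, c j * A i j := by
  unfold bil
  rw [Finset.sum_eq_single i]
  · simp
  · intro k _ hk
    simp [Pi.single_eq_of_ne hk]
  · simp

lemma bil_single_right (i : Fin n) (v : Fin n → ℤ) :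
    bil A v (Pi.single i 1) = ∑ j, v j * A j i := by
  unfold bil
  refine Finset.sum_congr rfl fun j _ => ?_
  rw [Finset.sum_eq_single i]
  · simp
  · intro k _ hk
    simp [Pi.single_eq_of_ne hk]
  · simp

lemma bil_single (i j : Fin n) : bil A (Pi.single i 1) (Pi.single j 1) = A i j := by
  rw [bil_single_left, Finset.sum_eq_single j]
  · simp
  · intro k _ hk
    simp [Pi.single_eq_of_ne hk]
  · simp

lemma bil_sr_sc (hA : ∀ i, A i i = 2) (i : Fin n) (v c : Fin n → ℤ) :
    bil A (sr A i v) (sc A i c) = bil A v c := by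
  rw [sr_eq, sc_eq, ← bil_single_left, ← bil_single_right, bil_sub_left, bil_sub_right,
    bil_smul_left, bil_sub_right, bil_smul_right, bil_smul_right, bil_single, hA]
  ring

lemma bil_wr_wc (hA : ∀ i, A i i = 2) (l : List (Fin n)) (v c : Fin n → ℤ) :
    bil A (wr A l v) (wc A l c) = bil A v c := by
  induction l with
  | nil => rfl
  | cons i l ih =>
    change bil A (sr A i (wr A l v)) (sc A i (wc A l c)) = _
    rw [bil_sr_sc A hA, ih]

/-- bilinearity on the left in coordinates -/
lemma bil_eq_sum (v c : Fin n → ℤ) : bil A v c = ∑ j, v j * bil A (Pi.single j 1) c := by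
  rw [bil]
  refine Finset.sum_congr rfl fun j _ => ?_
  rw [bil_single_left, Finset.mul_sum]
  exact Finset.sum_congr rfl fun i _ => mul_assoc _ _ _

lemma bil_congr {v c c' : Fin n → ℤ}
    (h : ∀ j, bil A (Pi.single j 1) c = bil A (Pi.single j 1) c') : bil A v c = bil A v c' := by
  rw [bil_eq_sum, bil_eq_sum A v c']
  simp only [h]

/-- linearity of words -/
lemma wr_sub (l : List (Fin n)) (v v' : Fin n → ℤ) : wr A l (v - v') = wr A l v - wr A l v' := by
  induction l with
  | nil => rfl
  | cons i l ih =>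
    change sr A i (wr A l (v - v')) = sr A i (wr A l v) - sr A i (wr A l v')
    rw [ih, sr_eq, sr_eq, sr_eq]
    simp only [Pi.sub_apply, sub_mul, Finset.sum_sub_distrib, sub_smul]
    abel

lemma wr_smul (l : List (Fin n)) (a : ℤ) (v : Fin n → ℤ) : wr A l (a • v) = a • wr A l v := by
  induction l with
  | nil => rfl
  | cons i l ih =>
    change sr A i (wr A l (a • v)) = a • sr A i (wr A l v)
    rw [ih, sr_eq, sr_eq, smul_sub, smul_smul, Finset.mul_sum]
    simp only [Pi.smul_apply, smul_eq_mul, mul_assoc]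

lemma wr_zero (l : List (Fin n)) : wr A l 0 = 0 := by
  have := wr_smul A l 0 0
  rwa [zero_smul, zero_smul] at this

lemma wr_add (l : List (Fin n)) (v v' : Fin n → ℤ) : wr A l (v + v') = wr A l v + wr A l v' := by
  have h1 : v + v' = v - (-1 : ℤ) • v' := by simp
  rw [h1, wr_sub, wr_smul]
  simp

lemma wr_sum (l : List (Fin n)) {κ : Type*} (s : Finset κ) (f : κ → Fin n → ℤ) :
    wr A l (∑ k ∈ s, f k) = ∑ k ∈ s, wr A l (f k) := by
  classical
  induction s using Finset.induction_on with
  | empty => simp [wr_zero]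
  | insert b s hb ih => rw [Finset.sum_insert hb, Finset.sum_insert hb, wr_add, ih]

/-- coordinates of words -/
lemma wr_eq_sum (l : List (Fin n)) (v : Fin n → ℤ) :
    wr A l v = ∑ j, v j • wr A l (Pi.single j 1) := by
  have h1 : v = ∑ j, v j • (Pi.single j 1 : Fin n → ℤ) := by
    funext k
    rw [Finset.sum_apply, Finset.sum_eq_single k]
    · simp
    · intro j _ hj
      simp [Pi.single_eq_of_ne (Ne.symm hj)]
    · simp
  conv_lhs => rw [h1]
  rw [wr_sum]
  exact Finset.sum_congr rfl fun j _ => wr_smul A l _ _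

end

section
variable {n : ℕ} {A : Matrix (Fin n) (Fin n) ℤ} {ι : Type} {C : RC ι} {e : Fin n → ι}
  {co : ι → Fin n → ℤ}

lemma Coo.co_simple (h : Coo C e co) (hA : ∀ i j, C.pr (e i) (e j) = A i j) (i : Fin n) (j : ι) :
    co (C.s (e i) j) = sr A i (co j) := by
  rw [h.co_s, h.pr_lin, h.co_e, sr_eq]
  simp only [hA]

lemma Coo.co_word (h : Coo C e co) (hA : ∀ i j, C.pr (e i) (e j) = A i j) (l : List (Fin n))
    (j : ι) : co (wl C (l.map e) j) = wr A l (co j) := by
  induction l with
  | nil => rfl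
  | cons i l ih =>
    change co (C.s (e i) (wl C (l.map e) j)) = sr A i (wr A l (co j))
    rw [h.co_simple hA, ih]

/-- words in the simple roots -/
lemma exists_word (hsimp : ∀ i, C.simp i ↔ ∃ k, i = e k) {l : List ι} (hl : ∀ i ∈ l, C.simp i) :
    ∃ l' : List (Fin n), l = l'.map e := by
  induction l with
  | nil => exact ⟨[], rfl⟩
  | cons i l ih =>
    obtain ⟨l', rfl⟩ := ih fun j hj => hl j (by simp [hj])
    obtain ⟨k, rfl⟩ := (hsimp i).1 (hl i (by simp))
    exact ⟨k :: l', rfl⟩

lemma Coo.neg (h : Coo C e co) (i : ι) : co (C.neg i) = - co i := by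
  rw [← C.s_self, h.co_s, C.pr_self]
  funext k
  simp
  ring

lemma Coo.ht_pos (h : Coo C e co) {i : ι} {k : Fin n} (hk : 0 < co i k) : 0 < C.ht i := by
  rcases lt_trichotomy (C.ht i) 0 with h1 | h1 | h1
  · have h2 : 0 < C.ht (C.neg i) := by rw [C.ht_neg]; omega
    have h3 := h.pos _ h2 k
    rw [h.neg, Pi.neg_apply] at h3
    omega
  · exact absurd h1 (C.ht_ne i)
  · exact h1

/-- if the images of the simple roots are positive, all positive roots have positive images -/
lemma Coo.word_pos (h : Coo C e co) (hA : ∀ i j, C.pr (e i) (e j) = A i j) {l : List (Fin n)}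
    (hl : ∀ k, 0 < C.ht (wl C (l.map e) (e k))) {j : ι} (hj : 0 < C.ht j) :
    0 < C.ht (wl C (l.map e) j) := by
  have h1 : 0 ≤ C.ht (wl C (l.map e) j) := by
    rw [h.ht, h.co_word hA, wr_eq_sum]
    refine Finset.sum_nonneg fun k _ => ?_
    rw [Finset.sum_apply]
    refine Finset.sum_nonneg fun m _ => ?_
    rw [Pi.smul_apply, smul_eq_mul]
    refine mul_nonneg (h.pos j hj m) ?_
    rw [← h.co_e, ← h.co_word hA]
    exact h.pos _ (hl m) k
  exact lt_of_le_of_ne h1 (Ne.symm (C.ht_ne _))

end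

end Vale.Agent.P240.R2.H493
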